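import Vale.Agent.P204.Full.Common.Linear
import Vale.Agent.P204.Full.Point.Linear

/-!
P204 potential theory: the pointwise identity behind the kernel of the potential.
-/

noncomputable section

namespace Vale.Agent.P204.Full.Potential

open Vale.Agent.P204.Full.Point

/-- A positive compatible pair has an adapted frame starting at any unit vector. -/
theorem exists_adapted {J : Endo} {om : Bil} (hJ : ∀ v, J (J v) = -v) (alt : IsAlt om)
    (hinv : pullBil J om = om) (hpos : ∀ v, v ≠ 0 → 0 < om v (J v)) {p : R4}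
    (hp : om p (J p) = 1) :
    ∃ A : R4 ≃L[ℝ] R4, A (bvec 0) = p ∧ pullBil (A : Endo) om = omega0 ∧
      ∀ v, J (A v) = A (J0 v) := by
  have gJ : ∀ a b, om (J a) (J b) = om a b := fun a b =>
    congrArg (fun f : Bil => f a b) hinv
  have self : ∀ u, om u u = 0 := fun u => by have := alt u u; linarith
  have gsymm : ∀ u v, om u (J v) = om v (J u) := fun u v => by
    have h := gJ u (J v)
    rw [hJ, map_neg, ← alt] at h
    exact h.symm
  obtain ⟨w, hw⟩ : ∃ w, w ∉ Submodule.span ℝ (Set.range ![p, J p]) := by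
    by_contra hcon
    push Not at hcon
    have h1 := finrank_range_le_card (R := ℝ) ![p, J p]
    rw [Set.finrank, Submodule.eq_top_iff'.2 hcon, finrank_top] at h1
    simp at h1
  set w' : R4 := w - om p (J w) • p - om (J p) (J w) • J p with hw'
  have hw'0 : w' ≠ 0 := by
    intro h
    refine hw ?_
    have e : w = om p (J w) • p + om (J p) (J w) • J p := by
      rw [hw', sub_sub, sub_eq_zero] at h; exact h
    rw [e]
    refine add_mem (Submodule.smul_mem _ _ (Submodule.subset_span ⟨0, rfl⟩))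
      (Submodule.smul_mem _ _ (Submodule.subset_span ⟨1, rfl⟩))
  set s : ℝ := (Real.sqrt (om w' (J w')))⁻¹
  set q : R4 := s • w'
  have hs : om q (J q) = 1 := by
    simp only [q, s, map_smul, smul_apply, smul_eq_mul]
    rw [← mul_assoc, ← mul_inv, Real.mul_self_sqrt (hpos _ hw'0).le,
      inv_mul_cancel₀ (hpos _ hw'0).ne']
  have e1 : om (J p) (J (J p)) = 1 := by rw [gJ]; exact hp
  have o1 : om p (J (J p)) = 0 := by rw [hJ, map_neg, self, neg_zero]
  have o2 : om (J p) (J p) = 0 := self _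
  have z1 : om p (J q) = 0 := by
    simp only [q, hw', map_smul, map_sub, smul_eq_mul, hp, o1]; ring
  have z2 : om (J p) (J q) = 0 := by
    simp only [q, hw', map_smul, map_sub, smul_eq_mul, e1, o2]; ring
  have z3 : om p q = 0 := by rw [← gJ]; exact z2
  have z4 : om (J p) q = 0 := by rw [alt, gsymm, z1, neg_zero]
  set T : R4 →ₗ[ℝ] R4 :=
    (EuclideanSpace.proj 0 : R4 →L[ℝ] ℝ).toLinearMap.smulRight p +
      (EuclideanSpace.proj 1 : R4 →L[ℝ] ℝ).toLinearMap.smulRight (J p) +
      (EuclideanSpace.proj 2 : R4 →L[ℝ] ℝ).toLinearMap.smulRight q +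
      (EuclideanSpace.proj 3 : R4 →L[ℝ] ℝ).toLinearMap.smulRight (J q) with hT
  have hTv : ∀ v : R4, T v = v 0 • p + v 1 • J p + v 2 • q + v 3 • J q := fun v => by simp [hT]
  have hTJ : ∀ v, J (T v) = T (J0 v) := by
    intro v
    obtain ⟨a, b, c, d⟩ := J0_apply v
    rw [hTv, hTv, a, b, c, d]
    simp only [map_add, map_smul, hJ]
    module
  have hTo : ∀ u v, om (T u) (T v) = omega0 u v := by
    intro u v
    rw [hTv, hTv, omega0_apply]
    simp only [map_add, map_smul, add_apply, smul_apply, smul_eq_mul, self, hp, hs, z1,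
      z2, z3, z4, alt (J p) p, alt q p, alt q (J p), alt (J q) p, alt (J q) (J p), alt (J q) q]
    ring
  have hinj : Function.Injective T := by
    refine (injective_iff_map_eq_zero T).2 fun v hv => ?_
    have h := omega0_metric v
    rw [← hTo, ← hTJ, hv] at h
    simp at h
    exact norm_eq_zero.1 (pow_eq_zero_iff two_ne_zero |>.1 h.symm)
  refine ⟨(LinearEquiv.ofInjectiveEndo T hinj).toContinuousLinearEquiv, ?_, ?_, hTJ⟩
  · show T (bvec 0) = p
    rw [hTv]; simp [bvec_apply]
  · ext u v; exact hTo u v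

/-- Contracting a two-form with `p`: the trace part, a three-term kernel, and the `(2,0)` error. -/
theorem kernel_identity (c Cg : ℝ) (hc : 0 < c) : ∃ K R : ℝ, 0 ≤ K ∧ 0 ≤ R ∧ ∀ (J : Endo) (om : Bil),
    (∀ v, J (J v) = -v) → IsAlt om → pullBil J om = om → (∀ v, c * ‖v‖ ^ 2 ≤ om v (J v)) →
    (∀ u v, |om u (J v)| ≤ Cg * ‖u‖ * ‖v‖) → ∀ p : R4, om p (J p) = 1 →
      ∃ e1 e2 e3 : R4, ‖e1‖ ≤ R ∧ ‖e2‖ ≤ R ∧ ‖e3‖ ≤ R ∧ ∀ (b : Bil), IsAlt b → ∀ z : R4,
        |b z p - 2 * top22 b om / top22 om om * om z p -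
          (om z (J e1) * b e2 e3 - om z (J e2) * b e1 e3 + om z (J e3) * b e1 e2)|
        ≤ K * ‖z‖ * ‖anti20 J b‖ := by
  set R := (Real.sqrt c)⁻¹ with hR
  have hR0 : 0 ≤ R := inv_nonneg.2 (Real.sqrt_nonneg c)
  refine ⟨4 * |Cg| * R ^ 3, R, by positivity, hR0, fun J om hJ alt hinv hlow hup p hp => ?_⟩
  have hpos : ∀ v, v ≠ 0 → 0 < om v (J v) := fun v hv =>
    lt_of_lt_of_le (mul_pos hc (pow_pos (norm_pos_iff.2 hv) 2)) (hlow v)
  obtain ⟨A, hA0, hom, hAJ⟩ := exists_adapted hJ alt hinv hpos hp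
  have hoA : ∀ u v, om (A u) (A v) = omega0 u v := fun u v =>
    congrArg (fun f : Bil => f u v) hom
  have hn : ∀ i, ‖A (bvec i)‖ ≤ R := by
    intro i
    have h := hlow (A (bvec i))
    rw [hAJ, hoA, omega0_metric, norm_bvec, one_pow] at h
    rw [hR, ← Real.sqrt_inv]
    refine Real.le_sqrt_of_sq_le ?_
    rw [inv_eq_one_div, le_div_iff₀ hc]
    linarith
  refine ⟨A (bvec 1), A (bvec 2), A (bvec 3), hn 1, hn 2, hn 3, fun b hb z => ?_⟩
  obtain ⟨w, rfl⟩ : ∃ w, A w = z := ⟨A.symm z, A.apply_symm_apply z⟩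
  obtain ⟨j0, j1, j2, j3⟩ := J0_bvec
  set B := pullBil (A : Endo) b
  have hB : ∀ i j, b (A (bvec i)) (A (bvec j)) = co B i j := fun i j => rfl
  have hw : ∀ i, om (A w) (J (A (bvec i))) = w i := by
    intro i
    rw [hAJ, hoA, omega0_apply]
    obtain ⟨a, b, c, d⟩ := J0_apply (bvec i)
    rw [a, b, c, d]
    fin_cases i <;> simp [bvec_apply]
  have hratio : 2 * top22 b om / top22 om om = co B 0 1 + co B 2 3 := by
    have h1 := top22_pull (A : Endo) hb alt
    have h2 := top22_pull (A : Endo) alt alt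
    rw [hom, top22_omega0] at h2
    have h3 : top22 (pullBil (A : Endo) b) (pullBil (A : Endo) om) = co B 0 1 + co B 2 3 := by
      rw [hom]; simp [top22, omega0_apply, bvec_apply, co, B]
    have hd : top22 om om ≠ 0 := fun h => by rw [h] at h2; linarith
    rw [← h3, h1, div_eq_iff hd, h2]; ring
  have hzp : b (A w) p = -(w 1 * co B 0 1) - w 2 * co B 0 2 - w 3 * co B 0 3 := by
    rw [← hA0]
    show B w (bvec 0) = _
    rw [bil_expand B]
    simp only [Fin.sum_univ_four, bvec_apply, co_diag (alt_pull hb (A : Endo)) 0,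
      co_swap (alt_pull hb (A : Endo)) 1 0, co_swap (alt_pull hb (A : Endo)) 2 0,
      co_swap (alt_pull hb (A : Endo)) 3 0, B]
    simp
    ring
  have hozp : om (A w) p = -w 1 := by
    rw [← hA0, hoA, omega0_apply]; simp [bvec_apply]
  have a2 : 2 * anti20 J b (A (bvec 0)) (A (bvec 2)) = co B 0 2 - co B 1 3 := by
    simp only [anti20, smul_apply, sub_apply, pullBil_apply, hAJ, j0, j2, hB, smul_eq_mul]
    ring
  have a3 : 2 * anti20 J b (A (bvec 0)) (A (bvec 3)) = co B 0 3 + co B 1 2 := by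
    simp only [anti20, smul_apply, sub_apply, pullBil_apply, hAJ, j0, j3, map_neg, hB,
      smul_eq_mul]
    ring
  have key : b (A w) p - 2 * top22 b om / top22 om om * om (A w) p -
      (om (A w) (J (A (bvec 1))) * b (A (bvec 2)) (A (bvec 3)) -
        om (A w) (J (A (bvec 2))) * b (A (bvec 1)) (A (bvec 3)) +
        om (A w) (J (A (bvec 3))) * b (A (bvec 1)) (A (bvec 2))) =
      -2 * (w 2 * anti20 J b (A (bvec 0)) (A (bvec 2)) +
        w 3 * anti20 J b (A (bvec 0)) (A (bvec 3))) := by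
    rw [hratio, hzp, hozp, hw, hw, hw, hB, hB, hB]
    linear_combination w 2 * a2 + w 3 * a3
  rw [key, abs_mul]
  set N := ‖anti20 J b‖
  have hwi : ∀ i, |w i| ≤ |Cg| * R * ‖A w‖ := by
    intro i
    have h := hup (A w) (A (bvec i))
    rw [hw i] at h
    calc |w i| ≤ Cg * ‖A w‖ * ‖A (bvec i)‖ := h
      _ ≤ |Cg| * ‖A w‖ * R := by
          refine mul_le_mul (mul_le_mul_of_nonneg_right (le_abs_self _) (norm_nonneg _)) (hn i)
            (norm_nonneg _) (by positivity)
      _ = _ := by ring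
  have hev : ∀ j, |anti20 J b (A (bvec 0)) (A (bvec j))| ≤ N * R * R := fun j => by
    refine ((anti20 J b).le_opNorm₂ _ _).trans ?_
    gcongr <;> exact hn _
  have h1 : ∀ j, |w j * anti20 J b (A (bvec 0)) (A (bvec j))| ≤
      |Cg| * R ^ 3 * ‖A w‖ * N := fun j => by
    rw [abs_mul]
    calc _ ≤ (|Cg| * R * ‖A w‖) * (N * R * R) :=
          mul_le_mul (hwi j) (hev j) (abs_nonneg _) (by positivity)
      _ = _ := by ring
  have h2 := (abs_add_le _ _).trans (add_le_add (h1 2) (h1 3))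
  norm_num
  linarith

end Vale.Agent.P204.Full.Potential
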