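import Vale.Agent.P204.Full.Potential.PotMoll

/-!
P204 potential theory: the density of a source as a measure, and the basic potential estimates of the
mollified source.
-/

open scoped ContDiff
open MeasureTheory Set Metric

noncomputable section

namespace Vale.Agent.P204.Full.Potential

variable {M : ℝ} (S : Source M)

/-- The density part of a source, as a measure. -/
def hMeas : Measure R4 := volume.withDensity fun z => ENNReal.ofReal (S.h z)

theorem Source.h_int : Integrable S.h := by
  have : IsFiniteMeasure (volume.restrict (closedBall (0 : R4) (7 / 2))) :=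
    ⟨by rw [Measure.restrict_apply_univ]; exact measure_closedBall_lt_top⟩
  have h := ((S.h_sq.restrict (closedBall (0 : R4) (7 / 2))).integrable (by norm_num) :
    Integrable S.h (volume.restrict (closedBall (0 : R4) (7 / 2))))
  refine (integrableOn_iff_integrable_of_support_subset fun z hz => ?_).1 h
  rw [mem_closedBall_zero_iff]
  by_contra hc
  exact hz (S.h_supp z (not_le.1 hc))

instance hMeas_finite : IsFiniteMeasure (hMeas S) :=
  isFiniteMeasure_withDensity_ofReal S.h_int.2

theorem hMeas_supp : hMeas S (closedBall (0 : R4) (7 / 2))ᶜ = 0 := by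
  rw [hMeas, withDensity_apply _ measurableSet_closedBall.compl]
  refine setLIntegral_eq_zero measurableSet_closedBall.compl fun z hz => ?_
  rw [mem_compl_iff, mem_closedBall_zero_iff, not_le] at hz
  simp [S.h_supp z hz]

theorem integral_hMeas (F : R4 → ℝ) : ∫ z, F z ∂hMeas S = ∫ z, F z * S.h z := by
  rw [hMeas, integral_withDensity_eq_integral_toReal_smul S.h_meas.ennreal_ofReal
    (Filter.Eventually.of_forall fun z => ENNReal.ofReal_lt_top)]
  congr 1
  funext z
  rw [ENNReal.toReal_ofReal (S.h_nonneg z), smul_eq_mul, mul_comm]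

theorem potM_hMeas (a : ℕ) (d : ℝ) (x : R4) : potM a d (hMeas S) x = potF a d S.h x :=
  integral_hMeas S _

theorem mollM_hMeas (d : ℝ) (y : R4) :
    mollM d (hMeas S) y = ∫ z, moll d (y - z) * S.h z :=
  integral_hMeas S _

/-- The bound of the mass of the density part. -/
def hMass (M : ℝ) : ℝ := (max M 0 + (volume : Measure R4).real (closedBall (0 : R4) (7 / 2))) / 2

theorem hMeas_mass : (hMeas S).real univ ≤ hMass M := by
  have h1 : (hMeas S).real univ = ∫ z, S.h z := by
    simpa using integral_hMeas S fun _ => (1 : ℝ)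
  have hone : Integrable ((closedBall (0 : R4) (7 / 2)).indicator fun _ => (1 : ℝ)) :=
    (integrable_indicator_iff measurableSet_closedBall).2
      (integrableOn_const measure_closedBall_lt_top.ne)
  have hsq : Integrable fun z => S.h z ^ 2 := S.h_sq.integrable_sq
  rw [h1]
  calc ∫ z, S.h z ≤ ∫ z, (S.h z ^ 2 + (closedBall (0 : R4) (7 / 2)).indicator (fun _ => (1 : ℝ)) z) / 2 := by
        refine integral_mono S.h_int ((hsq.add hone).div_const 2) fun z => ?_
        by_cases hz : z ∈ closedBall (0 : R4) (7 / 2)
        · rw [indicator_of_mem hz]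
          linarith [sq_nonneg (S.h z - 1)]
        · rw [indicator_of_notMem hz]
          rw [mem_closedBall_zero_iff, not_le] at hz
          simp [S.h_supp z hz]
    _ ≤ hMass M := by
        rw [integral_div, integral_add hsq hone, integral_indicator measurableSet_closedBall,
          setIntegral_const, hMass, smul_eq_mul, mul_one]
        linarith [S.h_norm, le_max_left M 0]

theorem hMass_nonneg (M : ℝ) : 0 ≤ hMass M := by
  have := le_max_right M 0
  have : 0 ≤ (volume : Measure R4).real (closedBall (0 : R4) (7 / 2)) := measureReal_nonneg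
  unfold hMass
  linarith

theorem potM2_hMeas_le {d : ℝ} (hd : 0 < d) (hd1 : d ≤ 1) {x : R4} (hx : ‖x‖ ≤ 4) :
    potM 2 d (hMeas S) x ≤ 9 * potF 3 d S.h x := by
  rw [← potM_hMeas]
  rw [potM, potM, ← integral_const_mul]
  refine integral_mono_ae ((ker_bdd_at 2 hd x).integrable _)
    (((ker_bdd_at 3 hd x).integrable _).const_mul 9) ?_
  filter_upwards [mem_ae_iff.2 (hMeas_supp S)] with w hw
  rw [mem_closedBall_zero_iff] at hw
  simp only [ker]
  rw [inv_eq_one_div, ← div_eq_mul_inv, div_le_div_iff₀ (by positivity) (by positivity), one_mul,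
    pow_succ, mul_comm]
  exact mul_le_mul_of_nonneg_right (by linarith [norm_sub_le x w]) (by positivity)

variable {μ : Measure R4} [IsFiniteMeasure μ]

theorem potM3_ball4 {d : ℝ} (hd : 0 < d) :
    ∫ y in ball (0 : R4) 4, potM 3 d μ y ≤ 132 * unitVol * μ.real univ := by
  have hi : Integrable (fun p : R4 × R4 => ker 3 d (p.1 - p.2)) (volFour.prod μ) :=
    (ker_bdd_sub 3 hd).integrable _
  calc ∫ y in ball (0 : R4) 4, potM 3 d μ y = ∫ w, (∫ y, ker 3 d (y - w) ∂volFour) ∂μ :=
        integral_integral_swap hi
    _ ≤ ∫ _w, 132 * unitVol ∂μ := by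
        refine integral_mono (hi.integral_prod_right) (integrable_const _) fun w => ?_
        refine le_trans (le_of_eq ?_) (potM3_volFour hd w)
        simp only [potM, ker_comm 3 d w]
    _ = _ := by rw [integral_const, smul_eq_mul, mul_comm]

theorem mul_potM3_le {d : ℝ} (hd : 0 < d) (x : R4) : d * potM 3 d μ x ≤ potM 2 d μ x := by
  rw [potM, potM, ← integral_const_mul]
  refine integral_mono (((ker_bdd_at 3 hd x).integrable μ).const_mul d)
    ((ker_bdd_at 2 hd x).integrable μ) fun w => ?_
  have := norm_nonneg (x - w)
  simp only [ker]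
  rw [inv_eq_one_div, inv_eq_one_div, mul_one_div, div_le_div_iff₀ (by positivity) (by positivity),
    one_mul, pow_succ (‖x - w‖ + d) 2, mul_comm]
  exact mul_le_mul_of_nonneg_left (by linarith) (by positivity)

end Vale.Agent.P204.Full.Potential
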