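import Vale.Agent.P204.Full.Potential.PotEuc
import Vale.Agent.P204.Full.Potential.PotSrc
import Vale.Agent.P204.Full.Potential.PotForm

/-!
P204 potential theory: the radial contraction of a smoothed current against the potential of its
trace measure, up to the error kernels.
-/

open scoped ContDiff Topology
open MeasureTheory Set Metric Filter

noncomputable section

namespace Vale.Agent.P204.Full.Potential

open Vale.Agent.P204.Full.Elliptic (qf ae_ne_zero)

theorem inv_integrable {c Cg : ℝ} {g : Bil} (hg : MetBound c Cg g) (hc : 0 < c) {F : R4 → ℝ}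
    (hF : Continuous F) (hR : ∀ z, 8 ≤ ‖z‖ → F z = 0) : Integrable fun z => (qf g z)⁻¹ * F z := by
  have hcs : HasCompactSupport F :=
    HasCompactSupport.of_support_subset_isCompact (isCompact_closedBall (0 : R4) 8) fun z hz => by
      rw [mem_closedBall_zero_iff]
      by_contra h
      exact hz (hR z (le_of_lt (not_le.1 h)))
  obtain ⟨B, hB⟩ := hcs.exists_bound_of_continuous hF
  have hdom : Integrable fun z => sing 2 z * ((c⁻¹) * |F z|) :=
    sing_integrable (by norm_num) ((hF.abs.measurable).const_mul _) (B := |c⁻¹| * B) (R := 8)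
      (fun z => by
        rw [abs_mul, abs_abs]
        exact mul_le_mul_of_nonneg_left (hB z) (abs_nonneg _))
      fun z hz => by simp [hR z hz]
  refine hdom.mono' (((Elliptic.contDiff_qf g).continuous.measurable.inv).mul
    hF.measurable).aestronglyMeasurable ?_
  filter_upwards [ae_ne_zero] with z hz
  have h := hg.inv_q hc 1 hz
  simp only [pow_one, mul_one] at h
  rw [Real.norm_eq_abs, abs_mul, abs_of_nonneg h.1]
  refine (mul_le_mul_of_nonneg_right h.2 (abs_nonneg _)).trans (le_of_eq ?_)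
  ring

theorem smoothed_mass_abs {K : Coef} {M : ℝ} {S : Source M} {A d : ℝ} {f : R4 → Bil} (hd : 0 < d)
    (hd4 : d ≤ 1 / 4) (h : Smoothed K S A d f) : ∫ y, ‖f y‖ ≤ |A| * (|M| + hMass M) := by
  have := S.finite_ν
  have hn : S.ν.real univ ≤ |M| := S.mass.trans (le_abs_self M)
  have i1 : Integrable (mollM d S.ν) :=
    (mollM_smooth hd S.supp_ν).continuous.integrable_of_hasCompactSupport (mollM_hcs hd S.supp_ν)
  have i2 : Integrable (mollM d (hMeas S)) :=
    (mollM_smooth hd (hMeas_supp S)).continuous.integrable_of_hasCompactSupport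
      (mollM_hcs hd (hMeas_supp S))
  calc ∫ y, ‖f y‖ ≤ ∫ y, |A| * (mollM d S.ν y + mollM d (hMeas S) y) := by
        refine integral_mono
          (h.smooth.continuous.integrable_of_hasCompactSupport (hcs_of_supp h.supp)).norm
          ((i1.add i2).const_mul _) fun y => (h.bound y).trans ?_
        rw [← mollM_hMeas]
        exact mul_le_mul_of_nonneg_right (le_abs_self A)
          (add_nonneg (mollM_nonneg d _ y) (mollM_nonneg d _ y))
    _ ≤ |A| * (|M| + hMass M) := by
        rw [integral_const_mul, integral_add i1 i2, mollM_integral hd S.supp_ν,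
          mollM_integral hd (hMeas_supp S)]
        exact mul_le_mul_of_nonneg_left (add_le_add hn (hMeas_mass S)) (abs_nonneg A)

theorem rad_form_integrable {c Cg : ℝ} {g : Bil} (hg : MetBound c Cg g) (hc : 0 < c) {f : R4 → Bil}
    (hf : ContDiff ℝ ∞ f) (hs : ∀ y, 15 / 4 < ‖y‖ → f y = 0) {x : R4} (hx : ‖x‖ ≤ 4)
    {F : R4 → Bil → ℝ} (hF : Continuous fun z => F z (f (x - z))) {L : ℝ}
    (hL : ∀ z b, |F z b| ≤ L * ‖z‖ * ‖b‖) : Integrable fun z => (qf g z ^ 2)⁻¹ * F z (f (x - z)) := by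
  obtain ⟨B, hB⟩ := (hcs_of_supp hs).exists_bound_of_continuous hf.continuous
  refine rad_integrable hg hc hF.measurable (B := |L| * B) (fun z => ?_) fun z hz => ?_
  · calc |F z (f (x - z))| ≤ |L| * ‖z‖ * ‖f (x - z)‖ :=
          (hL _ _).trans (by gcongr; exact le_abs_self L)
      _ ≤ |L| * ‖z‖ * B := mul_le_mul_of_nonneg_left (hB _) (by positivity)
      _ = _ := by ring
  · have h := hL z (f (x - z))
    rw [far_zero hs hx hz, norm_zero, mul_zero] at h
    rw [far_zero hs hx hz]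
    exact abs_nonpos_iff.1 h

theorem tri_integral {c Cg D : ℝ} {g : Bil} (hg : MetBound c Cg g) (hc : 0 < c) (hCg : 0 ≤ Cg)
    (hD : ∀ z v, |fderiv ℝ (annKer 1 g) z v| ≤ D * ‖v‖) {f : R4 → Bil}
    (hf : ContDiff ℝ ∞ f) (hs : ∀ y, 15 / 4 < ‖y‖ → f y = 0)
    (hcl : ∀ y, ‖y‖ < 11 / 4 → ∀ u v w, d2At f y u v w = 0) {x : R4} (hx : ‖x‖ ≤ 27 / 10)
    (e1 e2 e3 : R4) :
    Integrable (fun z => (qf g z ^ 2)⁻¹ * (g z e1 * f (x - z) e2 e3 - g z e2 * f (x - z) e1 e3 +
      g z e3 * f (x - z) e1 e2)) ∧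
    |∫ z, (qf g z ^ 2)⁻¹ * (g z e1 * f (x - z) e2 e3 - g z e2 * f (x - z) e1 e3 +
      g z e3 * f (x - z) e1 e2)| ≤ 3 / 2 * D * (‖e1‖ * ‖e2‖ * ‖e3‖) * ∫ y, ‖f y‖ := by
  have hx4 : ‖x‖ ≤ 4 := by linarith
  have hfc : Continuous fun z => f (x - z) :=
    hf.continuous.comp (continuous_const.sub continuous_id)
  have i2 : ∀ e a b : R4, Integrable fun z => (qf g z ^ 2)⁻¹ * (g z e * f (x - z) a b) := fun e a b =>
    rad_form_integrable hg hc hf hs hx4 (F := fun z B => g z e * B a b)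
      ((g.continuous.clm_apply continuous_const).mul
        ((hfc.clm_apply continuous_const).clm_apply continuous_const))
      (L := Cg * ‖e‖ * (‖a‖ * ‖b‖)) fun z B => by
        rw [abs_mul]
        calc |g z e| * |B a b| ≤ Cg * ‖z‖ * ‖e‖ * (‖B‖ * ‖a‖ * ‖b‖) :=
              mul_le_mul (hg.2.2 z e) (by rw [← Real.norm_eq_abs]; exact B.le_opNorm₂ a b)
                (abs_nonneg _) (by positivity)
          _ = _ := by ring
  have j : ∀ e a b : R4, Integrable fun z => (qf g z)⁻¹ * fderiv ℝ f (x - z) e a b := fun e a b =>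
    inv_integrable hg hc
      (((((hf.continuous_fderiv (by simp)).comp
        (continuous_const.sub continuous_id)).clm_apply continuous_const).clm_apply
          continuous_const).clm_apply continuous_const)
      fun z hz => by simp [far_zero (fderiv_supp hs) hx4 hz]
  have hbp : ∀ e a b : R4, ∫ z, (qf g z ^ 2)⁻¹ * (g z e * f (x - z) a b) =
      -(1 / 2) * ∫ z, (qf g z)⁻¹ * fderiv ℝ f (x - z) e a b := fun e a b => by
    have h := newton_byParts hg hc hCg (form_apply_smooth hf a b)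
      (fun y hy => by simp [hs y hy]) (show ‖x‖ ≤ 3 by linarith) e
    simp only [fderiv_form_apply hf] at h
    rw [h]
    have : ∀ z, (qf g z ^ 2)⁻¹ * (g z e * f (x - z) a b) =
        g z e * (qf g z ^ 2)⁻¹ * f (x - z) a b := fun z => by ring
    simp only [this]
    ring
  refine ⟨(((i2 e1 e2 e3).sub (i2 e2 e1 e3)).add (i2 e3 e1 e2)).congr
    (Eventually.of_forall fun z => by simp only [Pi.add_apply, Pi.sub_apply]; ring), ?_⟩
  have e : ∫ z, (qf g z ^ 2)⁻¹ * (g z e1 * f (x - z) e2 e3 - g z e2 * f (x - z) e1 e3 +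
      g z e3 * f (x - z) e1 e2) = -(1 / 2) * ∫ z, annKer 1 g z * d2At f (x - z) e1 e2 e3 := by
    have e0 : ∫ z, (qf g z ^ 2)⁻¹ * (g z e1 * f (x - z) e2 e3 - g z e2 * f (x - z) e1 e3 +
        g z e3 * f (x - z) e1 e2) = (∫ z, (qf g z ^ 2)⁻¹ * (g z e1 * f (x - z) e2 e3)) -
        (∫ z, (qf g z ^ 2)⁻¹ * (g z e2 * f (x - z) e1 e3)) +
          ∫ z, (qf g z ^ 2)⁻¹ * (g z e3 * f (x - z) e1 e2) := by
      rw [← integral_sub (i2 e1 e2 e3) (i2 e2 e1 e3)]
      refine Eq.trans ?_ (integral_add ((i2 e1 e2 e3).sub (i2 e2 e1 e3)) (i2 e3 e1 e2))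
      refine integral_congr_ae (Eventually.of_forall fun z => ?_)
      simp only [Pi.sub_apply]
      ring
    have e1' : ∫ z, annKer 1 g z * d2At f (x - z) e1 e2 e3 =
        (∫ z, (qf g z)⁻¹ * fderiv ℝ f (x - z) e1 e2 e3) -
          (∫ z, (qf g z)⁻¹ * fderiv ℝ f (x - z) e2 e1 e3) +
            ∫ z, (qf g z)⁻¹ * fderiv ℝ f (x - z) e3 e1 e2 := by
      rw [← integral_sub (j e1 e2 e3) (j e2 e1 e3)]
      refine Eq.trans ?_ (integral_add ((j e1 e2 e3).sub (j e2 e1 e3)) (j e3 e1 e2))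
      refine integral_congr_ae (Eventually.of_forall fun z => ?_)
      have h := closed_annulus hs hcl 1 g hx z e1 e2 e3
      rw [pow_one] at h
      simp only [Pi.sub_apply]
      rw [← h, d2At]
      ring
    rw [e0, e1', hbp, hbp, hbp]
    ring
  rw [e, abs_mul, show |-(1 / 2 : ℝ)| = 1 / 2 by norm_num]
  obtain ⟨hκ, hκc⟩ := annKer_smooth 1 hg hc
  have hw := d2At_weight hf hs hκ hκc hD x e1 e2 e3
  linarith

/-- The error weight. -/
theorem err_integral {M : ℝ} (S : Source M) {d : ℝ} (hd : 0 < d) (x : R4) {E : R4 → ℝ} {k : ℝ}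
    (hk : 0 ≤ k) (hE : ∀ᵐ z, |E z| ≤ k * (sing 2 z * mollM d S.ν (x - z) +
      d * (sing 3 z * mollM d S.ν (x - z)) + sing 3 z * mollM d (hMeas S) (x - z))) :
    |∫ z, E z| ≤ 2 * singConst * k * (1 + potM 2 d S.ν x + potF 3 d S.h x) := by
  have := S.finite_ν
  have hS := singConst_nonneg
  have hp2 := potM_nonneg 2 hd.le S.ν x
  have hF3 : 0 ≤ potF 3 d S.h x := by rw [← potM_hMeas]; exact potM_nonneg 3 hd.le _ x
  have h2i := sing_mollM_integrable (a := 2) (by norm_num) hd S.supp_ν x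
  have h3i := sing_mollM_integrable (a := 3) le_rfl hd S.supp_ν x
  have hqi := sing_mollM_integrable (a := 3) le_rfl hd (hMeas_supp S) x
  refine abs_integral_le_integral_abs.trans ((integral_mono_of_nonneg
    (Eventually.of_forall fun z => abs_nonneg _)
    (((h2i.add (h3i.const_mul d)).add hqi).const_mul k) hE).trans ?_)
  rw [integral_const_mul, integral_add' (h2i.add (h3i.const_mul d)) hqi,
    integral_add' h2i (h3i.const_mul d), integral_const_mul]
  have l2 := sing_mollM_le (a := 2) (by norm_num) le_rfl hd S.supp_ν x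
  have l3 := mul_le_mul_of_nonneg_left
    (sing_mollM_le (a := 3) le_rfl (by norm_num) hd S.supp_ν x) hd.le
  have lq := sing_mollM_le (a := 3) le_rfl (by norm_num) hd (hMeas_supp S) x
  rw [potM_hMeas] at lq
  have lm := mul_le_mul_of_nonneg_left (mul_potM3_le (μ := S.ν) hd x) hS
  rw [show 2 * singConst * k * (1 + potM 2 d S.ν x + potF 3 d S.h x) =
    k * (2 * singConst * (1 + potM 2 d S.ν x + potF 3 d S.h x)) by ring]
  refine mul_le_mul_of_nonneg_left ?_ hk
  nlinarith [mul_nonneg hS hF3, mul_nonneg hS hp2]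

/-- The pointwise error. -/
theorem err_pointwise {c Cg A K1 CT Co d : ℝ} {g om : Bil} (hg : MetBound c Cg g) (hc : 0 < c)
    (hK1 : 0 ≤ K1) {z : R4} (hz : z ≠ 0) {t te err w s : ℝ} {v : R4} (hw : 0 ≤ w)
    (ht : 0 ≤ t) (htle : t ≤ Real.sqrt Cg * ‖v‖) (hs : |s| ≤ CT) (hte : |te| ≤ |A| * w)
    (hom : ‖om‖ ≤ Co) (herr : |err| ≤ K1 * ‖z‖ * (|A| * w)) {m q : ℝ}
    (hwe : w = (‖z‖ + d) * m + q) :
    |(qf g z ^ 2)⁻¹ * (2 * s * te * om z v + t * err)| ≤
      (c ^ 2)⁻¹ * |A| * (2 * CT * Co + K1 * Real.sqrt Cg) * ‖v‖ *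
        (sing 2 z * m + d * (sing 3 z * m) + sing 3 z * q) := by
  have hn : 0 < ‖z‖ := norm_pos_iff.2 hz
  have hCT : 0 ≤ CT := (abs_nonneg _).trans hs
  have hCo : 0 ≤ Co := (norm_nonneg _).trans hom
  have hqz := hg.inv_q hc 2 hz
  have hov : |om z v| ≤ Co * ‖z‖ * ‖v‖ := by
    rw [← Real.norm_eq_abs]
    refine (om.le_opNorm₂ z v).trans ?_
    gcongr
  rw [abs_mul, abs_of_nonneg hqz.1]
  calc (qf g z ^ 2)⁻¹ * |2 * s * te * om z v + t * err|
      ≤ (c ^ 2)⁻¹ * sing (2 * 2) z * (2 * CT * (|A| * w) * (Co * ‖z‖ * ‖v‖) +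
          Real.sqrt Cg * ‖v‖ * (K1 * ‖z‖ * (|A| * w))) := by
        refine mul_le_mul hqz.2 ((abs_add_le _ _).trans (add_le_add ?_ ?_)) (abs_nonneg _)
          (mul_nonneg (by positivity) (sing_nonneg _ z))
        · rw [abs_mul, abs_mul, abs_mul, show |(2 : ℝ)| = 2 by norm_num]
          exact mul_le_mul (mul_le_mul (mul_le_mul_of_nonneg_left hs zero_le_two) hte (abs_nonneg _)
            (by positivity)) hov (abs_nonneg _) (by positivity)
        · rw [abs_mul, abs_of_nonneg ht]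
          exact mul_le_mul htle herr (abs_nonneg _) (by positivity)
    _ = _ := by
        subst hwe
        simp only [sing]
        field_simp
        ring

theorem main_part (K : Coef) (A M : ℝ) : ∃ C : ℝ, ∀ (S : Source M) (d : ℝ) (f : R4 → Bil),
    0 < d → d ≤ 1 / 4 → Smoothed K S A d f → ∀ x : R4, ‖x‖ ≤ 5 / 2 → ∀ v : R4,
      |muPhi K x * (∫ z, (qf (metG K x) z ^ 2)⁻¹ * f (x - z) z v) -
          2 * muPot K x * (∫ z, K.om x z v * (qf (metG K x) z ^ 2)⁻¹ * mollM d S.ν (x - z))| ≤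
        C * ‖v‖ * (1 + potM 2 d S.ν x + potF 3 d S.h x) := by
  obtain ⟨c, Cg, hc, hCg, hmet, -⟩ := metG_bound K
  obtain ⟨K1, R, hK1, hR, hid⟩ := kernel_identity c Cg hc
  obtain ⟨D, hD0, hD⟩ := annKer_deriv 1 hc hCg
  have hcpt : IsCompact (closedBall (0 : R4) 3) := isCompact_closedBall _ _
  have hsub : closedBall (0 : R4) 3 ⊆ ball 0 4 := closedBall_subset_ball (by norm_num)
  obtain ⟨Cφ, hCφ⟩ := hcpt.exists_bound_of_continuousOn (muPhi_smooth K).continuous.continuousOn
  obtain ⟨Co, hCo⟩ := hcpt.exists_bound_of_continuousOn (K.om_smooth.continuousOn.mono hsub)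
  obtain ⟨CT, hCT⟩ := hcpt.exists_bound_of_continuousOn
    (f := fun x => (top22 (K.om x) (K.om x))⁻¹) (by
      refine ContinuousOn.inv₀ ?_ fun x hx => (K.om_top x (hsub hx)).ne'
      have hA : ∀ i j : Fin 4, ContinuousOn (fun x => K.om x (bvec i) (bvec j))
          (closedBall (0 : R4) 3) := fun i j =>
        (((K.om_smooth.continuousOn.mono hsub).clm_apply continuousOn_const).clm_apply
          continuousOn_const)
      simp only [top22]
      exact ((((((hA 0 1).mul (hA 2 3)).sub ((hA 0 2).mul (hA 1 3))).add ((hA 0 3).mul (hA 1 2))).add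
        ((hA 1 2).mul (hA 0 3))).sub ((hA 1 3).mul (hA 0 2))).add ((hA 2 3).mul (hA 0 1)))
  have hCφ0 : 0 ≤ Cφ := (norm_nonneg _).trans (hCφ 0 (by simp))
  have hCo0 : 0 ≤ Co := (norm_nonneg _).trans (hCo 0 (by simp))
  have hCT0 : 0 ≤ CT := (norm_nonneg _).trans (hCT 0 (by simp))
  have hS := singConst_nonneg
  have hM := hMass_nonneg M
  set C1 := 3 / 2 * D * R ^ 3 * (|A| * (|M| + hMass M)) * Real.sqrt Cg with hC1
  set C2 := 2 * singConst * ((c ^ 2)⁻¹ * |A| * (2 * CT * Co + K1 * Real.sqrt Cg)) with hC2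
  refine ⟨Cφ * (C1 + C2), fun S d f hd hd4 hf x hx v => ?_⟩
  have := S.finite_ν
  have hx3 : ‖x‖ ≤ 3 := by linarith
  have hx4 : ‖x‖ ≤ 4 := by linarith
  have hxb : x ∈ ball (0 : R4) 4 := mem_ball_zero_iff.2 (by linarith)
  have hxc : x ∈ closedBall (0 : R4) 3 := mem_closedBall_zero_iff.2 hx3
  have hg := hmet x
  set g := metG K x with hgdef
  set J := K.J x with hJdef
  set om := K.om x with homdef
  have hgo : ∀ u w, g u w = om u (J w) := fun u w => by
    rw [hgdef, metG_eq K hx3, gRaw_apply]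
  have hlow : ∀ w, c * ‖w‖ ^ 2 ≤ om w (J w) := fun w => by rw [← hgo]; exact hg.2.1 w
  have hup : ∀ u w, |om u (J w)| ≤ Cg * ‖u‖ * ‖w‖ := fun u w => by rw [← hgo]; exact hg.2.2 u w
  set T := top22 om om with hT
  have hT0 : 0 < T := K.om_top x hxb
  set m := mollM d S.ν with hm
  set q := mollM d (hMeas S) with hq
  have hp2 := potM_nonneg 2 hd.le S.ν x
  have hF3 : 0 ≤ potF 3 d S.h x := by rw [← potM_hMeas]; exact potM_nonneg 3 hd.le _ x
  set U := 1 + potM 2 d S.ν x + potF 3 d S.h x with hU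
  have hU1 : 1 ≤ U := by linarith
  have hC10 : 0 ≤ C1 := by positivity
  have hC20 : 0 ≤ C2 := by positivity
  -- scaling
  set t := Real.sqrt (g v v) with ht
  have ht0 : 0 ≤ t := Real.sqrt_nonneg _
  have htle : t ≤ Real.sqrt Cg * ‖v‖ := by
    rw [ht, ← Real.sqrt_sq (norm_nonneg v), ← Real.sqrt_mul hCg]
    exact Real.sqrt_le_sqrt (((le_abs_self _).trans (hg.2.2 v v)).trans (le_of_eq (by ring)))
  obtain ⟨p, hp, hvp⟩ : ∃ p, om p (J p) = 1 ∧ v = t • p := by
    rcases eq_or_ne v 0 with rfl | hv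
    · have hb : (bvec 0 : R4) ≠ 0 := fun h => by simpa [h] using nbvec 0
      have hpos := hg.pos hc _ hb
      refine ⟨(Real.sqrt (g (bvec 0) (bvec 0)))⁻¹ • bvec 0, ?_, by simp [ht]⟩
      simp only [map_smul, smul_apply, smul_eq_mul, ← hgo]
      rw [← mul_assoc, ← mul_inv, Real.mul_self_sqrt hpos.le, inv_mul_cancel₀ hpos.ne']
    · have hpos := hg.pos hc v hv
      refine ⟨t⁻¹ • v, ?_, by rw [smul_smul, mul_inv_cancel₀ (Real.sqrt_pos.2 hpos).ne', one_smul]⟩
      simp only [map_smul, smul_apply, smul_eq_mul, ← hgo]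
      rw [← mul_assoc, ← mul_inv, ht, Real.mul_self_sqrt hpos.le, inv_mul_cancel₀ hpos.ne']
  obtain ⟨e1, e2, e3, h1, h2, h3, hker⟩ :=
    hid J om (K.J_sq x hxb) (K.om_alt x hxb) (K.om_inv x hxb) hlow hup p hp
  -- integrability
  have hfc : Continuous fun z => f (x - z) :=
    hf.smooth.continuous.comp (continuous_const.sub continuous_id)
  have i0 : Integrable fun z => (qf g z ^ 2)⁻¹ * f (x - z) z v :=
    rad_form_integrable hg hc hf.smooth hf.supp hx4 (F := fun z b => b z v)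
      ((hfc.clm_apply continuous_id).clm_apply continuous_const) (L := ‖v‖) fun z b => by
        rw [← Real.norm_eq_abs]
        exact (b.le_opNorm₂ z v).trans_eq (by ring)
  obtain ⟨Bm, hBm⟩ := (mollM_bdd (μ := S.ν) d).bound
  have hm0 : ∀ z, 8 ≤ ‖z‖ → m (x - z) = 0 := fun z hz =>
    mollM_far hd S.supp_ν (by linarith [norm_sub_norm_le z x, norm_sub_rev z x])
  have hmc : Continuous fun z => m (x - z) :=
    (mollM_smooth hd S.supp_ν).continuous.comp (continuous_const.sub continuous_id)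
  have i1 : Integrable fun z => (qf g z ^ 2)⁻¹ * (om z v * m (x - z)) :=
    rad_integrable hg hc (((om.continuous.clm_apply continuous_const)).mul hmc).measurable
      (B := ‖om‖ * ‖v‖ * |Bm|) (fun z => by
        rw [abs_mul]
        calc |om z v| * |m (x - z)| ≤ ‖om‖ * ‖z‖ * ‖v‖ * |Bm| :=
              mul_le_mul (by rw [← Real.norm_eq_abs]; exact om.le_opNorm₂ z v)
                ((hBm _).trans (le_abs_self _)) (abs_nonneg _) (by positivity)
          _ = _ := by ring)
      fun z hz => by simp [hm0 z hz]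
  -- the three-term kernel
  set tri : R4 → ℝ := fun z => g z e1 * f (x - z) e2 e3 - g z e2 * f (x - z) e1 e3 +
    g z e3 * f (x - z) e1 e2 with htri
  obtain ⟨i3, htri0⟩ := tri_integral hg hc hCg (fun z w => (hD g hg z).2 w) hf.smooth hf.supp
    hf.closed (show ‖x‖ ≤ 27 / 10 by linarith) e1 e2 e3
  have htriI : |∫ z, (qf g z ^ 2)⁻¹ * tri z| ≤ 3 / 2 * D * R ^ 3 * (|A| * (|M| + hMass M)) := by
    refine htri0.trans ?_
    refine mul_le_mul (mul_le_mul_of_nonneg_left ?_ (by positivity)) (smoothed_mass_abs hd hd4 hf)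
      (integral_nonneg fun y => norm_nonneg _) (by positivity)
    calc ‖e1‖ * ‖e2‖ * ‖e3‖ ≤ R * R * R := by gcongr
      _ = R ^ 3 := by ring
  -- the error
  set E : R4 → ℝ := fun z => (qf g z ^ 2)⁻¹ * f (x - z) z v -
    2 / T * ((qf g z ^ 2)⁻¹ * (om z v * m (x - z))) - t * ((qf g z ^ 2)⁻¹ * tri z) with hE
  have iE : Integrable E := (i0.sub (i1.const_mul _)).sub (i3.const_mul _)
  set k := (c ^ 2)⁻¹ * |A| * (2 * CT * Co + K1 * Real.sqrt Cg) * ‖v‖ with hk
  have hk0 : 0 ≤ k := by positivity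
  have hEle : ∀ᵐ z, |E z| ≤
      k * (sing 2 z * m (x - z) + d * (sing 3 z * m (x - z)) + sing 3 z * q (x - z)) := by
    filter_upwards [ae_ne_zero] with z hz
    set b := f (x - z) with hb
    have hw0 : 0 ≤ (‖z‖ + d) * m (x - z) + q (x - z) :=
      add_nonneg (mul_nonneg (by positivity) (mollM_nonneg d _ _)) (mollM_nonneg d _ _)
    have hte : |top22 b om - m (x - z)| ≤ |A| * ((‖z‖ + d) * m (x - z) + q (x - z)) := by
      refine (hf.trace x (x - z) (by linarith)).trans ?_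
      rw [sub_sub_cancel, ← mollM_hMeas]
      exact mul_le_mul_of_nonneg_right (le_abs_self A) hw0
    have han : ‖anti20 J b‖ ≤ |A| * ((‖z‖ + d) * m (x - z) + q (x - z)) := by
      refine (hf.anti x (x - z) (by linarith)).trans ?_
      rw [sub_sub_cancel, ← mollM_hMeas]
      exact mul_le_mul_of_nonneg_right (le_abs_self A) hw0
    have herr := (hker b (hf.alt _) z).trans (mul_le_mul_of_nonneg_left han (by positivity))
    refine le_of_eq_of_le ?_ (err_pointwise (s := T⁻¹) (te := top22 b om - m (x - z)) (v := v) (om := om)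
      hg hc hK1 hz hw0 ht0 htle (hCT x hxc) hte (hCo x hxc) herr rfl)
    congr 1
    have hbv : b z v = t * b z p := by rw [hvp, map_smul, smul_eq_mul]
    have hov : om z v = t * om z p := by rw [hvp, map_smul, smul_eq_mul]
    simp only [hE, htri, ← hb, ← homdef, hbv, hov, hgo, hT]
    ring
  have hEI : |∫ z, E z| ≤ C2 * ‖v‖ * U :=
    (err_integral S hd x hk0 hEle).trans (le_of_eq (by rw [hk, hC2]; ring))
  -- assembly
  have hsplit : muPhi K x * (∫ z, (qf g z ^ 2)⁻¹ * f (x - z) z v) -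
      2 * muPot K x * (∫ z, om z v * (qf g z ^ 2)⁻¹ * m (x - z)) =
        muPhi K x * ((∫ z, E z) + t * ∫ z, (qf g z ^ 2)⁻¹ * tri z) := by
    have em : 2 * muPot K x = muPhi K x * (2 / T) := by
      rw [muPot, muPhi, innerCut_one hx3, ← hT, mul_inv]
      ring
    have e : ∫ z, E z = (∫ z, (qf g z ^ 2)⁻¹ * f (x - z) z v) -
        2 / T * (∫ z, (qf g z ^ 2)⁻¹ * (om z v * m (x - z))) -
          t * ∫ z, (qf g z ^ 2)⁻¹ * tri z := by
      rw [← integral_const_mul, ← integral_const_mul, ← integral_sub i0 (i1.const_mul _)]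
      exact integral_sub (i0.sub (i1.const_mul _)) (i3.const_mul _)
    have e' : ∫ z, om z v * (qf g z ^ 2)⁻¹ * m (x - z) =
        ∫ z, (qf g z ^ 2)⁻¹ * (om z v * m (x - z)) := by
      congr 1
      funext z
      ring
    rw [em, e, e']
    ring
  rw [hsplit, abs_mul]
  calc |muPhi K x| * |(∫ z, E z) + t * ∫ z, (qf g z ^ 2)⁻¹ * tri z|
      ≤ Cφ * (C2 * ‖v‖ * U + C1 * ‖v‖ * U) := by
        refine mul_le_mul (hCφ x hxc) ((abs_add_le _ _).trans (add_le_add hEI ?_)) (abs_nonneg _)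
          hCφ0
        rw [abs_mul, abs_of_nonneg ht0]
        refine (mul_le_mul htle htriI (abs_nonneg _) (by positivity)).trans ?_
        calc Real.sqrt Cg * ‖v‖ * (3 / 2 * D * R ^ 3 * (|A| * (|M| + hMass M)))
            = C1 * ‖v‖ * 1 := by rw [hC1]; ring
          _ ≤ C1 * ‖v‖ * U := mul_le_mul_of_nonneg_left hU1 (by positivity)
    _ = _ := by ring

end Vale.Agent.P204.Full.Potential
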