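import Vale.Agent.P204.Full.Potential.Kernel
import Vale.Agent.P204.Full.Elliptic.Kernel
import Vale.Agent.P204.Full.Split.Moll
import Vale.Agent.P204.Full.Split.Smoothing

/-!
P204 potential theory: mollified measures against the singular kernels `‖z‖⁻ᵃ`.
-/

open scoped ContDiff Topology
open MeasureTheory Set Metric

noncomputable section

namespace Vale.Agent.P204.Full.Potential

open Vale.Agent.P204.Full.Elliptic (wt wMass wt_integrable wt_integral wMass_nonneg wt_nonneg ae_ne_zero)

/-- The singular kernel. -/
def sing (a : ℕ) (z : R4) : ℝ := (‖z‖ ^ a)⁻¹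

theorem sing_nonneg (a : ℕ) (z : R4) : 0 ≤ sing a z := inv_nonneg.2 (pow_nonneg (norm_nonneg z) a)

theorem sing_meas (a : ℕ) : Measurable (sing a) := (measurable_norm.pow_const a).inv

theorem sing_le_wt {a : ℕ} (ha : a ≤ 3) {R : ℝ} (hR : 1 ≤ R) {z : R4} (hz : ‖z‖ < R) :
    sing a z ≤ R ^ (3 - a) * wt R z + 1 := by
  rcases eq_or_ne z 0 with rfl | h0
  · have hw := wt_nonneg R (0 : R4)
    rcases Nat.eq_zero_or_pos a with rfl | h
    · simp only [sing, pow_zero, inv_one]
      exact le_add_of_nonneg_left (by positivity)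
    · simp only [sing, norm_zero, zero_pow (Nat.pos_iff_ne_zero.1 h), inv_zero]
      positivity
  · have hz0 : 0 < ‖z‖ := norm_pos_iff.2 h0
    refine le_trans ?_ (le_add_of_nonneg_right zero_le_one)
    rw [show wt R z = (‖z‖ ^ 3)⁻¹ from indicator_of_mem (by simpa using hz) _, sing,
      ← div_eq_mul_inv, le_div_iff₀ (by positivity), inv_mul_le_iff₀ (by positivity)]
    calc ‖z‖ ^ 3 = ‖z‖ ^ a * ‖z‖ ^ (3 - a) := by rw [← pow_add, Nat.add_sub_cancel' ha]
      _ ≤ ‖z‖ ^ a * R ^ (3 - a) := by gcongr

/-- A bounded function of bounded support times a singular kernel is integrable. -/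
theorem sing_integrable {a : ℕ} (ha : a ≤ 3) {F : R4 → ℝ} (hF : Measurable F) {B R : ℝ}
    (hB : ∀ z, |F z| ≤ B) (hR : ∀ z, R ≤ ‖z‖ → F z = 0) :
    Integrable fun z => sing a z * F z := by
  set R' := max R 1 with hR'
  have hdom : Integrable fun z => B * ((R' : ℝ) ^ (3 - a) * wt R' z +
      (ball (0 : R4) R').indicator (fun _ => (1 : ℝ)) z) :=
    (((wt_integrable R').const_mul _).add
      ((integrable_indicator_iff measurableSet_ball).2
        (integrableOn_const measure_ball_lt_top.ne))).const_mul B
  refine hdom.mono' ((sing_meas a).mul hF).aestronglyMeasurable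
    (Filter.Eventually.of_forall fun z => ?_)
  have hB0 : 0 ≤ B := (abs_nonneg _).trans (hB 0)
  have hw := wt_nonneg R' z
  have hR'0 : 0 ≤ R' := zero_le_one.trans (le_max_right R 1)
  by_cases hz : ‖z‖ < R'
  · rw [Real.norm_eq_abs, abs_mul, abs_of_nonneg (sing_nonneg a z),
      indicator_of_mem (mem_ball_zero_iff.2 hz), mul_comm B]
    exact mul_le_mul (sing_le_wt ha (le_max_right _ _) hz) (hB z) (abs_nonneg _)
      (by positivity)
  · rw [hR z ((le_max_left _ _).trans (not_lt.1 hz)), mul_zero, norm_zero]
    exact mul_nonneg hB0 (add_nonneg (by positivity) (indicator_nonneg (fun _ _ => zero_le_one) _))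

theorem sing3_ball {R : ℝ} (hR : 0 ≤ R) : ∫ z in ball (0 : R4) R, sing 3 z = wMass * R := by
  rw [← integral_indicator measurableSet_ball]
  exact wt_integral hR

/-- The sup bound of the mollifier. -/
def mollSup : ℝ := 16 / volume.real (closedBall (0 : R4) coreBump.rIn)

theorem mollSup_nonneg : 0 ≤ mollSup := div_nonneg (by norm_num) measureReal_nonneg

theorem moll_le_sup (d : ℝ) (z : R4) : moll d z ≤ mollSup * (d ^ 4)⁻¹ := by
  have h := coreBump.normed_le_div_measure_closedBall_rIn (μ := volume) ((2 * d⁻¹) • z)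
  have h4 : 0 ≤ (d ^ 4)⁻¹ := inv_nonneg.2 ((by decide : Even 4).pow_nonneg d)
  calc moll d z ≤ (d ^ 4)⁻¹ * (1 / volume.real (closedBall (0 : R4) coreBump.rIn)) * 16 :=
        mul_le_mul_of_nonneg_right (mul_le_mul_of_nonneg_left h h4) (by norm_num)
    _ = _ := by rw [mollSup]; ring

theorem moll_bdd (d : ℝ) : Bdd (moll d) :=
  ⟨(Split.moll_smooth d).continuous.measurable, mollSup * (d ^ 4)⁻¹, fun z => by
    rw [abs_of_nonneg (Split.moll_nonneg d z)]; exact moll_le_sup d z⟩

theorem moll_sub_integral {d : ℝ} (hd : 0 < d) (u : R4) : ∫ z, moll d (u - z) = 1 := by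
  rw [integral_sub_left_eq_self (moll d) volume u]
  exact Split.moll_integral hd

theorem moll_sub_far {d : ℝ} (hd : 0 < d) (u : R4) {z : R4} (hz : ‖u‖ + d ≤ ‖z‖) :
    moll d (u - z) = 0 := by
  by_contra h
  have := Split.moll_supp hd h
  linarith [norm_sub_norm_le z u, norm_sub_rev z u]

/-- The constant of `sing_moll_le`. -/
def singConst : ℝ := 9 + 81 * mollSup * wMass

theorem singConst_nonneg : 0 ≤ singConst := by
  have := mollSup_nonneg
  have := wMass_nonneg
  unfold singConst
  positivity

theorem sing_moll_integrable {a : ℕ} (ha : a ≤ 3) {d : ℝ} (hd : 0 < d) (u : R4) :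
    Integrable fun z => sing a z * moll d (u - z) :=
  sing_integrable ha ((moll_bdd d).meas.comp (measurable_const.sub measurable_id))
    (B := mollSup * (d ^ 4)⁻¹) (R := ‖u‖ + d)
    (fun z => by rw [abs_of_nonneg (Split.moll_nonneg d _)]; exact moll_le_sup d _)
    fun z hz => moll_sub_far hd u hz

/-- Mollifying the singular kernel gives the regularised kernel. -/
theorem sing_moll_le {a : ℕ} (ha : a ≤ 3) (ha2 : 2 ≤ a) {d : ℝ} (hd : 0 < d) (u : R4) :
    ∫ z, sing a z * moll d (u - z) ≤ singConst * ker a d u := by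
  have hk := ker_nonneg a hd.le u
  have hmi : Integrable fun z => moll d (u - z) :=
    ((Split.moll_smooth d).continuous.integrable_of_hasCompactSupport (Split.moll_hcs hd)).comp_sub_left u
  rcases le_or_gt (2 * d) ‖u‖ with h | h
  · have hu : 0 < ‖u‖ := lt_of_lt_of_le (by positivity) h
    calc ∫ z, sing a z * moll d (u - z) ≤ ∫ z, 3 ^ a * ker a d u * moll d (u - z) := by
          refine integral_mono (sing_moll_integrable ha hd u) (hmi.const_mul _) fun z => ?_
          rcases eq_or_ne (moll d (u - z)) 0 with h0 | h0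
          · simp only [h0, mul_zero, le_refl]
          · refine mul_le_mul_of_nonneg_right ?_ (Split.moll_nonneg d _)
            have hz := Split.moll_supp hd h0
            have hz0 : (‖u‖ + d) / 3 ≤ ‖z‖ := by linarith [norm_sub_norm_le u z]
            calc sing a z ≤ (((‖u‖ + d) / 3) ^ a)⁻¹ :=
                  inv_anti₀ (by positivity) (pow_le_pow_left₀ (by positivity) hz0 a)
              _ = 3 ^ a * ker a d u := by rw [div_pow, inv_div, ker, div_eq_mul_inv]
      _ = 3 ^ a * ker a d u := by rw [integral_const_mul, moll_sub_integral hd, mul_one]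
      _ ≤ singConst * ker a d u := by
          refine mul_le_mul_of_nonneg_right ?_ hk
          have h27 : (3 : ℝ) ^ a ≤ 27 := (pow_le_pow_right₀ (by norm_num) ha).trans (by norm_num)
          unfold singConst
          have h1 : 18 ≤ 81 * mollSup * wMass := by
            have hB : unitVol * 3 ^ 4 * mollSup ≥ 16 := by
              rw [mollSup, ge_iff_le, ← mul_div_assoc, le_div_iff₀]
              · rw [vol_closedBall _ coreBump.rIn_pos.le, show coreBump.rIn = 1 from rfl]
                have := unitVol_nonneg
                linarith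
              · exact ENNReal.toReal_pos (measure_closedBall_pos volume 0 coreBump.rIn_pos).ne'
                  measure_closedBall_lt_top.ne
            have e : wMass = 4 * unitVol := rfl
            rw [e]
            linarith
          linarith
  · set R := 3 * d with hR
    have hRb : Integrable fun z => (mollSup * (d ^ 4)⁻¹) * (R ^ (3 - a) * wt R z) :=
      ((wt_integrable R).const_mul _).const_mul _
    calc ∫ z, sing a z * moll d (u - z) ≤ ∫ z, (mollSup * (d ^ 4)⁻¹) * (R ^ (3 - a) * wt R z) := by
          refine integral_mono_ae (sing_moll_integrable ha hd u) hRb ?_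
          filter_upwards [ae_ne_zero] with z hz0
          have hw := wt_nonneg R z
          have hn : 0 ≤ mollSup * (d ^ 4)⁻¹ := mul_nonneg mollSup_nonneg (by positivity)
          rcases eq_or_ne (moll d (u - z)) 0 with h0 | h0
          · rw [h0, mul_zero]
            positivity
          · have hz := Split.moll_supp hd h0
            have hzR : ‖z‖ < R := by linarith [norm_sub_norm_le z u, norm_sub_rev z u]
            rw [mul_comm]
            refine mul_le_mul (moll_le_sup d _) ?_ (sing_nonneg a z) hn
            have hz1 : 0 < ‖z‖ := norm_pos_iff.2 hz0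
            rw [show wt R z = (‖z‖ ^ 3)⁻¹ from indicator_of_mem (by simpa using hzR) _, sing,
              ← div_eq_mul_inv, le_div_iff₀ (by positivity), inv_mul_le_iff₀ (by positivity)]
            calc ‖z‖ ^ 3 = ‖z‖ ^ a * ‖z‖ ^ (3 - a) := by rw [← pow_add, Nat.add_sub_cancel' ha]
              _ ≤ ‖z‖ ^ a * R ^ (3 - a) := by gcongr
      _ = mollSup * wMass * ((d ^ 4)⁻¹ * R ^ (3 - a) * R) := by
          rw [integral_const_mul, integral_const_mul, wt_integral (by positivity)]
          ring
      _ = mollSup * wMass * 81 * ((3 * d) ^ a)⁻¹ := by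
          have e : R ^ (3 - a) * R * R ^ a = R ^ 4 := by
            rw [← pow_succ, ← pow_add]
            congr 1
            omega
          rw [← hR, mul_assoc (mollSup * wMass)]
          congr 1
          rw [eq_comm, ← div_eq_mul_inv, div_eq_iff (by positivity), mul_assoc, mul_assoc, ← mul_assoc _ R, e, hR]
          field_simp
          ring
      _ ≤ mollSup * wMass * 81 * ker a d u := by
          refine mul_le_mul_of_nonneg_left ?_
            (mul_nonneg (mul_nonneg mollSup_nonneg wMass_nonneg) (by norm_num))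
          exact inv_anti₀ (by positivity) (pow_le_pow_left₀ (by positivity) (by linarith) a)
      _ ≤ singConst * ker a d u := mul_le_mul_of_nonneg_right (by unfold singConst; linarith) hk

theorem sing_moll_ge {d : ℝ} (hd : 0 < d) (u : R4) :
    ker 2 d u ≤ ∫ z, sing 2 z * moll d (u - z) := by
  have hmi : Integrable fun z => moll d (u - z) :=
    ((Split.moll_smooth d).continuous.integrable_of_hasCompactSupport (Split.moll_hcs hd)).comp_sub_left u
  calc ker 2 d u = ∫ z, ker 2 d u * moll d (u - z) := by
        rw [integral_const_mul, moll_sub_integral hd, mul_one]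
    _ ≤ ∫ z, sing 2 z * moll d (u - z) := by
        refine integral_mono_ae (hmi.const_mul _) (sing_moll_integrable (by norm_num) hd u) ?_
        filter_upwards [ae_ne_zero] with z hz0
        rcases eq_or_ne (moll d (u - z)) 0 with h0 | h0
        · simp only [h0, mul_zero, le_refl]
        · refine mul_le_mul_of_nonneg_right ?_ (Split.moll_nonneg d _)
          have hz := Split.moll_supp hd h0
          exact inv_anti₀ (pow_pos (norm_pos_iff.2 hz0) 2) (pow_le_pow_left₀ (norm_nonneg z)
            (by linarith [norm_sub_norm_le z u, norm_sub_rev z u]) 2)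

/-! ### Mollified measures -/

/-- The mollification of a measure. -/
def mollM (d : ℝ) (μ : Measure R4) (y : R4) : ℝ := ∫ w, moll d (y - w) ∂μ

theorem mollM_nonneg (d : ℝ) (μ : Measure R4) (y : R4) : 0 ≤ mollM d μ y :=
  integral_nonneg fun _ => Split.moll_nonneg d _

variable {μ : Measure R4} [IsFiniteMeasure μ]

theorem mollM_bdd (d : ℝ) : Bdd (mollM d μ) :=
  ((moll_bdd d).comp (measurable_fst.sub measurable_snd)).integral_right μ

theorem mollM_far {d : ℝ} (hd : 0 < d) {R : ℝ} (hsupp : μ (closedBall 0 R)ᶜ = 0) {y : R4}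
    (hy : R + d ≤ ‖y‖) : mollM d μ y = 0 := by
  refine integral_eq_zero_of_ae ?_
  filter_upwards [mem_ae_iff.2 hsupp] with w hw
  by_contra h
  have := Split.moll_supp hd h
  rw [mem_closedBall_zero_iff] at hw
  linarith [norm_sub_norm_le y w]

theorem mollM_smooth {d : ℝ} (hd : 0 < d) {R : ℝ} (hsupp : μ (closedBall 0 R)ᶜ = 0) :
    ContDiff ℝ ∞ (mollM d μ) := by
  have hres : μ.restrict (closedBall 0 R) = μ :=
    Measure.restrict_eq_self_of_ae_mem (mem_ae_iff.2 hsupp)
  have hi : ∀ f : R4 → ℝ, ContDiff ℝ ∞ f → Integrable f μ := fun f hf => by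
    rw [← hres]
    exact hf.continuous.continuousOn.integrableOn_compact (isCompact_closedBall _ _)
  have hL : Split.SupBdd fun f : R4 → ℝ => ∫ w, f w ∂μ :=
    ⟨fun f g hf hg => integral_add (hi f hf) (hi g hg), fun a f _ => integral_const_mul a f,
      ⟨μ.real univ, measureReal_nonneg, fun f a _ hfa => by
        rw [← Real.norm_eq_abs, mul_comm]
        exact norm_integral_le_of_norm_le_const (Filter.Eventually.of_forall hfa)⟩⟩
  exact Split.contDiff_convL hL (Split.moll_smooth d) (Split.moll_hcs hd)

theorem mollM_hcs {d : ℝ} (hd : 0 < d) {R : ℝ} (hsupp : μ (closedBall 0 R)ᶜ = 0) :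
    HasCompactSupport (mollM d μ) :=
  HasCompactSupport.of_support_subset_isCompact (isCompact_closedBall (0 : R4) (R + d)) fun y hy => by
    rw [mem_closedBall_zero_iff]
    by_contra h
    exact hy (mollM_far hd hsupp (not_le.1 h).le)

theorem mollM_integral {d : ℝ} (hd : 0 < d) {R : ℝ} (hsupp : μ (closedBall 0 R)ᶜ = 0) :
    ∫ y, mollM d μ y = μ.real univ := by
  have e : ∀ w : R4, ∫ y, moll d (y - w) = 1 := fun w =>
    (integral_sub_right_eq_self (μ := (volume : Measure R4)) (moll d) w).trans (Split.moll_integral hd)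
  have hm : Integrable (fun p : R4 × R4 => moll d (p.1 - p.2)) (volume.prod μ) := by
    refine (integrable_prod_iff' ((moll_bdd d).comp
      (measurable_fst.sub measurable_snd)).meas.aestronglyMeasurable).2 ⟨?_, ?_⟩
    · exact Filter.Eventually.of_forall fun w =>
        ((Split.moll_smooth d).continuous.integrable_of_hasCompactSupport (Split.moll_hcs hd)).comp_sub_right w
    · refine (integrable_const (1 : ℝ)).congr (Filter.Eventually.of_forall fun w => ?_)
      simp only [Function.comp_apply, Pi.sub_apply, Real.norm_eq_abs, abs_of_nonneg (Split.moll_nonneg d _), e]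
  calc ∫ y, mollM d μ y = ∫ w, (∫ y, moll d (y - w)) ∂μ := integral_integral_swap hm
    _ = μ.real univ := by
        simp only [e, integral_const, smul_eq_mul, mul_one]

theorem sing_mollM_integrable {a : ℕ} (ha : a ≤ 3) {d : ℝ} (hd : 0 < d) {R : ℝ}
    (hsupp : μ (closedBall 0 R)ᶜ = 0) (x : R4) :
    Integrable fun z => sing a z * mollM d μ (x - z) := by
  obtain ⟨B, hB⟩ := (mollM_bdd (μ := μ) d).bound
  refine sing_integrable ha ((mollM_bdd d).meas.comp (measurable_const.sub measurable_id))
    (R := ‖x‖ + R + d) (fun z => hB _) fun z hz => mollM_far hd hsupp ?_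
  linarith [norm_sub_norm_le z x, norm_sub_rev z x]

theorem sing_prod_integrable {a : ℕ} (ha : a ≤ 3) {d : ℝ} (hd : 0 < d) {R : ℝ}
    (hsupp : μ (closedBall 0 R)ᶜ = 0) (x : R4) :
    Integrable (fun p : R4 × R4 => sing a p.1 * moll d (x - p.1 - p.2)) (volume.prod μ) := by
  have hms : AEStronglyMeasurable (fun p : R4 × R4 => sing a p.1 * moll d (x - p.1 - p.2))
      (volume.prod μ) :=
    (((sing_meas a).comp measurable_fst).mul ((moll_bdd d).meas.comp
      ((measurable_const.sub measurable_fst).sub measurable_snd))).aestronglyMeasurable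
  refine (integrable_prod_iff hms).2 ⟨?_, ?_⟩
  · exact Filter.Eventually.of_forall fun z =>
      (((moll_bdd d).comp (e := fun w => x - z - w) (measurable_const.sub measurable_id)).integrable μ).const_mul (sing a z)
  · simp only [Real.norm_eq_abs, abs_mul, abs_of_nonneg (sing_nonneg a _),
      abs_of_nonneg (Split.moll_nonneg d _), integral_const_mul]
    exact sing_mollM_integrable ha hd hsupp x

theorem sing_mollM_le {a : ℕ} (ha : a ≤ 3) (ha2 : 2 ≤ a) {d : ℝ} (hd : 0 < d) {R : ℝ}
    (hsupp : μ (closedBall 0 R)ᶜ = 0) (x : R4) :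
    ∫ z, sing a z * mollM d μ (x - z) ≤ singConst * potM a d μ x := by
  calc ∫ z, sing a z * mollM d μ (x - z) = ∫ z, ∫ w, sing a z * moll d (x - z - w) ∂μ := by
        simp only [mollM, integral_const_mul]
    _ = ∫ w, (∫ z, sing a z * moll d (x - w - z)) ∂μ := by
        rw [integral_integral_swap (sing_prod_integrable ha hd hsupp x)]
        simp only [sub_right_comm]
    _ ≤ ∫ w, singConst * ker a d (x - w) ∂μ := by
        refine integral_mono_of_nonneg (Filter.Eventually.of_forall fun w => integral_nonneg fun z =>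
          mul_nonneg (sing_nonneg a z) (Split.moll_nonneg d _))
          (((ker_bdd_at a hd x).integrable μ).const_mul _)
          (Filter.Eventually.of_forall fun w => sing_moll_le ha ha2 hd (x - w))
    _ = _ := by rw [integral_const_mul]; rfl

theorem sing_mollM_ge {d : ℝ} (hd : 0 < d) {R : ℝ} (hsupp : μ (closedBall 0 R)ᶜ = 0) (x : R4) :
    potM 2 d μ x ≤ ∫ z, sing 2 z * mollM d μ (x - z) := by
  have hint := (sing_prod_integrable (a := 2) (by norm_num) hd hsupp x).swap.integral_prod_left
  calc potM 2 d μ x ≤ ∫ w, (∫ z, sing 2 z * moll d (x - w - z)) ∂μ := by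
        refine integral_mono ((ker_bdd_at 2 hd x).integrable μ) ?_ fun w => sing_moll_ge hd (x - w)
        simpa only [Prod.fst_swap, Prod.snd_swap, Function.comp_apply, sub_right_comm] using hint
    _ = ∫ z, ∫ w, sing 2 z * moll d (x - z - w) ∂μ := by
        refine Eq.trans ?_ (integral_integral_swap (f := fun z w => sing 2 z * moll d (x - z - w))
          (sing_prod_integrable (a := 2) (by norm_num) hd hsupp x)).symm
        simp only [sub_right_comm]
    _ = _ := by simp only [mollM, integral_const_mul]

/-- The cubic singular kernel against a cubic potential on the ball of radius four. -/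
theorem sing_potM_le {d : ℝ} (hd : 0 < d) (hd1 : d ≤ 1) (x : R4) :
    ∫ z, sing 3 z * (ball (0 : R4) 4).indicator (potM 3 d μ) (x - z) ≤
      8 * (wMass + convConst) * (potM 2 d μ x + μ.real univ) := by
  set F := (ball (0 : R4) 4).indicator (potM 3 d μ) with hF
  have hFb : Bdd F := (potM_bdd 3 hd μ).indicator measurableSet_ball
  obtain ⟨B, hB⟩ := hFb.bound
  have hF0 : ∀ y, 0 ≤ F y := fun y => indicator_nonneg (fun w _ => potM_nonneg 3 hd.le μ w) y
  have hfar : ∀ z, ‖x‖ + 4 ≤ ‖z‖ → F (x - z) = 0 := fun z hz => indicator_of_notMem (by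
    rw [mem_ball_zero_iff, not_lt]
    linarith [norm_sub_norm_le z x, norm_sub_rev z x]) _
  have hi : Integrable fun z => sing 3 z * F (x - z) :=
    sing_integrable le_rfl (hFb.meas.comp (measurable_const.sub measurable_id)) (fun z => hB _) hfar
  have hi1 : Integrable fun z => 8 * (ker 3 d z * F (x - z)) := by
    refine (Integrable.bdd_mul (c := (d ^ 3)⁻¹) ?_ (ker_bdd 3 hd).meas.aestronglyMeasurable
      (Filter.Eventually.of_forall fun z => ?_)).const_mul 8
    · have hint : Integrable F :=
        (integrable_indicator_iff measurableSet_ball).2 ((potM_bdd 3 hd μ).integrable volFour)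
      exact hint.comp_sub_left x
    · rw [Real.norm_eq_abs, abs_of_nonneg (ker_nonneg 3 hd.le z)]
      exact ker_le 3 hd z
  have hi2 : Integrable fun z => (8 * potM 3 d μ x) * wt d z := (wt_integrable d).const_mul _
  have hpt : ∀ᵐ z, sing 3 z * F (x - z) ≤ 8 * (ker 3 d z * F (x - z)) + 8 * potM 3 d μ x * wt d z := by
    filter_upwards [ae_ne_zero] with z hz0
    have hz : 0 < ‖z‖ := norm_pos_iff.2 hz0
    by_cases hzd : ‖z‖ < d
    · refine le_trans ?_ (le_add_of_nonneg_left (mul_nonneg (by norm_num)
        (mul_nonneg (ker_nonneg 3 hd.le z) (hF0 _))))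
      rw [show wt d z = sing 3 z from indicator_of_mem (by simpa using hzd) _, mul_comm (sing 3 z)]
      refine mul_le_mul_of_nonneg_right ?_ (sing_nonneg 3 z)
      refine (indicator_le_self' (fun w _ => potM_nonneg 3 hd.le μ w) (x - z)).trans ?_
      rw [potM, potM, ← integral_const_mul]
      refine integral_mono ((ker_bdd_at 3 hd _).integrable μ)
        (((ker_bdd_at 3 hd x).integrable μ).const_mul 8) fun w => ?_
      simp only [ker]
      rw [← div_eq_mul_inv, inv_eq_one_div, div_le_div_iff₀ (by positivity) (by positivity), one_mul,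
        show (8 : ℝ) = 2 ^ 3 by norm_num, ← mul_pow]
      refine pow_le_pow_left₀ (by positivity) ?_ 3
      have : x - w = (x - z - w) + z := by abel
      rw [this]
      linarith [norm_add_le (x - z - w) z, norm_nonneg (x - z - w)]
    · refine le_trans ?_ (le_add_of_nonneg_right (mul_nonneg
        (mul_nonneg (by norm_num) (potM_nonneg 3 hd.le μ x)) (wt_nonneg d z)))
      rw [← mul_assoc]
      refine mul_le_mul_of_nonneg_right ?_ (hF0 _)
      rw [sing, ker, ← div_eq_mul_inv, inv_eq_one_div, div_le_div_iff₀ (by positivity) (by positivity),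
        one_mul, show (8 : ℝ) = 2 ^ 3 by norm_num, ← mul_pow]
      exact pow_le_pow_left₀ (by positivity) (by linarith [not_lt.1 hzd]) 3
  refine (integral_mono_ae hi (hi1.add hi2) hpt).trans ?_
  simp only [Pi.add_apply]
  rw [integral_add hi1 hi2, integral_const_mul, integral_const_mul, wt_integral hd.le]
  have hconv : ∫ z, ker 3 d z * F (x - z) ≤ convConst * (potM 2 d μ x + μ.real univ) := by
    rw [← integral_sub_left_eq_self (fun z => ker 3 d z * F (x - z)) volume x]
    simp only [sub_sub_cancel]
    refine le_of_eq_of_le ?_ (ker_pot_le hd μ x)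
    rw [volFour, ← integral_indicator measurableSet_ball]
    congr 1
    funext y
    by_cases hy : y ∈ ball (0 : R4) 4
    · rw [hF, indicator_of_mem hy, indicator_of_mem hy]
    · rw [hF, indicator_of_notMem hy, indicator_of_notMem hy, mul_zero]
  have h3 : potM 3 d μ x * d ≤ potM 2 d μ x := by
    rw [potM, potM, ← integral_mul_const]
    refine integral_mono (((ker_bdd_at 3 hd x).integrable μ).mul_const d)
      ((ker_bdd_at 2 hd x).integrable μ) fun w => ?_
    simp only [ker]
    rw [inv_mul_le_iff₀ (by positivity), pow_succ, mul_comm (_ ^ 2), mul_assoc,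
      mul_inv_cancel₀ (by positivity), mul_one]
    linarith [norm_nonneg (x - w)]
  have hw := wMass_nonneg
  have hm : 0 ≤ μ.real univ := measureReal_nonneg
  nlinarith [mul_le_mul_of_nonneg_left h3 hw, potM_nonneg 2 hd.le μ x, mul_nonneg hw hm]

end Vale.Agent.P204.Full.Potential
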