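import Vale.Agent.P204.Full.Potential.PotCoef
import Vale.Agent.P204.Full.Potential.PotMoll

/-!
P204 potential theory: the potential `u`, its two-sided bound and its gradient.
-/

open scoped ContDiff Topology
open MeasureTheory Set Metric Filter

noncomputable section

namespace Vale.Agent.P204.Full.Potential

open Vale.Agent.P204.Full.Elliptic (qf IsKernel intOp intOp_contDiff derivKer compKer ae_ne_zero)

theorem newton_bounds (K : Coef) (M : ℝ) : ∃ C c : ℝ, 0 < c ∧
    ∀ (ν : Measure R4) [IsFiniteMeasure ν], ν.real univ ≤ M → ν (closedBall 0 (7 / 2))ᶜ = 0 →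
      ∀ d : ℝ, 0 < d → d ≤ 1 / 4 → ∃ u : R4 → ℝ, ContDiff ℝ ∞ u ∧ ∀ x, ‖x‖ ≤ 5 / 2 →
        u x ≤ C - c * potM 2 d ν x ∧ -(C * (1 + potM 2 d ν x)) ≤ u x ∧
        ‖fderiv ℝ u x‖ ≤ C * (1 + potM 3 d ν x + potM 2 d ν x) ∧
        ∀ v, |fderiv ℝ u x v - 2 * muPot K x *
            ∫ z, metG K x z v * (qf (metG K x) z ^ 2)⁻¹ * mollM d ν (x - z)| ≤
          C * ‖v‖ * potM 2 d ν x := by
  obtain ⟨cm, Cg, hcm, hCg0, hmet, -⟩ := metG_bound K
  obtain ⟨c0, hc0, hlow⟩ := muPot_lower K
  obtain ⟨Cμ, hCμ⟩ := (isCompact_closedBall (0 : R4) 3).exists_bound_of_continuousOn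
    (muPot_smooth K).continuous.continuousOn
  have hCμ0 : 0 ≤ Cμ := (norm_nonneg _).trans (hCμ 0 (by simp))
  have hcCg : cm ≤ Cg := by
    have hb : ‖(bvec 0 : R4)‖ = 1 := by simp [bvec]
    have h := ((hmet 0).2.1 (bvec 0)).trans ((le_abs_self _).trans ((hmet 0).2.2 (bvec 0) (bvec 0)))
    simpa [hb] using h
  have hCg : 0 < Cg := lt_of_lt_of_le hcm hcCg
  have hμs : ∀ x, 7 / 2 < ‖x‖ → muPot K x = 0 := fun x hx =>
    innerCut_supp (f := fun y => (radMass (metG K y) * top22 (K.om y) (K.om y))⁻¹) x hx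
  obtain ⟨CK, hk, hdk⟩ := cutKer_isKernel (newKer_hom (muPot_smooth K) hμs (metG_smooth K) (metG_pos K))
    (a := 2) (by norm_num) le_rfl
  have hS := singConst_nonneg
  have hCK := hk.nonneg 1
  set D1 := CK 1 * singConst with hD1
  set D0 := Cμ * cm⁻¹ * singConst with hD0
  set D3 := 2 * Cμ * (Cg * (cm ^ 2)⁻¹) * singConst with hD3
  refine ⟨D0 + D1 + D3, c0 * Cg⁻¹, mul_pos hc0 (inv_pos.2 hCg), fun ν _ _ hsupp d hd hd4 => ?_⟩
  have hD0' : 0 ≤ D0 := by positivity
  have hD1' : 0 ≤ D1 := by positivity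
  have hD3' : 0 ≤ D3 := by positivity
  set m := mollM d ν with hm
  set k := cutKer (newKer (muPot K) (metG K)) with hkdef
  have hms : ContDiff ℝ ∞ m := mollM_smooth hd hsupp
  have hmsupp : ∀ y, 15 / 4 < ‖y‖ → m y = 0 := fun y hy => mollM_far hd hsupp (by linarith)
  have hm0 : ∀ y, 0 ≤ m y := mollM_nonneg d ν
  obtain ⟨B, hB⟩ := bddDerivs hms (hcs_of_supp hmsupp)
  refine ⟨fun x => -intOp k m x, (intOp_contDiff hk (by norm_num) hms hB).neg, fun x hx => ?_⟩
  have hx3 : ‖x‖ ≤ 3 := by linarith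
  have hx4 : ‖x‖ ≤ 4 := by linarith
  have hg := hmet x
  have hμ := hlow x hx3
  have hμ0 : 0 < muPot K x := muPot_pos K hx3
  have hμC : muPot K x ≤ Cμ := (le_abs_self _).trans (hCμ x (mem_closedBall_zero_iff.2 hx3))
  have h2i := sing_mollM_integrable (a := 2) (by norm_num) hd hsupp x
  have h3i := sing_mollM_integrable (a := 3) le_rfl hd hsupp x
  have h2le := sing_mollM_le (a := 2) (by norm_num) le_rfl hd hsupp x
  have h3le := sing_mollM_le (a := 3) le_rfl (by norm_num) hd hsupp x
  have hp2 := potM_nonneg 2 hd.le ν x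
  have hp3 := potM_nonneg 3 hd.le ν x
  have hq : ∀ z, z ≠ 0 → 0 < qf (metG K x) z := fun z hz => hg.pos hcm z hz
  have hval : intOp k m x = muPot K x * ∫ z, (qf (metG K x) z)⁻¹ * m (x - z) := by
    rw [intOp, ← integral_const_mul]
    congr 1
    funext z
    rw [hkdef, cutKer_eq hmsupp hx4 z]
    simp [newKer]
    ring
  have hint : Integrable fun z => (qf (metG K x) z)⁻¹ * m (x - z) := by
    have hmeas : Measurable fun z => (qf (metG K x) z)⁻¹ * m (x - z) :=
      (((metG K x).continuous.clm_apply continuous_id).measurable.inv).mul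
        (hms.continuous.measurable.comp (measurable_const.sub measurable_id))
    refine (h2i.const_mul cm⁻¹).mono' hmeas.aestronglyMeasurable ?_
    filter_upwards [ae_ne_zero] with z hz
    have h := hg.inv_q hcm 1 hz
    simp only [pow_one, mul_one] at h
    rw [Real.norm_eq_abs, abs_mul, abs_of_nonneg h.1, abs_of_nonneg (hm0 _), ← mul_assoc]
    exact mul_le_mul_of_nonneg_right h.2 (hm0 _)
  have hup : ∫ z, (qf (metG K x) z)⁻¹ * m (x - z) ≤ cm⁻¹ * (singConst * potM 2 d ν x) := by
    refine (integral_mono_ae hint (h2i.const_mul cm⁻¹) ?_).trans ?_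
    · filter_upwards [ae_ne_zero] with z hz
      have h := hg.inv_q hcm 1 hz
      simp only [pow_one, mul_one] at h
      rw [← mul_assoc]
      exact mul_le_mul_of_nonneg_right h.2 (hm0 _)
    · rw [integral_const_mul]
      exact mul_le_mul_of_nonneg_left h2le (by positivity)
  have hlo : Cg⁻¹ * potM 2 d ν x ≤ ∫ z, (qf (metG K x) z)⁻¹ * m (x - z) := by
    refine (mul_le_mul_of_nonneg_left (sing_mollM_ge hd hsupp x) (inv_nonneg.2 hCg.le)).trans ?_
    rw [← integral_const_mul]
    refine integral_mono_ae (h2i.const_mul _) hint ?_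
    filter_upwards [ae_ne_zero] with z hz
    have hz0 : 0 < ‖z‖ := norm_pos_iff.2 hz
    rw [← mul_assoc]
    refine mul_le_mul_of_nonneg_right ?_ (hm0 _)
    rw [sing, ← mul_inv]
    exact inv_anti₀ (hq z hz) (((le_abs_self _).trans (hg.2.2 z z)).trans (le_of_eq (by ring)))
  have hu : -intOp k m x = -(muPot K x * ∫ z, (qf (metG K x) z)⁻¹ * m (x - z)) := by rw [hval]
  set I := ∫ z, (qf (metG K x) z)⁻¹ * m (x - z) with hI
  have hI0 : 0 ≤ I := (mul_nonneg (inv_nonneg.2 hCg.le) hp2).trans hlo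
  -- the gradient
  have hder := (hk.hasFDerivAt_intOp hms hB x).fun_neg
  rw [hder.fderiv]
  have e2 : ∀ v, intOp (compKer k) (fderiv ℝ m) x v =
      -2 * muPot K x * ∫ z, metG K x z v * (qf (metG K x) z ^ 2)⁻¹ * m (x - z) := fun v => by
    obtain ⟨B1, hB1⟩ := ((hcs_of_supp hmsupp).fderiv (𝕜 := ℝ)).exists_bound_of_continuous
      (hms.continuous_fderiv (by simp))
    rw [intOp, ContinuousLinearMap.integral_apply
      (hk.compKer.integrable (hms.continuous_fderiv (by simp)) hB1 x)]
    calc ∫ z, compKer k x z (fderiv ℝ m (x - z)) v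
        = ∫ z, muPot K x * ((qf (metG K x) z)⁻¹ * fderiv ℝ m (x - z) v) := by
          congr 1
          funext z
          have h := congrArg (fun T : R4 →L[ℝ] ℝ => T v) (farCut_irrel (fderiv_supp hmsupp) hx4 z)
          simp only [smul_apply, smul_eq_mul] at h
          simp only [hkdef, compKer, ContinuousLinearMap.compL_apply, ContinuousLinearMap.coe_comp,
            Function.comp_apply, cutKer, newKer, smul_apply, ContinuousLinearMap.id_apply, smul_eq_mul]
          linear_combination (muPot K x * (qf (metG K x) z)⁻¹) * h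
      _ = _ := by
          rw [integral_const_mul, newton_byParts hg hcm hCg0 hms hmsupp hx3 v]
          ring
  have e1 : ∀ v, |intOp (derivKer k) m x v| ≤ D1 * ‖v‖ * potM 2 d ν x := fun v => by
    obtain ⟨B0, hB0⟩ := (hcs_of_supp hmsupp).exists_bound_of_continuous hms.continuous
    rw [intOp, ContinuousLinearMap.integral_apply (hk.derivKer.integrable hms.continuous hB0 x)]
    calc |∫ z, derivKer k x z (m (x - z)) v|
        ≤ ∫ z, CK 1 * ‖v‖ * (sing 2 z * m (x - z)) := by
          refine abs_integral_le_integral_abs.trans (integral_mono_of_nonneg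
            (Eventually.of_forall fun z => abs_nonneg _) (h2i.const_mul _) ?_)
          filter_upwards [ae_ne_zero] with z hz
          calc |derivKer k x z (m (x - z)) v|
              = ‖fderiv ℝ (fun y => k y z) x v (m (x - z))‖ := rfl
            _ ≤ ‖fderiv ℝ (fun y => k y z) x‖ * ‖v‖ * ‖m (x - z)‖ :=
                ContinuousLinearMap.le_opNorm₂ _ _ _
            _ ≤ CK 1 * sing 2 z * ‖v‖ * ‖m (x - z)‖ := by
                gcongr
                exact hdk x z hz
            _ = _ := by rw [Real.norm_eq_abs, abs_of_nonneg (hm0 _)]; ring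
      _ ≤ CK 1 * ‖v‖ * (singConst * potM 2 d ν x) := by
          rw [integral_const_mul]
          exact mul_le_mul_of_nonneg_left h2le (by positivity)
      _ = _ := by rw [hD1]; ring
  have e3 : ∀ v, |∫ z, metG K x z v * (qf (metG K x) z ^ 2)⁻¹ * m (x - z)| ≤
      Cg * (cm ^ 2)⁻¹ * ‖v‖ * (singConst * potM 3 d ν x) := fun v => by
    refine abs_integral_le_integral_abs.trans ((integral_mono_of_nonneg
      (Eventually.of_forall fun z => abs_nonneg _)
      (h3i.const_mul (Cg * (cm ^ 2)⁻¹ * ‖v‖)) ?_).trans ?_)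
    · filter_upwards [ae_ne_zero] with z hz
      have h := hg.inv_q hcm 2 hz
      rw [abs_mul, abs_mul, abs_of_nonneg h.1, abs_of_nonneg (hm0 _)]
      calc |metG K x z v| * (qf (metG K x) z ^ 2)⁻¹ * m (x - z)
          ≤ Cg * ‖z‖ * ‖v‖ * ((cm ^ 2)⁻¹ * sing (2 * 2) z) * m (x - z) := by
            refine mul_le_mul_of_nonneg_right ?_ (hm0 _)
            exact mul_le_mul (hg.2.2 z v) h.2 h.1 (by positivity)
        _ = _ := by
            have : ‖z‖ ≠ 0 := norm_ne_zero_iff.2 hz
            simp only [sing, hm]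
            field_simp
            ring
    · rw [integral_const_mul]
      exact mul_le_mul_of_nonneg_left h3le (by positivity)
  refine ⟨?_, ?_, ?_, fun v => ?_⟩
  · show -intOp k m x ≤ _
    rw [hu]
    have h1 := mul_le_mul hμ hlo (mul_nonneg (inv_nonneg.2 hCg.le) hp2) hμ0.le
    linarith
  · show _ ≤ -intOp k m x
    rw [hu]
    have h1 := mul_le_mul hμC hup hI0 hCμ0
    have h2 : D0 * potM 2 d ν x ≤ (D0 + D1 + D3) * (1 + potM 2 d ν x) := by
      refine mul_le_mul (by linarith) (by linarith) hp2 (by positivity)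
    have h3 : Cμ * (cm⁻¹ * (singConst * potM 2 d ν x)) = D0 * potM 2 d ν x := by rw [hD0]; ring
    linarith
  · refine ContinuousLinearMap.opNorm_le_bound _ (by positivity) fun v => ?_
    simp only [neg_apply, add_apply, e2, Real.norm_eq_abs, abs_neg]
    refine (abs_add_le _ _).trans ?_
    have h2 : |-2 * muPot K x * ∫ z, metG K x z v * (qf (metG K x) z ^ 2)⁻¹ * m (x - z)| ≤
        D3 * ‖v‖ * potM 3 d ν x := by
      rw [abs_mul, abs_mul, abs_of_pos hμ0, show |(-2 : ℝ)| = 2 by norm_num]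
      calc 2 * muPot K x * |∫ z, metG K x z v * (qf (metG K x) z ^ 2)⁻¹ * m (x - z)|
          ≤ 2 * Cμ * (Cg * (cm ^ 2)⁻¹ * ‖v‖ * (singConst * potM 3 d ν x)) :=
            mul_le_mul (by linarith) (e3 v) (abs_nonneg _) (by positivity)
        _ = _ := by rw [hD3]; ring
    have hv := norm_nonneg v
    nlinarith [e1 v, mul_nonneg (mul_nonneg hD0' hv) (add_nonneg hp3 hp2),
      mul_nonneg (mul_nonneg hD1' hv) hp3, mul_nonneg (mul_nonneg hD3' hv) hp2,
      mul_nonneg (add_nonneg (add_nonneg hD0' hD1') hD3') hv]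
  · simp only [neg_apply, add_apply, e2]
    have h : -(intOp (derivKer k) m x v +
        -2 * muPot K x * ∫ z, metG K x z v * (qf (metG K x) z ^ 2)⁻¹ * m (x - z)) -
        2 * muPot K x * ∫ z, metG K x z v * (qf (metG K x) z ^ 2)⁻¹ * m (x - z) =
          -intOp (derivKer k) m x v := by ring
    rw [h, abs_neg]
    refine (e1 v).trans ?_
    gcongr
    linarith

end Vale.Agent.P204.Full.Potential
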