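import Vale.Agent.P204.Full.Potential.PotGauge
import Vale.Agent.P204.Full.Potential.PotNewton
import Vale.Agent.P204.Full.Potential.PotMain

/-!
P204 potential theory: the potential and the primitive of a smoothed current.
-/

open scoped ContDiff Topology
open MeasureTheory Set Metric Filter

noncomputable section

namespace Vale.Agent.P204.Full.Potential

open Vale.Agent.P204.Full.Elliptic (qf)

theorem potential_statement : PotentialStatement := by
  intro K A M
  obtain ⟨Ca, ha⟩ := gauge_bound K A M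
  obtain ⟨Cm, hm⟩ := main_part K A M
  obtain ⟨Cn, c, hc, hn⟩ := newton_bounds K M
  obtain ⟨CJ, hCJ⟩ := (isCompact_closedBall (0 : R4) 3).exists_bound_of_continuousOn
    (K.J_smooth.continuousOn.mono (closedBall_subset_ball (by norm_num)))
  have hCJ0 : 0 ≤ CJ := (norm_nonneg _).trans (hCJ 0 (by simp))
  refine ⟨|Ca| + |Cm| + |Cn| * (CJ + 1), c, hc, fun S d f hd hd4 hf => ?_⟩
  have := S.finite_ν
  obtain ⟨α, hαs, hα⟩ := ha S d f hd hd4 hf
  obtain ⟨u, hus, hu⟩ := hn S.ν S.mass S.supp_ν d hd hd4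
  refine ⟨u, α, hus.contDiffOn, hαs.contDiffOn, fun x hx => ?_⟩
  obtain ⟨hd1, hαv⟩ := hα x hx
  obtain ⟨hup, hlo, hgr, hdu⟩ := hu x hx
  have n2 := potM_nonneg 2 hd.le S.ν x
  have n3 := potM_nonneg 3 hd.le S.ν x
  have nF : 0 ≤ potF 3 d S.h x :=
    integral_nonneg fun z => mul_nonneg (ker_nonneg 3 hd.le _) (S.h_nonneg z)
  have hC : |Cn| ≤ |Ca| + |Cm| + |Cn| * (CJ + 1) := by
    linarith [abs_nonneg Ca, abs_nonneg Cm, le_mul_of_one_le_right (abs_nonneg Cn) (by linarith : 1 ≤ CJ + 1)]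
  have hCn : Cn ≤ |Ca| + |Cm| + |Cn| * (CJ + 1) := (le_abs_self Cn).trans hC
  have hC0 : 0 ≤ |Ca| + |Cm| + |Cn| * (CJ + 1) := le_trans (abs_nonneg Cn) hC
  refine ⟨?_, ?_, ?_, ?_, ?_⟩
  · refine hd1.trans ((le_abs_self Ca).trans ?_)
    linarith [abs_nonneg Cm, mul_nonneg (abs_nonneg Cn) (by linarith : 0 ≤ CJ + 1)]
  · refine ContinuousLinearMap.opNorm_le_bound _ (mul_nonneg hC0 (by linarith)) fun v => ?_
    rw [Real.norm_eq_abs, add_apply, ContinuousLinearMap.comp_apply]
    set J := K.J x with hJ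
    have hx4 : x ∈ ball (0 : R4) 4 := mem_ball_zero_iff.2 (by linarith)
    have hJv : ‖J v‖ ≤ CJ * ‖v‖ := ((K.J x).le_opNorm v).trans (mul_le_mul_of_nonneg_right
      (hCJ x (mem_closedBall_zero_iff.2 (by linarith))) (norm_nonneg v))
    set T := muPhi K x * ∫ z, (qf (metG K x) z ^ 2)⁻¹ * f (x - z) z v with hT
    set Mn := ∫ z, K.om x z v * (qf (metG K x) z ^ 2)⁻¹ * mollM d S.ν (x - z) with hMn
    have e : (∫ z, metG K x z (J v) * (qf (metG K x) z ^ 2)⁻¹ * mollM d S.ν (x - z)) = -Mn := by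
      rw [hMn, ← integral_neg]
      congr 1
      funext z
      rw [metG_eq K (by linarith), gRaw_apply, hJ, K.J_sq x hx4, map_neg]
      ring
    have h3 := hdu (J v)
    rw [e] at h3
    have h1 := hαv v
    have h2 := hm S d f hd hd4 hf x hx v
    have hsum : |α x v + fderiv ℝ u x (J v)| ≤ |α x v - T| + |T - 2 * muPot K x * Mn| +
        |fderiv ℝ u x (J v) - 2 * muPot K x * -Mn| := by
      have e' : α x v + fderiv ℝ u x (J v) = (α x v - T) + (T - 2 * muPot K x * Mn) +
          (fderiv ℝ u x (J v) - 2 * muPot K x * -Mn) := by ring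
      rw [e']
      exact abs_add_three _ _ _
    refine hsum.trans ((add_le_add (add_le_add h1 h2) h3).trans ?_)
    set P := 1 + potM 2 d S.ν x + potF 3 d S.h x with hP
    have hP0 : 0 ≤ P := by linarith
    have hv := norm_nonneg v
    have q1 : Ca * ‖v‖ * P ≤ |Ca| * ‖v‖ * P :=
      mul_le_mul_of_nonneg_right (mul_le_mul_of_nonneg_right (le_abs_self Ca) hv) hP0
    have q2 : Cm * ‖v‖ * P ≤ |Cm| * ‖v‖ * P :=
      mul_le_mul_of_nonneg_right (mul_le_mul_of_nonneg_right (le_abs_self Cm) hv) hP0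
    have q3 : Cn * ‖J v‖ * potM 2 d S.ν x ≤ |Cn| * (CJ + 1) * ‖v‖ * P := by
      refine (mul_le_mul_of_nonneg_right (mul_le_mul_of_nonneg_right (le_abs_self Cn) (norm_nonneg _))
        n2).trans ?_
      rw [mul_assoc |Cn| (CJ + 1)]
      refine mul_le_mul (mul_le_mul_of_nonneg_left (hJv.trans ?_) (abs_nonneg Cn)) (by linarith) n2
        (mul_nonneg (abs_nonneg Cn) (mul_nonneg (by linarith) hv))
      exact mul_le_mul_of_nonneg_right (by linarith) hv
    refine (add_le_add (add_le_add q1 q2) q3).trans (le_of_eq ?_)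
    ring
  · linarith
  · refine le_trans ?_ hlo
    exact neg_le_neg (mul_le_mul_of_nonneg_right hCn (by linarith))
  · exact hgr.trans (mul_le_mul_of_nonneg_right hCn (by linarith))

end Vale.Agent.P204.Full.Potential
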