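import Vale.Agent.P204.Full.Potential.KernelConv

/-!
P204 potential theory: the logarithmic estimates for measures of quadratic growth.
-/

open scoped ContDiff
open MeasureTheory Set Metric

noncomputable section

namespace Vale.Agent.P204.Full.Potential

/-- A finite measure of quadratic growth. -/
structure QuadGrowth (ν : Measure R4) [IsFiniteMeasure ν] (M : ℝ) : Prop where
  nonneg : 0 ≤ M
  mass : ν.real univ ≤ M
  growth : ∀ y r, 0 < r → ν.real (closedBall y r) ≤ M * r ^ 2

variable {ν : Measure R4} [IsFiniteMeasure ν] {M : ℝ} (hν : QuadGrowth ν M)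
include hν

/-- The quadratic potential is logarithmic. -/
theorem QuadGrowth.potM2_le {d : ℝ} (hd : 0 < d) (hd1 : d ≤ 1) (x : R4) :
    potM 2 d ν x ≤ 9 * M * logScale d := by
  obtain ⟨N, hN1, -, hN⟩ := exists_scales hd hd1
  have hM := hν.nonneg
  refine (potM_shell 2 hd N ν x).trans ?_
  have h1 : ∑ j ∈ Finset.range (N + 1), (((2 : ℝ) ^ j * d) ^ 2)⁻¹ * ν.real (closedBall x (2 ^ j * d)) ≤
      ((N : ℝ) + 1) * M := by
    calc _ ≤ ∑ _j ∈ Finset.range (N + 1), M := by
          refine Finset.sum_le_sum fun j _ => ?_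
          rw [inv_mul_le_iff₀ (by positivity)]
          exact (hν.growth x _ (by positivity)).trans (le_of_eq (mul_comm _ _))
      _ = _ := by rw [Finset.sum_const, Finset.card_range, nsmul_eq_mul]; push_cast; ring
  have h2 : (((2 : ℝ) ^ N * d) ^ 2)⁻¹ * ν.real univ ≤ M :=
    (mul_le_of_le_one_left measureReal_nonneg (inv_le_one_of_one_le₀ (one_le_pow₀ hN1))).trans hν.mass
  have hL := logScale_ge_one hd hd1
  nlinarith [mul_le_mul_of_nonneg_right hN hM]

theorem QuadGrowth.potM2_L1 {d : ℝ} (hd : 0 < d) :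
    ∫ x, potM 2 d ν x ∂volFour ≤ 388 * unitVol * M := by
  calc ∫ x, potM 2 d ν x ∂volFour = ∫ z, potM 2 d volFour z ∂ν := by
        refine (integral_integral_swap ((ker_bdd_sub 2 hd).integrable (volFour.prod ν))).trans ?_
        congr 1
        funext z
        simp only [potM, ker_comm 2 d z]
    _ ≤ ∫ _z, 388 * unitVol ∂ν :=
        integral_mono ((potM_bdd 2 hd volFour).integrable ν) (integrable_const _)
          fun z => potM2_volFour hd z
    _ = ν.real univ * (388 * unitVol) := by rw [integral_const, smul_eq_mul]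
    _ ≤ M * (388 * unitVol) :=
        mul_le_mul_of_nonneg_right hν.mass (mul_nonneg (by norm_num) unitVol_nonneg)
    _ = _ := by ring

theorem QuadGrowth.potM2_L2 {d : ℝ} (hd : 0 < d) (hd1 : d ≤ 1) :
    ∫ x, potM 2 d ν x ^ 2 ∂volFour ≤ 3492 * unitVol * M ^ 2 * logScale d := by
  calc ∫ x, potM 2 d ν x ^ 2 ∂volFour ≤ ∫ x, 9 * M * logScale d * potM 2 d ν x ∂volFour := by
        refine integral_mono ((potM_bdd 2 hd ν).sq.integrable _)
          (((potM_bdd 2 hd ν).integrable _).const_mul _) fun x => ?_
        simp only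
        rw [pow_two]
        exact mul_le_mul_of_nonneg_right (hν.potM2_le hd hd1 x) (potM_nonneg 2 hd.le ν x)
    _ ≤ 9 * M * logScale d * (388 * unitVol * M) := by
        rw [integral_const_mul]
        refine mul_le_mul_of_nonneg_left (hν.potM2_L1 hd) ?_
        exact mul_nonneg (mul_nonneg (by norm_num) hν.nonneg) (by linarith [logScale_ge_one hd hd1])
    _ = _ := by ring

theorem QuadGrowth.potM3_L2 {d : ℝ} (hd : 0 < d) (hd1 : d ≤ 1) :
    ∫ x, potM 3 d ν x ^ 2 ∂volFour ≤ 10 * convConst * M ^ 2 * logScale d := by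
  refine (potM3_sq_le hd ν (hν.potM2_le hd hd1)).trans ?_
  have hL := logScale_ge_one hd hd1
  calc convConst * (9 * M * logScale d + ν.real univ) * ν.real univ
      ≤ convConst * (10 * M * logScale d) * M := by
        have h1 : ν.real univ ≤ M * logScale d :=
          hν.mass.trans (le_mul_of_one_le_right hν.nonneg hL)
        refine mul_le_mul (mul_le_mul_of_nonneg_left (by linarith) convConst_nonneg) hν.mass
          measureReal_nonneg ?_
        exact mul_nonneg convConst_nonneg (mul_nonneg (mul_nonneg (by norm_num) hν.nonneg) (by linarith))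
    _ = _ := by ring

/-- The square of the cubic potential over a small ball. -/
theorem QuadGrowth.potM3_ball {d : ℝ} (hd : 0 < d) (hd1 : d ≤ 1) (x : R4) {r : ℝ} (hr : 0 < r)
    (hr2 : r ≤ 2) :
    ∫ y in closedBall x r, potM 3 d ν y ^ 2 ∂volFour ≤
      (200 * convConst + 41472 * unitVol) * M ^ 2 * logScale d * r ^ 2 := by
  set ν' := ν.restrict (closedBall x (2 * r)) with hν'
  have hM := hν.nonneg
  have hL := logScale_ge_one hd hd1
  have hfar : ∀ y, potM 3 r ν y ≤ 18 * M / r := by
    intro y
    obtain ⟨N, hN⟩ := pow_unbounded_of_one_lt (1 / r) one_lt_two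
    have hN1 : 1 ≤ (2 : ℝ) ^ N * r := ((div_lt_iff₀ hr).1 hN).le
    refine (potM_shell 3 hr N ν y).trans ?_
    have h1 : ∑ j ∈ Finset.range (N + 1), (((2 : ℝ) ^ j * r) ^ 3)⁻¹ *
        ν.real (closedBall y (2 ^ j * r)) ≤ M * (2 / r) := by
      calc _ ≤ ∑ j ∈ Finset.range (N + 1), M * ((2 : ℝ) ^ j * r)⁻¹ := by
            refine Finset.sum_le_sum fun j _ => ?_
            refine (mul_le_mul_of_nonneg_left (hν.growth y _ (by positivity)) (by positivity)).trans
              (le_of_eq ?_)
            field_simp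
        _ ≤ M * (2 / r) := by
            rw [← Finset.mul_sum]
            exact mul_le_mul_of_nonneg_left (geom_le _ hr) hM
    have h2 : (((2 : ℝ) ^ N * r) ^ 3)⁻¹ * ν.real univ ≤ 2 * M / r := by
      refine ((mul_le_of_le_one_left measureReal_nonneg
        (inv_le_one_of_one_le₀ (one_le_pow₀ hN1))).trans hν.mass).trans ?_
      rw [le_div_iff₀ hr]
      nlinarith
    calc 2 ^ 3 * ∑ j ∈ Finset.range (N + 1), (((2 : ℝ) ^ j * r) ^ 3)⁻¹ *
          ν.real (closedBall y (2 ^ j * r)) + (((2 : ℝ) ^ N * r) ^ 3)⁻¹ * ν.real univ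
        ≤ 2 ^ 3 * (M * (2 / r)) + 2 * M / r := by
          exact add_le_add (mul_le_mul_of_nonneg_left h1 (by positivity)) h2
      _ = _ := by ring
  have hsplit : ∀ y ∈ closedBall x r, potM 3 d ν y ≤ potM 3 d ν' y + 144 * M / r := by
    intro y hy
    have hi1 : Integrable ((closedBall x (2 * r)).indicator fun z => ker 3 d (y - z)) ν :=
      ((ker_bdd_at 3 hd y).indicator measurableSet_closedBall).integrable ν
    have hi2 : Integrable (fun z => 8 * ker 3 r (y - z)) ν :=
      ((ker_bdd_at 3 hr y).integrable ν).const_mul _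
    calc potM 3 d ν y ≤ ∫ z, (closedBall x (2 * r)).indicator (fun z => ker 3 d (y - z)) z +
          8 * ker 3 r (y - z) ∂ν := by
          refine integral_mono ((ker_bdd_at 3 hd y).integrable ν) (hi1.add hi2) fun z => ?_
          by_cases hz : z ∈ closedBall x (2 * r)
          · rw [indicator_of_mem hz]
            exact le_add_of_nonneg_right (mul_nonneg (by norm_num) (ker_nonneg 3 hr.le _))
          · rw [indicator_of_notMem hz, zero_add]
            have hrw : r < ‖y - z‖ := by
              rw [mem_closedBall] at hy hz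
              rw [← dist_eq_norm]
              linarith [dist_triangle z y x, dist_comm z y, not_le.1 hz]
            rw [ker, ker, ← div_eq_mul_inv, inv_eq_one_div,
              div_le_div_iff₀ (by positivity) (by positivity), one_mul,
              show (8 : ℝ) = 2 ^ 3 by norm_num, ← mul_pow]
            exact pow_le_pow_left₀ (by positivity) (by linarith [norm_nonneg (y - z)]) 3
      _ = potM 3 d ν' y + 8 * potM 3 r ν y := by
          rw [integral_add hi1 hi2, integral_indicator measurableSet_closedBall, integral_const_mul]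
          rfl
      _ ≤ potM 3 d ν' y + 8 * (18 * M / r) :=
          add_le_add le_rfl (mul_le_mul_of_nonneg_left (hfar y) (by norm_num))
      _ = _ := by ring
  have hm' : ν'.real univ ≤ 4 * M * r ^ 2 := by
    rw [hν', measureReal_restrict_apply_univ]
    refine (hν.growth x _ (by positivity)).trans (le_of_eq ?_)
    ring
  have hB' : ∀ z, potM 2 d ν' z ≤ 9 * M * logScale d := fun z =>
    (setIntegral_le_integral ((ker_bdd_at 2 hd z).integrable ν)
      (Filter.Eventually.of_forall fun w => ker_nonneg 2 hd.le _)).trans (hν.potM2_le hd hd1 z)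
  have hP : ∫ y, potM 3 d ν' y ^ 2 ∂volFour ≤ 100 * convConst * M ^ 2 * logScale d * r ^ 2 := by
    refine (potM3_sq_le hd ν' hB').trans ?_
    have h1 : 9 * M * logScale d + ν'.real univ ≤ 25 * M * logScale d := by
      nlinarith [mul_le_mul_of_nonneg_left hL hM, mul_le_mul_of_nonneg_left hr2 hr.le]
    calc convConst * (9 * M * logScale d + ν'.real univ) * ν'.real univ
        ≤ convConst * (25 * M * logScale d) * (4 * M * r ^ 2) :=
          mul_le_mul (mul_le_mul_of_nonneg_left h1 convConst_nonneg) hm' measureReal_nonneg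
            (mul_nonneg convConst_nonneg (mul_nonneg (mul_nonneg (by norm_num) hM) (by linarith)))
      _ = _ := by ring
  have iP : Integrable (fun y => 2 * potM 3 d ν' y ^ 2) (volFour.restrict (closedBall x r)) :=
    ((potM_bdd 3 hd ν').sq.integrable _).const_mul _
  calc ∫ y in closedBall x r, potM 3 d ν y ^ 2 ∂volFour
      ≤ ∫ y in closedBall x r, 2 * potM 3 d ν' y ^ 2 + 2 * (144 * M / r) ^ 2 ∂volFour := by
        refine setIntegral_mono_on ((potM_bdd 3 hd ν).sq.integrable _)
          (iP.add (integrable_const _)) measurableSet_closedBall fun y hy => ?_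
        refine (pow_le_pow_left₀ (potM_nonneg 3 hd.le ν y) (hsplit y hy) 2).trans ?_
        nlinarith [sq_nonneg (potM 3 d ν' y - 144 * M / r)]
    _ = (∫ y in closedBall x r, 2 * potM 3 d ν' y ^ 2 ∂volFour) +
          volFour.real (closedBall x r) * (2 * (144 * M / r) ^ 2) := by
        rw [integral_add iP (integrable_const _), setIntegral_const, smul_eq_mul]
    _ ≤ 2 * (100 * convConst * M ^ 2 * logScale d * r ^ 2) +
          unitVol * r ^ 4 * (2 * (144 * M / r) ^ 2) := by
        refine add_le_add ?_ (mul_le_mul_of_nonneg_right (volFour_real_le x hr.le) (by positivity))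
        rw [integral_const_mul]
        refine mul_le_mul_of_nonneg_left ((setIntegral_le_integral
          ((potM_bdd 3 hd ν').sq.integrable _) (Filter.Eventually.of_forall fun y => sq_nonneg _)).trans
          hP) (by norm_num)
    _ = 200 * convConst * M ^ 2 * logScale d * r ^ 2 + 41472 * unitVol * M ^ 2 * 1 * r ^ 2 := by
        field_simp
        ring
    _ ≤ 200 * convConst * M ^ 2 * logScale d * r ^ 2 +
          41472 * unitVol * M ^ 2 * logScale d * r ^ 2 := by
        refine add_le_add le_rfl (mul_le_mul_of_nonneg_right (mul_le_mul_of_nonneg_left hL ?_)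
          (sq_nonneg r))
        exact mul_nonneg (mul_nonneg (by norm_num) unitVol_nonneg) (sq_nonneg M)
    _ = _ := by ring

/-- The quadratic kernel against the square of the cubic potential. -/
theorem QuadGrowth.ker2_sq {d : ℝ} (hd : 0 < d) (hd1 : d ≤ 1) (x : R4) :
    ∫ y, ker 2 d (x - y) * potM 3 d ν y ^ 2 ∂volFour ≤
      (8 * (200 * convConst + 41472 * unitVol) + 10 * convConst) * M ^ 2 * logScale d ^ 2 := by
  obtain ⟨N, hN1, hN2, hN⟩ := exists_scales hd hd1
  have hL := logScale_ge_one hd hd1
  set C0 := (200 * convConst + 41472 * unitVol) * M ^ 2 * logScale d with hC0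
  have hC00 : 0 ≤ C0 := by
    have := convConst_nonneg
    have := unitVol_nonneg
    positivity
  refine (int_shell 2 hd N volFour (potM_bdd 3 hd ν).sq (fun y => sq_nonneg _) x).trans ?_
  have h1 : ∑ j ∈ Finset.range (N + 1), (((2 : ℝ) ^ j * d) ^ 2)⁻¹ *
      ∫ y in closedBall x (2 ^ j * d), potM 3 d ν y ^ 2 ∂volFour ≤ ((N : ℝ) + 1) * C0 := by
    calc _ ≤ ∑ _j ∈ Finset.range (N + 1), C0 := by
          refine Finset.sum_le_sum fun j hj => ?_
          rw [inv_mul_le_iff₀ (by positivity)]
          refine (hν.potM3_ball hd hd1 x (by positivity) (le_trans ?_ hN2)).trans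
            (le_of_eq (mul_comm _ _))
          exact mul_le_mul_of_nonneg_right
            (pow_le_pow_right₀ one_le_two (Nat.lt_succ_iff.1 (Finset.mem_range.1 hj))) hd.le
      _ = _ := by rw [Finset.sum_const, Finset.card_range, nsmul_eq_mul]; push_cast; ring
  have h2 : (((2 : ℝ) ^ N * d) ^ 2)⁻¹ * ∫ y, potM 3 d ν y ^ 2 ∂volFour ≤
      10 * convConst * M ^ 2 * logScale d ^ 2 := by
    refine ((mul_le_of_le_one_left (integral_nonneg fun y => sq_nonneg _)
      (inv_le_one_of_one_le₀ (one_le_pow₀ hN1))).trans (hν.potM3_L2 hd hd1)).trans ?_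
    refine mul_le_mul_of_nonneg_left (le_self_pow₀ hL two_ne_zero) ?_
    exact mul_nonneg (mul_nonneg (by norm_num) convConst_nonneg) (sq_nonneg M)
  calc 2 ^ 2 * ∑ j ∈ Finset.range (N + 1), (((2 : ℝ) ^ j * d) ^ 2)⁻¹ *
        (∫ y in closedBall x (2 ^ j * d), potM 3 d ν y ^ 2 ∂volFour) +
        (((2 : ℝ) ^ N * d) ^ 2)⁻¹ * ∫ y, potM 3 d ν y ^ 2 ∂volFour
      ≤ 2 ^ 2 * (2 * logScale d * C0) + 10 * convConst * M ^ 2 * logScale d ^ 2 :=
        add_le_add (mul_le_mul_of_nonneg_left
          (h1.trans (mul_le_mul_of_nonneg_right hN hC00)) (by positivity)) h2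
    _ = _ := by rw [hC0]; ring

/-- The product of the two cubic potentials. -/
theorem QuadGrowth.prod_sq {d : ℝ} (hd : 0 < d) (hd1 : d ≤ 1) {h : R4 → ℝ} (hm : Measurable h)
    (hh : MemLp h 2 volume) (hout : ∀ z, z ∉ ball (0 : R4) 4 → h z = 0) :
    ∫ x, (potF 3 d h x * potM 3 d ν x) ^ 2 ∂volFour ≤
      (convConst * ((8 * (200 * convConst + 41472 * unitVol) + 20 * convConst) * M ^ 2) + 1) *
        logScale d ^ 2 * ∫ z, h z ^ 2 := by
  set W := potM 3 d ν with hW
  have hWb : Bdd W := potM_bdd 3 hd ν
  have hL := logScale_ge_one hd hd1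
  set σ := volFour.withDensity fun y => ENNReal.ofReal (W y ^ 2) with hσ
  have : IsFiniteMeasure σ := isFiniteMeasure_withDensity_ofReal (hWb.sq.integrable _).2
  have hint : ∀ F : R4 → ℝ, ∫ y, F y ∂σ = ∫ y, W y ^ 2 * F y ∂volFour := fun F => by
    rw [hσ, integral_withDensity_eq_integral_toReal_smul (hWb.meas.pow_const 2).ennreal_ofReal
      (Filter.Eventually.of_forall fun y => ENNReal.ofReal_lt_top)]
    simp [ENNReal.toReal_ofReal (sq_nonneg _)]
  have huniv : σ.real univ = ∫ y, W y ^ 2 ∂volFour := by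
    have := hint fun _ => 1
    simpa [integral_const] using this
  have hsup : ∀ x, ∫ z, ker 3 d (x - z) * potM 3 d σ z ∂volFour ≤
      (convConst * ((8 * (200 * convConst + 41472 * unitVol) + 20 * convConst) * M ^ 2) + 1) *
        logScale d ^ 2 := by
    intro x
    refine (ker_pot_le hd σ x).trans ?_
    have h1 : potM 2 d σ x ≤
        (8 * (200 * convConst + 41472 * unitVol) + 10 * convConst) * M ^ 2 * logScale d ^ 2 := by
      refine le_of_eq_of_le ?_ (hν.ker2_sq hd hd1 x)
      rw [potM, hint]
      congr 1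
      funext y
      rw [mul_comm]
    have h2 : σ.real univ ≤ 10 * convConst * M ^ 2 * logScale d ^ 2 := by
      rw [huniv]
      refine (hν.potM3_L2 hd hd1).trans (mul_le_mul_of_nonneg_left (le_self_pow₀ hL two_ne_zero) ?_)
      exact mul_nonneg (mul_nonneg (by norm_num) convConst_nonneg) (sq_nonneg M)
    have h3 := mul_le_mul_of_nonneg_left (add_le_add h1 h2) convConst_nonneg
    nlinarith [pow_two_nonneg (logScale d)]
  have hpos : 0 < (convConst * ((8 * (200 * convConst + 41472 * unitVol) + 20 * convConst) * M ^ 2) + 1) *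
      logScale d ^ 2 := by
    have := convConst_nonneg
    have := unitVol_nonneg
    have : 0 < logScale d := by linarith
    positivity
  refine le_of_eq_of_le ?_ (potF_trace hd σ hpos hsup hm hh hout).2
  rw [hint]
  congr 1
  funext y
  ring

omit hν in
/-- The logarithmic estimates of the kernels. -/
theorem kernel_statement : KernelStatement := by
  intro M
  obtain ⟨m, hm0, hmM⟩ : ∃ m : ℝ, 0 ≤ m ∧ M ≤ m := ⟨max M 0, le_max_right _ _, le_max_left _ _⟩
  obtain ⟨K7, hK7⟩ : ∃ K, K = convConst * ((8 * (200 * convConst + 41472 * unitVol) +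
    20 * convConst) * m ^ 2) + 1 := ⟨_, rfl⟩
  have hc := unitVol_nonneg
  have hC := convConst_nonneg
  have hK70 : 0 ≤ K7 := by rw [hK7]; positivity
  refine ⟨9 * m + 388 * unitVol * m + 3492 * unitVol * m ^ 2 + 10 * convConst * m ^ 2 +
    (10 * convConst * m + 1) * m + (convConst * (644 * unitVol) + 1) * m + K7 * m, ?_⟩
  intro S d hd hd4
  have := S.finite_ν
  have hq : QuadGrowth S.ν m := ⟨hm0, S.mass.trans hmM, fun y r hr =>
    (S.growth y r hr).trans (mul_le_mul_of_nonneg_right hmM (sq_nonneg r))⟩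
  have hd1 : d ≤ 1 := by linarith
  have hL := logScale_ge_one hd hd1
  have hL2 : 0 ≤ logScale d ^ 2 := sq_nonneg _
  have hout : ∀ z, z ∉ ball (0 : R4) 4 → S.h z = 0 := fun z hz =>
    S.h_supp z (by rw [mem_ball_zero_iff, not_lt] at hz; linarith)
  have hh : ∫ z, S.h z ^ 2 ≤ m := S.h_norm.trans hmM
  have hh0 : 0 ≤ ∫ z, S.h z ^ 2 := integral_nonneg fun z => sq_nonneg _
  have n0 : 0 ≤ 9 * m := by positivity
  have n1 : 0 ≤ 388 * unitVol * m := by positivity
  have n2 : 0 ≤ 3492 * unitVol * m ^ 2 := by positivity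
  have n3 : 0 ≤ 10 * convConst * m ^ 2 := by positivity
  have n4 : 0 ≤ (10 * convConst * m + 1) * m := by positivity
  have n5 : 0 ≤ (convConst * (644 * unitVol) + 1) * m := by positivity
  have n6 : 0 ≤ K7 * m := by positivity
  refine ⟨fun x => ?_, ?_, ?_, ?_, ?_, ?_, ?_⟩
  · exact (hq.potM2_le hd hd1 x).trans (mul_le_mul_of_nonneg_right (by linarith) (by linarith))
  · exact (hq.potM2_L1 hd).trans (by linarith)
  · exact (hq.potM2_L2 hd hd1).trans (mul_le_mul_of_nonneg_right (by linarith) (by linarith))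
  · exact (hq.potM3_L2 hd hd1).trans (mul_le_mul_of_nonneg_right (by linarith) (by linarith))
  · have hB : ∀ x, ∫ z, ker 3 d (x - z) * potM 3 d S.ν z ∂volFour ≤
        (10 * convConst * m + 1) * logScale d := fun x => by
      refine (ker_pot_le hd S.ν x).trans ?_
      have h1 := mul_le_mul_of_nonneg_left (add_le_add (hq.potM2_le hd hd1 x)
        (hq.mass.trans (le_mul_of_one_le_right hm0 hL))) hC
      nlinarith
    calc _ ≤ (10 * convConst * m + 1) * logScale d * ∫ z, S.h z ^ 2 :=
          (potF_trace hd S.ν (mul_pos (by positivity) (by linarith)) hB S.h_meas S.h_sq hout).2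
      _ ≤ (10 * convConst * m + 1) * logScale d * m :=
          mul_le_mul_of_nonneg_left hh (by positivity)
      _ = (10 * convConst * m + 1) * m * logScale d := by ring
      _ ≤ _ := mul_le_mul_of_nonneg_right (by linarith) (by linarith)
  · have hB : ∀ x, ∫ z, ker 3 d (x - z) * potM 3 d volFour z ∂volFour ≤
        convConst * (644 * unitVol) + 1 := fun x => by
      refine (ker_pot_le hd volFour x).trans ?_
      have h1 := mul_le_mul_of_nonneg_left (add_le_add (potM2_volFour hd x) volFour_univ) hC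
      linarith
    calc _ ≤ (convConst * (644 * unitVol) + 1) * ∫ z, S.h z ^ 2 :=
          (potF_trace hd volFour (by positivity) hB S.h_meas S.h_sq hout).2
      _ ≤ (convConst * (644 * unitVol) + 1) * m := mul_le_mul_of_nonneg_left hh (by positivity)
      _ ≤ _ := by linarith
  · calc _ ≤ K7 * logScale d ^ 2 * ∫ z, S.h z ^ 2 := by
          rw [hK7]
          exact hq.prod_sq hd hd1 S.h_meas S.h_sq hout
      _ ≤ K7 * logScale d ^ 2 * m := mul_le_mul_of_nonneg_left hh (by positivity)
      _ = K7 * m * logScale d ^ 2 := by ring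
      _ ≤ _ := mul_le_mul_of_nonneg_right (by linarith) hL2

end Vale.Agent.P204.Full.Potential
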