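import Vale.Agent.P204.Full.Potential.KernelShell

/-!
P204 potential theory: the composition of two cubic kernels and the Schur trace estimate.
-/

open scoped ContDiff
open MeasureTheory Set Metric

noncomputable section

namespace Vale.Agent.P204.Full.Potential

/-- Lebesgue measure on the ball of radius four. -/
def volFour : Measure R4 := volume.restrict (ball 0 4)

instance : IsFiniteMeasure volFour :=
  ⟨by rw [volFour, Measure.restrict_apply_univ]; exact measure_ball_lt_top⟩

theorem volFour_real_le (x : R4) {r : ℝ} (hr : 0 ≤ r) :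
    volFour.real (closedBall x r) ≤ unitVol * r ^ 4 := by
  rw [← vol_closedBall x hr]
  exact ENNReal.toReal_mono measure_closedBall_lt_top.ne (Measure.restrict_apply_le _ _)

theorem volFour_univ : volFour.real univ ≤ unitVol * 4 ^ 4 := by
  rw [← vol_closedBall (0 : R4) (by norm_num : (0 : ℝ) ≤ 4), volFour, measureReal_def,
    Measure.restrict_apply_univ]
  exact ENNReal.toReal_mono measure_closedBall_lt_top.ne (measure_mono ball_subset_closedBall)

theorem ker_comm (a : ℕ) (d : ℝ) (x y : R4) : ker a d (x - y) = ker a d (y - x) := by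
  rw [ker, ker, norm_sub_rev]

theorem potM3_volFour {d : ℝ} (hd : 0 < d) (x : R4) : potM 3 d volFour x ≤ 132 * unitVol := by
  refine (ker3_small volFour (fun x r => volFour_real_le x) (by norm_num : (0 : ℝ) < 4) volFour_univ
    hd x).trans (le_of_eq ?_)
  ring

theorem potM2_volFour {d : ℝ} (hd : 0 < d) (x : R4) : potM 2 d volFour x ≤ 388 * unitVol := by
  have h : ∀ w : R4, ker 2 d w ≤ ker 3 d w + 1 := by
    intro w
    have hn := norm_nonneg w
    rcases le_or_gt 1 (‖w‖ + d) with h | h
    · refine le_trans ?_ (le_add_of_nonneg_left (ker_nonneg 3 hd.le w))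
      exact inv_le_one_of_one_le₀ (one_le_pow₀ h)
    · refine le_trans ?_ (le_add_of_nonneg_right zero_le_one)
      exact inv_anti₀ (by positivity) (pow_le_pow_of_le_one (by positivity) h.le (by norm_num))
  calc potM 2 d volFour x ≤ ∫ z, ker 3 d (x - z) + 1 ∂volFour :=
        integral_mono ((ker_bdd_at 2 hd x).integrable _)
          (((ker_bdd_at 3 hd x).integrable _).add (integrable_const _)) fun z => h _
    _ = potM 3 d volFour x + volFour.real univ := by
        rw [integral_add ((ker_bdd_at 3 hd x).integrable _) (integrable_const _), integral_const,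
          smul_eq_mul, mul_one]
        rfl
    _ ≤ _ := by linarith [potM3_volFour hd x, volFour_univ]

/-- Two cubic kernels with the same centre. -/
theorem ker3_pair_same {d D : ℝ} (hd : 0 < d) (hD : 0 < D) (x : R4) :
    ∫ z, ker 3 D (x - z) * ker 3 d (x - z) ∂volFour ≤ 660 * unitVol * ((D ^ 2)⁻¹ + 1) := by
  obtain ⟨N, hN⟩ := pow_unbounded_of_one_lt (1 / D) one_lt_two
  have hN1 : 1 ≤ (2 : ℝ) ^ N * D := ((div_lt_iff₀ hD).1 hN).le
  have hc := unitVol_nonneg
  have hterm : ∀ j : ℕ, ∫ z in closedBall x (2 ^ j * D), ker 3 d (x - z) ∂volFour ≤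
      33 * unitVol * (2 ^ j * D) := fun j => by
    refine ker3_small (volFour.restrict (closedBall x (2 ^ j * D))) (fun y r hr => ?_) (by positivity)
      ?_ hd x
    · exact (ENNReal.toReal_mono (measure_ne_top _ _) (Measure.restrict_apply_le _ _)).trans
        (volFour_real_le y hr)
    · rw [measureReal_restrict_apply_univ]
      exact volFour_real_le x (by positivity)
  refine (int_shell 3 hD N volFour (ker_bdd_at 3 hd x) (fun z => ker_nonneg 3 hd.le _) x).trans ?_
  have h1 : ∑ j ∈ Finset.range (N + 1), (((2 : ℝ) ^ j * D) ^ 3)⁻¹ *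
      ∫ z in closedBall x (2 ^ j * D), ker 3 d (x - z) ∂volFour ≤ 33 * unitVol * (2 / D ^ 2) := by
    calc _ ≤ ∑ j ∈ Finset.range (N + 1), 33 * unitVol * (((2 : ℝ) ^ j * D) ^ 2)⁻¹ := by
          refine Finset.sum_le_sum fun j _ => ?_
          refine (mul_le_mul_of_nonneg_left (hterm j) (by positivity)).trans (le_of_eq ?_)
          field_simp
      _ = 33 * unitVol * ∑ j ∈ Finset.range (N + 1), (((2 : ℝ) ^ j * D) ^ 2)⁻¹ := by
          rw [Finset.mul_sum]
      _ ≤ _ := mul_le_mul_of_nonneg_left (geom_sq_le _ hD) (by positivity)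
  have h2 : (((2 : ℝ) ^ N * D) ^ 3)⁻¹ * ∫ z, ker 3 d (x - z) ∂volFour ≤ 132 * unitVol := by
    refine (mul_le_mul (inv_le_one_of_one_le₀ (one_le_pow₀ hN1)) (potM3_volFour hd x)
      (integral_nonneg fun z => ker_nonneg 3 hd.le _) zero_le_one).trans (le_of_eq (one_mul _))
  have h3 : 0 ≤ unitVol * (D ^ 2)⁻¹ := by positivity
  rw [div_eq_mul_inv] at h1
  nlinarith

/-- The composition of two cubic kernels is a quadratic one. -/
theorem ker3_conv {d : ℝ} (hd : 0 < d) (x y : R4) :
    ∫ z, ker 3 d (x - z) * ker 3 d (y - z) ∂volFour ≤ 35640 * unitVol * (ker 2 d (x - y) + 1) := by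
  set D := ‖x - y‖ + d with hD
  have hD0 : 0 < D := by positivity
  have key : ∀ a b : R4, ‖a‖ ≤ ‖b‖ → ‖x - y‖ ≤ ‖a‖ + ‖b‖ →
      ker 3 d a * ker 3 d b ≤ 27 * (ker 3 D a * ker 3 d a) := by
    intro a b hab hr
    rw [mul_comm (ker 3 D a), mul_left_comm]
    refine mul_le_mul_of_nonneg_left ?_ (ker_nonneg 3 hd.le a)
    rw [ker, ker, ← div_eq_mul_inv, inv_eq_one_div, div_le_div_iff₀ (by positivity) (by positivity),
      one_mul, show (27 : ℝ) = 3 ^ 3 by norm_num, ← mul_pow]
    exact pow_le_pow_left₀ (by positivity) (by rw [hD]; linarith [norm_nonneg a]) 3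
  have hb : ∀ u : R4, Bdd fun z => ker 3 D (u - z) * ker 3 d (u - z) := fun u =>
    (ker_bdd_at 3 hD0 u).mul (ker_bdd_at 3 hd u)
  have hpos : ∀ u z : R4, 0 ≤ ker 3 D (u - z) * ker 3 d (u - z) := fun u z =>
    mul_nonneg (ker_nonneg 3 hD0.le _) (ker_nonneg 3 hd.le _)
  have hpt : ∀ z, ker 3 d (x - z) * ker 3 d (y - z) ≤
      27 * (ker 3 D (x - z) * ker 3 d (x - z)) + 27 * (ker 3 D (y - z) * ker 3 d (y - z)) := by
    intro z
    have hr : ‖x - y‖ ≤ ‖x - z‖ + ‖y - z‖ := by
      calc ‖x - y‖ = ‖(x - z) - (y - z)‖ := by rw [sub_sub_sub_cancel_right]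
        _ ≤ _ := norm_sub_le _ _
    rcases le_total ‖x - z‖ ‖y - z‖ with h | h
    · linarith [key _ _ h hr, hpos y z]
    · have := key _ _ h (by linarith)
      rw [mul_comm (ker 3 d (x - z))]
      linarith [hpos x z]
  have e : ker 2 d (x - y) = (D ^ 2)⁻¹ := rfl
  rw [e]
  refine (integral_mono (((ker_bdd_at 3 hd x).mul (ker_bdd_at 3 hd y)).integrable _)
    ((((hb x).integrable _).const_mul 27).add (((hb y).integrable _).const_mul 27)) hpt).trans ?_
  simp only [Pi.add_apply]
  rw [integral_add (((hb x).integrable _).const_mul 27) (((hb y).integrable _).const_mul 27),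
    integral_const_mul, integral_const_mul]
  linarith [ker3_pair_same hd hD0 x, ker3_pair_same hd hD0 y]

/-- The constant of `ker3_conv`. -/
def convConst : ℝ := 35640 * unitVol

theorem convConst_nonneg : 0 ≤ convConst := mul_nonneg (by norm_num) unitVol_nonneg

/-- The kernel applied to a potential. -/
theorem ker_pot_le {d : ℝ} (hd : 0 < d) (μ : Measure R4) [IsFiniteMeasure μ] (x : R4) :
    ∫ z, ker 3 d (x - z) * potM 3 d μ z ∂volFour ≤ convConst * (potM 2 d μ x + μ.real univ) := by
  have hF : Bdd fun p : R4 × R4 => ker 3 d (x - p.1) * ker 3 d (p.1 - p.2) :=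
    ((ker_bdd_at 3 hd x).comp measurable_fst).mul (ker_bdd_sub 3 hd)
  calc ∫ z, ker 3 d (x - z) * potM 3 d μ z ∂volFour
      = ∫ z, ∫ y, ker 3 d (x - z) * ker 3 d (z - y) ∂μ ∂volFour := by
        simp only [potM, integral_const_mul]
    _ = ∫ y, ∫ z, ker 3 d (x - z) * ker 3 d (z - y) ∂volFour ∂μ :=
        integral_integral_swap (hF.integrable _)
    _ ≤ ∫ y, convConst * (ker 2 d (x - y) + 1) ∂μ := by
        refine integral_mono ?_ ((((ker_bdd_at 2 hd x).add (Bdd.const 1)).integrable μ).const_mul _)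
          fun y => ?_
        · exact ((hF.comp measurable_swap).integral_right volFour).integrable μ
        · refine le_of_eq_of_le ?_ (ker3_conv hd x y)
          congr 1
          funext z
          rw [ker_comm 3 d z y]
    _ = _ := by
        rw [integral_const_mul, integral_add ((ker_bdd_at 2 hd x).integrable μ) (integrable_const _),
          integral_const, smul_eq_mul, mul_one]
        rfl

/-- The square integral of a cubic potential. -/
theorem potM3_sq_le {d : ℝ} (hd : 0 < d) (μ : Measure R4) [IsFiniteMeasure μ] {B : ℝ}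
    (hB : ∀ x, potM 2 d μ x ≤ B) :
    ∫ z, potM 3 d μ z ^ 2 ∂volFour ≤ convConst * (B + μ.real univ) * μ.real univ := by
  have hF : Bdd fun p : R4 × R4 => ker 3 d (p.1 - p.2) * potM 3 d μ p.1 :=
    (ker_bdd_sub 3 hd).mul ((potM_bdd 3 hd μ).comp measurable_fst)
  calc ∫ z, potM 3 d μ z ^ 2 ∂volFour = ∫ z, ∫ x, ker 3 d (z - x) * potM 3 d μ z ∂μ ∂volFour := by
        simp only [integral_mul_const, pow_two]
        rfl
    _ = ∫ x, ∫ z, ker 3 d (z - x) * potM 3 d μ z ∂volFour ∂μ :=
        integral_integral_swap (hF.integrable _)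
    _ ≤ ∫ _x, convConst * (B + μ.real univ) ∂μ := by
        refine integral_mono (((hF.comp measurable_swap).integral_right volFour).integrable μ)
          (integrable_const _) fun x => ?_
        refine le_trans (le_of_eq ?_) ((ker_pot_le hd μ x).trans
          (mul_le_mul_of_nonneg_left (add_le_add (hB x) le_rfl) convConst_nonneg))
        congr 1
        funext z
        rw [ker_comm 3 d z x]
    _ = _ := by rw [integral_const, smul_eq_mul, mul_comm]

/-- Schur's test for the potential of a square integrable function. -/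
theorem potF_trace {d : ℝ} (hd : 0 < d) (μ : Measure R4) [IsFiniteMeasure μ] {B : ℝ} (hB : 0 < B)
    (hW : ∀ x, ∫ z, ker 3 d (x - z) * potM 3 d μ z ∂volFour ≤ B) {h : R4 → ℝ} (hm : Measurable h)
    (hh : MemLp h 2 volume) (hout : ∀ z, z ∉ ball (0 : R4) 4 → h z = 0) :
    Bdd (potF 3 d h) ∧ ∫ x, potF 3 d h x ^ 2 ∂μ ≤ B * ∫ z, h z ^ 2 := by
  have hL2 : MemLp h 2 volFour := hh.restrict _
  have hL1 : Integrable h volFour := hL2.integrable (by norm_num)
  have hsq : Integrable (fun z => h z ^ 2) volFour := hL2.integrable_sq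
  have heq : ∀ x, potF 3 d h x = ∫ z, ker 3 d (x - z) * h z ∂volFour := fun x =>
    (setIntegral_eq_integral_of_forall_compl_eq_zero fun z hz => by rw [hout z hz, mul_zero]).symm
  have hG : Bdd (potF 3 d h) := by
    refine ⟨?_, (d ^ 3)⁻¹ * ∫ z, |h z| ∂volFour, fun x => ?_⟩
    · have he : potF 3 d h = fun x => ∫ z, ker 3 d (x - z) * h z ∂volFour := funext heq
      rw [he]
      exact ((ker_bdd_sub 3 hd).meas.mul
        (hm.comp measurable_snd)).stronglyMeasurable.integral_prod_right'.measurable
    · rw [heq, ← integral_const_mul]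
      refine (abs_integral_le_integral_abs).trans (integral_mono_of_nonneg
        (Filter.Eventually.of_forall fun z => abs_nonneg _) (hL1.abs.const_mul _)
        (Filter.Eventually.of_forall fun z => ?_))
      simp only
      rw [abs_mul, abs_of_nonneg (ker_nonneg 3 hd.le _)]
      exact mul_le_mul_of_nonneg_right (ker_le 3 hd _) (abs_nonneg _)
  refine ⟨hG, ?_⟩
  set G := potF 3 d h with hGd
  obtain ⟨AG, hAG⟩ := hG.bound
  set W := potM 3 d μ with hWd
  set U := fun z => ∫ x, ker 3 d (z - x) * G x ∂μ with hU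
  set V := fun z => ∫ x, ker 3 d (z - x) * G x ^ 2 ∂μ with hV
  have hFU : Bdd fun p : R4 × R4 => ker 3 d (p.1 - p.2) * G p.2 :=
    (ker_bdd_sub 3 hd).mul (hG.comp measurable_snd)
  have hUb : Bdd U := hFU.integral_right μ
  have hVb : Bdd V := ((ker_bdd_sub 3 hd).mul (hG.sq.comp measurable_snd)).integral_right μ
  have hWb : Bdd W := potM_bdd 3 hd μ
  -- pairing
  have hX : ∫ x, G x ^ 2 ∂μ = ∫ z, h z * U z ∂volFour := by
    obtain ⟨A, hA⟩ := (hFU.comp measurable_swap).bound
    have hint : Integrable (fun p : R4 × R4 => (ker 3 d (p.2 - p.1) * G p.1) * h p.2)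
        (μ.prod volFour) :=
      (hL1.comp_snd μ).bdd_mul (c := A) (hFU.comp measurable_swap).meas.aestronglyMeasurable
        (Filter.Eventually.of_forall fun p => hA p)
    calc ∫ x, G x ^ 2 ∂μ = ∫ x, ∫ z, (ker 3 d (z - x) * G x) * h z ∂volFour ∂μ := by
          congr 1
          funext x
          rw [pow_two, show G x * G x = G x * ∫ z, ker 3 d (x - z) * h z ∂volFour from
            congrArg (G x * ·) (heq x), ← integral_const_mul]
          congr 1
          funext z
          rw [ker_comm 3 d x z]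
          ring
      _ = ∫ z, ∫ x, (ker 3 d (z - x) * G x) * h z ∂μ ∂volFour := integral_integral_swap hint
      _ = _ := by
          congr 1
          funext z
          rw [integral_mul_const, mul_comm]
  -- Cauchy-Schwarz
  have hCS : ∀ z, U z ^ 2 ≤ W z * V z := fun z => by
    have hkey : ∀ t : ℝ, 0 ≤ W z * (t * t) + (-2 * U z) * t + V z := fun t => by
      have i0 : Integrable (fun x => ker 3 d (z - x)) μ := (ker_bdd_at 3 hd z).integrable μ
      have i1 : Integrable (fun x => ker 3 d (z - x) * G x) μ :=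
        ((ker_bdd_at 3 hd z).mul hG).integrable μ
      have i2 : Integrable (fun x => ker 3 d (z - x) * G x ^ 2) μ :=
        ((ker_bdd_at 3 hd z).mul hG.sq).integrable μ
      have e : ∫ x, ker 3 d (z - x) * (G x - t) ^ 2 ∂μ = W z * (t * t) + (-2 * U z) * t + V z := by
        have e1 : (fun x => ker 3 d (z - x) * (G x - t) ^ 2) = fun x =>
            (t * t) * ker 3 d (z - x) + (-2 * t) * (ker 3 d (z - x) * G x) +
              ker 3 d (z - x) * G x ^ 2 := by
          funext x
          ring
        rw [e1, integral_add ((i0.const_mul _).fun_add (i1.const_mul _)) i2,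
          integral_add (i0.const_mul _) (i1.const_mul _), integral_const_mul, integral_const_mul]
        simp only [hWd, hU, hV, potM]
        ring
      rw [← e]
      exact integral_nonneg fun x => mul_nonneg (ker_nonneg 3 hd.le _) (sq_nonneg _)
    have h := discrim_le_zero hkey
    rw [discrim] at h
    linarith
  have hWV : ∫ z, W z * V z ∂volFour ≤ B * ∫ x, G x ^ 2 ∂μ := by
    have hF : Bdd fun p : R4 × R4 => W p.1 * (ker 3 d (p.1 - p.2) * G p.2 ^ 2) :=
      (hWb.comp measurable_fst).mul ((ker_bdd_sub 3 hd).mul (hG.sq.comp measurable_snd))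
    calc ∫ z, W z * V z ∂volFour = ∫ z, ∫ x, W z * (ker 3 d (z - x) * G x ^ 2) ∂μ ∂volFour := by
          simp only [integral_const_mul, hV]
      _ = ∫ x, ∫ z, W z * (ker 3 d (z - x) * G x ^ 2) ∂volFour ∂μ :=
          integral_integral_swap (hF.integrable _)
      _ ≤ ∫ x, B * G x ^ 2 ∂μ := by
          refine integral_mono (((hF.comp measurable_swap).integral_right volFour).integrable μ)
            ((hG.sq.integrable μ).const_mul B) fun x => ?_
          refine le_trans (le_of_eq ?_) (mul_le_mul_of_nonneg_right (hW x) (sq_nonneg (G x)))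
          rw [← integral_mul_const]
          congr 1
          funext z
          rw [ker_comm 3 d z x]
          ring
      _ = _ := integral_const_mul _ _
  have hhU : Integrable (fun z => h z * U z) volFour := by
    obtain ⟨A, hA⟩ := hUb.bound
    exact hL1.mul_bdd (c := A) hUb.meas.aestronglyMeasurable (Filter.Eventually.of_forall hA)
  have hH : ∫ z, h z ^ 2 ∂volFour ≤ ∫ z, h z ^ 2 :=
    setIntegral_le_integral hh.integrable_sq (Filter.Eventually.of_forall fun z => sq_nonneg _)
  have h2 : 2 * ∫ z, h z * U z ∂volFour ≤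
      B * ∫ z, h z ^ 2 ∂volFour + B⁻¹ * ∫ z, W z * V z ∂volFour := by
    have hWVi : Integrable (fun z => W z * V z) volFour := (hWb.mul hVb).integrable volFour
    rw [← integral_const_mul, ← integral_const_mul, ← integral_const_mul,
      ← integral_add (hsq.const_mul B) (hWVi.const_mul _)]
    refine integral_mono (hhU.const_mul 2) ((hsq.const_mul B).add (hWVi.const_mul _)) fun z => ?_
    have e : B * h z ^ 2 + B⁻¹ * U z ^ 2 - 2 * (h z * U z) = B⁻¹ * (B * h z - U z) ^ 2 := by
      field_simp
      ring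
    have h0 : 0 ≤ B⁻¹ * (B * h z - U z) ^ 2 := by positivity
    have h1 := mul_le_mul_of_nonneg_left (hCS z) (inv_nonneg.2 hB.le)
    show 2 * (h z * U z) ≤ B * h z ^ 2 + B⁻¹ * (W z * V z)
    linarith
  have h3 : B⁻¹ * ∫ z, W z * V z ∂volFour ≤ ∫ x, G x ^ 2 ∂μ := by
    rw [inv_mul_le_iff₀ hB]
    exact hWV
  rw [← hX] at h2
  linarith [mul_le_mul_of_nonneg_left hH hB.le]

end Vale.Agent.P204.Full.Potential
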