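import Vale.Agent.P204.Full.Potential.Spec

/-!
P204 potential theory: dyadic shells for the kernels `ker a d`.
-/

open scoped ContDiff
open MeasureTheory Set Metric

noncomputable section

namespace Vale.Agent.P204.Full.Potential

/-- Bounded measurable real functions. -/
structure Bdd {Y : Type*} [MeasurableSpace Y] (f : Y → ℝ) : Prop where
  meas : Measurable f
  bound : ∃ C : ℝ, ∀ y, |f y| ≤ C

section Bdd

variable {Y Z : Type*} [MeasurableSpace Y] [MeasurableSpace Z] {f g : Y → ℝ}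

theorem Bdd.const (c : ℝ) : Bdd (fun _ : Y => c) := ⟨measurable_const, |c|, fun _ => le_rfl⟩

theorem Bdd.mul (hf : Bdd f) (hg : Bdd g) : Bdd fun y => f y * g y := by
  obtain ⟨A, hA⟩ := hf.bound
  obtain ⟨B, hB⟩ := hg.bound
  refine ⟨hf.meas.mul hg.meas, A * B, fun y => ?_⟩
  rw [abs_mul]
  exact mul_le_mul (hA y) (hB y) (abs_nonneg _) ((abs_nonneg _).trans (hA y))

theorem Bdd.add (hf : Bdd f) (hg : Bdd g) : Bdd fun y => f y + g y := by
  obtain ⟨A, hA⟩ := hf.bound
  obtain ⟨B, hB⟩ := hg.bound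
  exact ⟨hf.meas.add hg.meas, A + B, fun y => (abs_add_le _ _).trans (add_le_add (hA y) (hB y))⟩

theorem Bdd.sq (hf : Bdd f) : Bdd fun y => f y ^ 2 := by
  simpa [pow_two] using hf.mul hf

theorem Bdd.comp {e : Z → Y} (hf : Bdd f) (he : Measurable e) : Bdd fun z => f (e z) := by
  obtain ⟨A, hA⟩ := hf.bound
  exact ⟨hf.meas.comp he, A, fun z => hA (e z)⟩

theorem Bdd.indicator {s : Set Y} (hf : Bdd f) (hs : MeasurableSet s) : Bdd (s.indicator f) := by
  obtain ⟨A, hA⟩ := hf.bound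
  refine ⟨hf.meas.indicator hs, A, fun y => ?_⟩
  by_cases hy : y ∈ s
  · rw [indicator_of_mem hy]
    exact hA y
  · rw [indicator_of_notMem hy, abs_zero]
    exact (abs_nonneg _).trans (hA y)

theorem Bdd.integrable (hf : Bdd f) (μ : Measure Y) [IsFiniteMeasure μ] : Integrable f μ := by
  obtain ⟨A, hA⟩ := hf.bound
  exact Integrable.of_bound hf.meas.aestronglyMeasurable A (Filter.Eventually.of_forall hA)

/-- A partial integral of a bounded measurable function is bounded measurable. -/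
theorem Bdd.integral_right {F : Y × Z → ℝ} (hF : Bdd F) (μ : Measure Z) [IsFiniteMeasure μ] :
    Bdd fun y => ∫ z, F (y, z) ∂μ := by
  obtain ⟨A, hA⟩ := hF.bound
  refine ⟨hF.meas.stronglyMeasurable.integral_prod_right'.measurable, A * μ.real univ, fun y => ?_⟩
  rw [← Real.norm_eq_abs]
  exact norm_integral_le_of_norm_le_const (Filter.Eventually.of_forall fun z => hA (y, z))

end Bdd

theorem ker_nonneg (a : ℕ) {d : ℝ} (hd : 0 ≤ d) (z : R4) : 0 ≤ ker a d z :=
  inv_nonneg.2 (pow_nonneg (add_nonneg (norm_nonneg z) hd) a)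

theorem ker_le (a : ℕ) {d : ℝ} (hd : 0 < d) (z : R4) : ker a d z ≤ (d ^ a)⁻¹ :=
  inv_anti₀ (by positivity) (pow_le_pow_left₀ hd.le (le_add_of_nonneg_left (norm_nonneg z)) a)

theorem ker_anti (a : ℕ) {d D : ℝ} (hd : 0 < d) (h : d ≤ D) (z : R4) : ker a D z ≤ ker a d z :=
  inv_anti₀ (by positivity) (pow_le_pow_left₀ (by positivity) (by linarith) a)

theorem ker_bdd (a : ℕ) {d : ℝ} (hd : 0 < d) : Bdd (ker a d) := by
  refine ⟨?_, (d ^ a)⁻¹, fun z => ?_⟩
  · exact ((measurable_norm.add_const d).pow_const a).inv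
  · rw [abs_of_nonneg (ker_nonneg a hd.le z)]
    exact ker_le a hd z

theorem ker_bdd_sub (a : ℕ) {d : ℝ} (hd : 0 < d) : Bdd fun p : R4 × R4 => ker a d (p.1 - p.2) :=
  (ker_bdd a hd).comp (measurable_fst.sub measurable_snd)

theorem ker_bdd_at (a : ℕ) {d : ℝ} (hd : 0 < d) (x : R4) : Bdd fun z : R4 => ker a d (x - z) :=
  (ker_bdd a hd).comp (measurable_const.sub measurable_id)

theorem potM_bdd (a : ℕ) {d : ℝ} (hd : 0 < d) (μ : Measure R4) [IsFiniteMeasure μ] :
    Bdd (potM a d μ) :=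
  (ker_bdd_sub a hd).integral_right μ

theorem potM_nonneg (a : ℕ) {d : ℝ} (hd : 0 ≤ d) (μ : Measure R4) (x : R4) : 0 ≤ potM a d μ x :=
  integral_nonneg fun _ => ker_nonneg a hd _

/-- The volume of the unit ball. -/
def unitVol : ℝ := (volume : Measure R4).real (ball 0 1)

theorem unitVol_nonneg : 0 ≤ unitVol := measureReal_nonneg

theorem vol_closedBall (x : R4) {r : ℝ} (hr : 0 ≤ r) :
    (volume : Measure R4).real (closedBall x r) = unitVol * r ^ 4 := by
  rw [Measure.addHaar_real_closedBall _ x hr, finrank_euclideanSpace_fin, mul_comm]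
  rfl

/-- The kernel is dominated by a sum over dyadic balls. -/
theorem ker_shell (a : ℕ) {r : ℝ} (hr : 0 < r) (N : ℕ) (w : R4) :
    ker a r w ≤ 2 ^ a * ∑ j ∈ Finset.range (N + 1),
      (((2 : ℝ) ^ j * r) ^ a)⁻¹ * (closedBall (0 : R4) (2 ^ j * r)).indicator 1 w +
      (((2 : ℝ) ^ N * r) ^ a)⁻¹ := by
  set T := fun j : ℕ => (((2 : ℝ) ^ j * r) ^ a)⁻¹ * (closedBall (0 : R4) (2 ^ j * r)).indicator 1 w
  have hT0 : ∀ j, 0 ≤ T j := fun j => mul_nonneg (inv_nonneg.2 (by positivity))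
    (indicator_nonneg (fun _ _ => zero_le_one) _)
  by_cases h : ‖w‖ ≤ 2 ^ N * r
  · have hex : ∃ j, ‖w‖ ≤ 2 ^ j * r := ⟨N, h⟩
    classical
    set j := Nat.find hex with hj
    have hjN : j ≤ N := Nat.find_min' hex h
    have hone : (closedBall (0 : R4) (2 ^ j * r)).indicator (1 : R4 → ℝ) w = 1 :=
      indicator_of_mem (mem_closedBall_zero_iff.2 (Nat.find_spec hex)) _
    have hle : ker a r w ≤ 2 ^ a * T j := by
      simp only [T, hone, mul_one]
      rw [ker, ← inv_inv ((2 : ℝ) ^ a), ← mul_inv]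
      refine inv_anti₀ (by positivity) ?_
      rw [inv_mul_le_iff₀ (by positivity), ← mul_pow]
      refine pow_le_pow_left₀ (by positivity) ?_ a
      rcases Nat.eq_zero_or_pos j with h0 | h0
      · rw [h0, pow_zero, one_mul]
        linarith [norm_nonneg w]
      · have hmin := Nat.find_min hex (Nat.sub_lt h0 Nat.one_pos)
        rw [not_le, ← hj] at hmin
        have e : (2 : ℝ) ^ j = 2 * 2 ^ (j - 1) := by rw [← pow_succ', Nat.sub_add_cancel h0]
        rw [e]
        linarith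
    refine hle.trans ((mul_le_mul_of_nonneg_left (Finset.single_le_sum (fun i _ => hT0 i)
      (Finset.mem_range.2 (Nat.lt_succ_of_le hjN))) (by positivity)).trans ?_)
    exact le_add_of_nonneg_right (inv_nonneg.2 (by positivity))
  · have hle : ker a r w ≤ (((2 : ℝ) ^ N * r) ^ a)⁻¹ :=
      inv_anti₀ (by positivity) (pow_le_pow_left₀ (by positivity) (by linarith [not_le.1 h]) a)
    refine hle.trans (le_add_of_nonneg_left (mul_nonneg (by positivity) ?_))
    exact Finset.sum_nonneg fun i _ => hT0 i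

/-- Integrating the shell bound against a nonnegative weight. -/
theorem int_shell (a : ℕ) {r : ℝ} (hr : 0 < r) (N : ℕ) (μ : Measure R4) [IsFiniteMeasure μ]
    {g : R4 → ℝ} (hg : Bdd g) (hg0 : ∀ z, 0 ≤ g z) (x : R4) :
    ∫ z, ker a r (x - z) * g z ∂μ ≤ 2 ^ a * ∑ j ∈ Finset.range (N + 1),
      (((2 : ℝ) ^ j * r) ^ a)⁻¹ * ∫ z in closedBall x (2 ^ j * r), g z ∂μ +
      (((2 : ℝ) ^ N * r) ^ a)⁻¹ * ∫ z, g z ∂μ := by
  have hi : ∀ j : ℕ, Integrable ((closedBall x ((2 : ℝ) ^ j * r)).indicator g) μ := fun j =>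
    (hg.indicator measurableSet_closedBall).integrable μ
  have hsum : Integrable (fun z => ∑ j ∈ Finset.range (N + 1),
      (((2 : ℝ) ^ j * r) ^ a)⁻¹ * (closedBall x (2 ^ j * r)).indicator g z) μ :=
    integrable_finsetSum _ fun j _ => (hi j).const_mul _
  calc ∫ z, ker a r (x - z) * g z ∂μ
      ≤ ∫ z, (2 ^ a * ∑ j ∈ Finset.range (N + 1),
          (((2 : ℝ) ^ j * r) ^ a)⁻¹ * (closedBall x (2 ^ j * r)).indicator g z) +
          (((2 : ℝ) ^ N * r) ^ a)⁻¹ * g z ∂μ := by
        refine integral_mono (((ker_bdd_at a hr x).mul hg).integrable μ)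
          ((hsum.const_mul _).add ((hg.integrable μ).const_mul _)) fun z => ?_
        refine (mul_le_mul_of_nonneg_right (ker_shell a hr N (x - z)) (hg0 z)).trans (le_of_eq ?_)
        rw [add_mul, mul_assoc, Finset.sum_mul]
        congr 2
        refine Finset.sum_congr rfl fun j _ => ?_
        rw [mul_assoc]
        congr 1
        by_cases hz : z ∈ closedBall x (2 ^ j * r)
        · have hz' : x - z ∈ closedBall (0 : R4) (2 ^ j * r) := by
            rw [mem_closedBall_zero_iff, ← dist_eq_norm]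
            exact dist_comm z x ▸ hz
          rw [indicator_of_mem hz, indicator_of_mem hz', Pi.one_apply, one_mul]
        · have hz' : x - z ∉ closedBall (0 : R4) (2 ^ j * r) := by
            rw [mem_closedBall_zero_iff, ← dist_eq_norm]
            exact dist_comm z x ▸ hz
          rw [indicator_of_notMem hz, indicator_of_notMem hz', zero_mul]
    _ = _ := by
        rw [integral_add (hsum.const_mul _) ((hg.integrable μ).const_mul _), integral_const_mul,
          integral_const_mul, integral_finsetSum _ fun j _ => (hi j).const_mul _]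
        congr 2
        refine Finset.sum_congr rfl fun j _ => ?_
        rw [integral_const_mul, integral_indicator measurableSet_closedBall]

/-- The shell bound for a potential. -/
theorem potM_shell (a : ℕ) {r : ℝ} (hr : 0 < r) (N : ℕ) (μ : Measure R4) [IsFiniteMeasure μ] (x : R4) :
    potM a r μ x ≤ 2 ^ a * ∑ j ∈ Finset.range (N + 1),
      (((2 : ℝ) ^ j * r) ^ a)⁻¹ * μ.real (closedBall x (2 ^ j * r)) +
      (((2 : ℝ) ^ N * r) ^ a)⁻¹ * μ.real univ := by
  simpa [potM, setIntegral_const, integral_const] using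
    int_shell a hr N μ (Bdd.const 1) (fun _ => zero_le_one) x

theorem geom_le (n : ℕ) {r : ℝ} (hr : 0 < r) :
    ∑ j ∈ Finset.range n, ((2 : ℝ) ^ j * r)⁻¹ ≤ 2 / r := by
  calc ∑ j ∈ Finset.range n, ((2 : ℝ) ^ j * r)⁻¹ = r⁻¹ * ∑ j ∈ Finset.range n, (1 / (2 : ℝ)) ^ j := by
        rw [Finset.mul_sum]
        refine Finset.sum_congr rfl fun j _ => ?_
        rw [mul_inv, div_pow, one_pow, one_div, mul_comm]
    _ ≤ r⁻¹ * 2 := mul_le_mul_of_nonneg_left (sum_geometric_two_le n) (by positivity)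
    _ = 2 / r := by ring

theorem geom_sq_le (n : ℕ) {r : ℝ} (hr : 0 < r) :
    ∑ j ∈ Finset.range n, (((2 : ℝ) ^ j * r) ^ 2)⁻¹ ≤ 2 / r ^ 2 := by
  refine le_trans (Finset.sum_le_sum fun j _ => ?_)
    ((Finset.mul_sum _ _ r⁻¹).symm.le.trans ((mul_le_mul_of_nonneg_left (geom_le n hr)
      (by positivity)).trans (le_of_eq (by field_simp))))
  rw [← mul_inv, sq]
  refine inv_anti₀ (by positivity) ?_
  exact mul_le_mul_of_nonneg_right (le_mul_of_one_le_left hr.le (one_le_pow₀ one_le_two)) (by positivity)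

theorem logScale_ge_one {d : ℝ} (hd : 0 < d) (hd1 : d ≤ 1) : 1 ≤ logScale d := by
  have : 0 ≤ Real.log (1 / d) := Real.log_nonneg (by rwa [le_div_iff₀ hd, one_mul])
  rw [logScale]
  linarith

/-- The number of dyadic scales between `d` and one. -/
theorem exists_scales {d : ℝ} (hd : 0 < d) (hd1 : d ≤ 1) :
    ∃ N : ℕ, 1 ≤ 2 ^ N * d ∧ 2 ^ N * d ≤ 2 ∧ (N : ℝ) + 1 ≤ 2 * logScale d := by
  have hx : 1 ≤ 1 / d := by rwa [le_div_iff₀ hd, one_mul]
  obtain ⟨n, hn, hn'⟩ := exists_nat_pow_near hx one_lt_two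
  refine ⟨n + 1, ?_, ?_, ?_⟩
  · exact ((div_le_iff₀ hd).1 hn'.le)
  · rw [pow_succ]
    nlinarith [(le_div_iff₀ hd).1 hn]
  · have h := Real.log_le_log (by positivity) hn
    rw [Real.log_pow] at h
    have h2 : (1 : ℝ) / 2 ≤ Real.log 2 := by linarith [Real.log_two_gt_d9]
    push_cast
    rw [logScale]
    nlinarith [Nat.cast_nonneg (α := ℝ) n]

/-- The cubic kernel over a set no larger than a ball. -/
theorem ker3_small (μ : Measure R4) [IsFiniteMeasure μ]
    (hball : ∀ x r, 0 ≤ r → μ.real (closedBall x r) ≤ unitVol * r ^ 4) {ρ : ℝ} (hρ : 0 < ρ)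
    (hmass : μ.real univ ≤ unitVol * ρ ^ 4) {d : ℝ} (hd : 0 < d) (x : R4) :
    potM 3 d μ x ≤ 33 * unitVol * ρ := by
  have hc := unitVol_nonneg
  rcases le_or_gt ρ d with h | h
  · calc potM 3 d μ x ≤ ∫ _z, (ρ ^ 3)⁻¹ ∂μ :=
          integral_mono ((ker_bdd_at 3 hd x).integrable μ) (integrable_const _) fun z =>
            (ker_le 3 hd _).trans (inv_anti₀ (by positivity) (pow_le_pow_left₀ hρ.le h 3))
      _ = μ.real univ * (ρ ^ 3)⁻¹ := by rw [integral_const, smul_eq_mul]
      _ ≤ unitVol * ρ ^ 4 * (ρ ^ 3)⁻¹ := mul_le_mul_of_nonneg_right hmass (by positivity)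
      _ = unitVol * ρ := by field_simp
      _ ≤ _ := by nlinarith [mul_nonneg hc hρ.le]
  · obtain ⟨n, hn, hn'⟩ := exists_nat_pow_near ((one_le_div hd).2 h.le) one_lt_two
    rw [le_div_iff₀ hd] at hn
    rw [div_lt_iff₀ hd] at hn'
    refine (potM_shell 3 hd (n + 1) μ x).trans ?_
    have hsum : ∑ j ∈ Finset.range (n + 1 + 1), (((2 : ℝ) ^ j * d) ^ 3)⁻¹ *
        μ.real (closedBall x (2 ^ j * d)) ≤ unitVol * (4 * ρ) := by
      calc _ ≤ ∑ j ∈ Finset.range (n + 1 + 1), unitVol * (2 ^ j * d) := by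
            refine Finset.sum_le_sum fun j _ => ?_
            refine (mul_le_mul_of_nonneg_left (hball x _ (by positivity)) (by positivity)).trans
              (le_of_eq ?_)
            field_simp
        _ = unitVol * ((∑ j ∈ Finset.range (n + 1 + 1), (2 : ℝ) ^ j) * d) := by
            rw [Finset.sum_mul, Finset.mul_sum]
        _ ≤ unitVol * (4 * ρ) := by
            refine mul_le_mul_of_nonneg_left ?_ hc
            rw [geom_sum_eq (by norm_num)]
            have e : (2 : ℝ) ^ (n + 1 + 1) = 4 * 2 ^ n := by ring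
            rw [e]
            nlinarith
    have htail : (((2 : ℝ) ^ (n + 1) * d) ^ 3)⁻¹ * μ.real univ ≤ unitVol * ρ := by
      calc _ ≤ (ρ ^ 3)⁻¹ * (unitVol * ρ ^ 4) :=
            mul_le_mul (inv_anti₀ (by positivity) (pow_le_pow_left₀ hρ.le hn'.le 3)) hmass
              measureReal_nonneg (by positivity)
        _ = unitVol * ρ := by field_simp
    nlinarith

end Vale.Agent.P204.Full.Potential
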