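import Vale.Agent.P204.Full.Potential.PotRadial
import Vale.Agent.P204.Full.Potential.PotMoll
import Vale.Agent.P204.Full.Elliptic.Local
import Vale.Agent.P204.Full.Common.Linear

/-!
P204 potential theory: the extended metric, the coefficient functions and the two kernels.
-/

open scoped ContDiff Topology
open MeasureTheory Set Metric Filter

noncomputable section

namespace Vale.Agent.P204.Full.Potential

open Vale.Agent.P204.Full.Elliptic (qf gdet contDiff_qf hasFDerivAt_qf IsKernel intOp Hom wt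
  wt_nonneg ae_ne_zero byParts byParts_smooth)

/-! ### Cut-offs -/

/-- One on the ball of radius three, zero outside radius `7/2`. -/
def innerCut : ContDiffBump (0 : R4) := ⟨3, 7 / 2, by norm_num, by norm_num⟩

/-- One on the ball of radius eight, zero outside radius nine. -/
def farCut : ContDiffBump (0 : R4) := ⟨8, 9, by norm_num, by norm_num⟩

/-- One on the ball of radius `1/50`, zero outside radius `1/25`. -/
def holeCut : ContDiffBump (0 : R4) := ⟨1 / 50, 1 / 25, by norm_num, by norm_num⟩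

/-- One on the ball of radius `13/5`, zero outside radius `27/10`. -/
def chiCut : ContDiffBump (0 : R4) := ⟨13 / 5, 27 / 10, by norm_num, by norm_num⟩

/-- One on the annulus from `1/25` to `8`, zero near the origin. -/
def annCut (z : R4) : ℝ := farCut z - holeCut z

theorem innerCut_one {x : R4} (hx : ‖x‖ ≤ 3) : innerCut x = 1 :=
  innerCut.one_of_mem_closedBall (mem_closedBall_zero_iff.2 hx)

theorem farCut_one {z : R4} (hz : ‖z‖ ≤ 8) : farCut z = 1 :=
  farCut.one_of_mem_closedBall (mem_closedBall_zero_iff.2 hz)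

theorem annCut_one {z : R4} (h1 : 1 / 25 ≤ ‖z‖) (h2 : ‖z‖ ≤ 8) : annCut z = 1 := by
  have h : holeCut z = 0 := holeCut.zero_of_le_dist (by rw [dist_zero_right]; exact h1)
  rw [annCut, farCut_one h2, h, sub_zero]

theorem annCut_zero {z : R4} (hz : ‖z‖ < 1 / 50) : annCut =ᶠ[𝓝 z] fun _ => 0 := by
  filter_upwards [isOpen_ball.mem_nhds (mem_ball_zero_iff.2 hz : z ∈ ball (0 : R4) (1 / 50))] with y hy
  have hy' := mem_ball_zero_iff.1 hy
  rw [annCut, farCut_one (by linarith), holeCut.one_of_mem_closedBall (ball_subset_closedBall hy), sub_self]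

theorem cut_smooth {E : Type} [NormedAddCommGroup E] [NormedSpace ℝ E] {f : R4 → E}
    (hf : ContDiffOn ℝ ∞ f (ball 0 4)) : ContDiff ℝ ∞ fun x => innerCut x • f x := by
  refine contDiff_iff_contDiffAt.2 fun x => ?_
  by_cases hx : x ∈ ball (0 : R4) 4
  · exact innerCut.contDiffAt.smul (hf.contDiffAt (isOpen_ball.mem_nhds hx))
  · refine (contDiffAt_const (c := (0 : E))).congr_of_eventuallyEq ?_
    have hx' : x ∉ tsupport innerCut := by
      rw [innerCut.tsupport_eq, mem_closedBall_zero_iff, show innerCut.rOut = 7 / 2 from rfl]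
      rw [mem_ball_zero_iff, not_lt] at hx
      linarith
    filter_upwards [notMem_tsupport_iff_eventuallyEq.1 hx'] with y hy
    rw [hy]
    exact zero_smul ℝ (f y)

/-! ### The metric -/

/-- The Euclidean inner product. -/
def stdG : Bil := (innerSL ℝ : R4 →L[ℝ] R4 →L[ℝ] ℝ)

theorem stdG_apply (u v : R4) : stdG u v = inner ℝ u v := rfl

theorem stdG_symm (u v : R4) : stdG u v = stdG v u := real_inner_comm v u

theorem stdG_self (v : R4) : stdG v v = ‖v‖ ^ 2 := real_inner_self_eq_norm_sq v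

variable (K : Coef)

/-- The Hermitian metric `ω(u, Jv)`. -/
def gRaw (x : R4) : Bil := ((K.om x).flip.comp (K.J x)).flip

theorem gRaw_apply (x u v : R4) : gRaw K x u v = K.om x u (K.J x v) := rfl

theorem gRaw_symm {x : R4} (hx : x ∈ ball (0 : R4) 4) (u v : R4) : gRaw K x u v = gRaw K x v u := by
  have h := DFunLike.congr_fun (DFunLike.congr_fun (K.om_inv x hx) v) (K.J x u)
  rw [pullBil_apply, K.J_sq x hx, map_neg] at h
  rw [gRaw_apply, gRaw_apply, ← h, ← K.om_alt x hx]

theorem gRaw_smooth : ContDiffOn ℝ ∞ (gRaw K) (ball 0 4) :=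
  (ContinuousLinearMap.flipₗᵢ ℝ R4 R4 ℝ).contDiff.comp_contDiffOn
    (((ContinuousLinearMap.flipₗᵢ ℝ R4 R4 ℝ).contDiff.comp_contDiffOn K.om_smooth).clm_comp K.J_smooth)

/-- The metric, extended to all of `ℝ⁴`. -/
def metG (x : R4) : Bil := stdG + innerCut x • (gRaw K x - stdG)

theorem metG_smooth : ContDiff ℝ ∞ (metG K) :=
  contDiff_const.add (cut_smooth ((gRaw_smooth K).sub contDiffOn_const))

theorem metG_eq {x : R4} (hx : ‖x‖ ≤ 3) : metG K x = gRaw K x := by
  rw [metG, innerCut_one hx, one_smul, add_sub_cancel]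

theorem metG_far {x : R4} (hx : 7 / 2 ≤ ‖x‖) : metG K x = stdG := by
  rw [metG, innerCut.zero_of_le_dist (by rw [dist_zero_right]; exact hx), zero_smul, add_zero]

theorem metG_symm (x u v : R4) : metG K x u v = metG K x v u := by
  by_cases hx : x ∈ ball (0 : R4) 4
  · simp only [metG, add_apply, smul_apply, sub_apply, smul_eq_mul, stdG_symm u v,
      gRaw_symm K hx u v]
  · rw [metG_far K (by rw [mem_ball_zero_iff, not_lt] at hx; linarith)]
    exact stdG_symm u v

theorem metG_pos (x v : R4) (hv : v ≠ 0) : 0 < metG K x v v := by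
  have hs : 0 < stdG v v := by rw [stdG_self]; positivity
  by_cases hx : x ∈ ball (0 : R4) 4
  · have hg : 0 < gRaw K x v v := K.om_pos x hx v hv
    have h0 := innerCut.nonneg (x := x)
    have h1 := innerCut.le_one (x := x)
    simp only [metG, add_apply, smul_apply, sub_apply, smul_eq_mul]
    rcases h0.eq_or_lt with h | h
    · rw [← h]; linarith
    · nlinarith [mul_pos h hg, mul_nonneg (sub_nonneg.2 h1) hs.le]
  · rwa [metG_far K (by rw [mem_ball_zero_iff, not_lt] at hx; linarith)]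

/-- Uniform comparison with the Euclidean metric. -/
def MetBound (c Cg : ℝ) (g : Bil) : Prop :=
  (∀ u v, g u v = g v u) ∧ (∀ v, c * ‖v‖ ^ 2 ≤ g v v) ∧ ∀ u v, |g u v| ≤ Cg * ‖u‖ * ‖v‖

theorem metG_bound : ∃ c Cg : ℝ, 0 < c ∧ 0 ≤ Cg ∧ (∀ x, MetBound c Cg (metG K x)) ∧
    MetBound c Cg stdG := by
  have hcont : Continuous (metG K) := (metG_smooth K).continuous
  obtain ⟨Cg, hCg⟩ := (isCompact_closedBall (0 : R4) 4).exists_bound_of_continuousOn hcont.continuousOn
  have hK : IsCompact ((closedBall (0 : R4) 4) ×ˢ sphere (0 : R4) 1) :=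
    (isCompact_closedBall _ _).prod (isCompact_sphere _ _)
  have hq : Continuous fun p : R4 × R4 => metG K p.1 p.2 p.2 :=
    ((hcont.comp continuous_fst).clm_apply continuous_snd).clm_apply continuous_snd
  obtain ⟨c, hc0, hc⟩ := hK.exists_forall_le' hq.continuousOn (a := 0) fun p hp =>
    metG_pos K p.1 p.2 (fun h => by simpa [h] using hp.2)
  have hfar : ∀ x, ¬ ‖x‖ ≤ 4 → metG K x = stdG := fun x hx => metG_far K (by linarith [not_le.1 hx])
  refine ⟨min c 1, max Cg 1, lt_min hc0 one_pos, zero_le_one.trans (le_max_right _ _), ?_, ?_⟩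
  · intro x
    refine ⟨metG_symm K x, fun v => ?_, fun u v => ?_⟩
    · rcases eq_or_ne v 0 with rfl | hv
      · simp
      · by_cases hx : ‖x‖ ≤ 4
        · have hn : 0 < ‖v‖ := norm_pos_iff.2 hv
          have h := hc (x, ‖v‖⁻¹ • v)
            ⟨mem_closedBall_zero_iff.2 hx, by simp [norm_smul, hn.ne']⟩
          simp only [map_smul, smul_apply, smul_eq_mul] at h
          rw [← mul_assoc, ← mul_inv, inv_mul_eq_div, le_div_iff₀ (by positivity)] at h
          calc min c 1 * ‖v‖ ^ 2 ≤ c * ‖v‖ ^ 2 :=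
                mul_le_mul_of_nonneg_right (min_le_left _ _) (sq_nonneg _)
            _ ≤ _ := by rw [pow_two]; exact h
        · rw [hfar x hx, stdG_self]
          exact mul_le_of_le_one_left (sq_nonneg _) (min_le_right _ _)
    · by_cases hx : ‖x‖ ≤ 4
      · rw [← Real.norm_eq_abs]
        refine ((metG K x).le_opNorm₂ u v).trans ?_
        gcongr
        exact (hCg x (mem_closedBall_zero_iff.2 hx)).trans (le_max_left _ _)
      · rw [hfar x hx, stdG_apply, mul_assoc]
        exact (abs_real_inner_le_norm u v).trans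
          (le_mul_of_one_le_left (by positivity) (le_max_right _ _))
  · refine ⟨stdG_symm, fun v => ?_, fun u v => ?_⟩
    · rw [stdG_self]
      exact mul_le_of_le_one_left (sq_nonneg _) (min_le_right _ _)
    · rw [stdG_apply, mul_assoc]
      exact (abs_real_inner_le_norm u v).trans
        (le_mul_of_one_le_left (by positivity) (le_max_right _ _))

variable {c Cg : ℝ} {g : Bil}

theorem MetBound.pos (hg : MetBound c Cg g) (hc : 0 < c) (v : R4) (hv : v ≠ 0) : 0 < g v v :=
  lt_of_lt_of_le (by positivity) (hg.2.1 v)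

theorem MetBound.inv_q (hg : MetBound c Cg g) (hc : 0 < c) (a : ℕ) {z : R4} (hz : z ≠ 0) :
    0 ≤ (qf g z ^ a)⁻¹ ∧ (qf g z ^ a)⁻¹ ≤ (c ^ a)⁻¹ * sing (2 * a) z := by
  have hq : 0 < qf g z := hg.pos hc z hz
  refine ⟨by positivity, ?_⟩
  rw [sing, ← mul_inv, pow_mul, ← mul_pow]
  exact inv_anti₀ (by positivity) (pow_le_pow_left₀ (by positivity) (hg.2.1 z) a)

/-! ### Coefficients -/

theorem radMass_smooth {f : R4 → Bil} (hf : ContDiff ℝ ∞ f)
    (hs : ∀ x u v, f x u v = f x v u) (hp : ∀ x v, v ≠ 0 → 0 < f x v v) :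
    ContDiff ℝ ∞ fun x => radMass (f x) := by
  have hdet : ContDiff ℝ ∞ fun x => gdet (f x) := by
    simp only [gdet, Matrix.det_apply', Matrix.of_apply]
    exact ContDiff.sum fun σ _ => contDiff_const.mul
      (contDiff_prod fun i _ => (hf.clm_apply contDiff_const).clm_apply contDiff_const)
  have hdpos : ∀ x, 0 < gdet (f x) := fun x => by
    obtain ⟨L, hL⟩ := Elliptic.exists_orthoFrame (f x) (hs x) (hp x)
    exact Elliptic.gdet_pos hL
  exact contDiff_const.mul (contDiff_const.div (hdet.sqrt fun x => (hdpos x).ne')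
    fun x => (Real.sqrt_pos.2 (hdpos x)).ne')

/-- The weight of the frozen gauge. -/
def muPhi (x : R4) : ℝ := innerCut x * (radMass (metG K x))⁻¹

/-- The weight of the potential. -/
def muPot (x : R4) : ℝ := innerCut x * (radMass (metG K x) * top22 (K.om x) (K.om x))⁻¹

/-- The weight of the Euclidean primitive. -/
def muEuc (x : R4) : ℝ := innerCut x * (radMass stdG)⁻¹

theorem muPhi_smooth : ContDiff ℝ ∞ (muPhi K) :=
  innerCut.contDiff.mul ((radMass_smooth (metG_smooth K) (metG_symm K) (metG_pos K)).inv fun x =>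
    (radMass_pos (metG_symm K x) (metG_pos K x)).ne')

theorem muPot_smooth : ContDiff ℝ ∞ (muPot K) := by
  have hA : ∀ i j : Fin 4, ContDiffOn ℝ ∞ (fun x => K.om x (bvec i) (bvec j)) (ball (0 : R4) 4) :=
    fun i j => (K.om_smooth.clm_apply contDiffOn_const).clm_apply contDiffOn_const
  have htop : ContDiffOn ℝ ∞ (fun x => top22 (K.om x) (K.om x)) (ball (0 : R4) 4) := by
    simp only [top22]
    exact ((((((hA 0 1).mul (hA 2 3)).sub ((hA 0 2).mul (hA 1 3))).add ((hA 0 3).mul (hA 1 2))).add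
      ((hA 1 2).mul (hA 0 3))).sub ((hA 1 3).mul (hA 0 2))).add ((hA 2 3).mul (hA 0 1))
  exact cut_smooth ((((radMass_smooth (metG_smooth K) (metG_symm K) (metG_pos K)).contDiffOn).mul
    htop).inv fun x hx =>
      mul_ne_zero (radMass_pos (metG_symm K x) (metG_pos K x)).ne' (K.om_top x hx).ne')

theorem muEuc_smooth : ContDiff ℝ ∞ muEuc := innerCut.contDiff.mul contDiff_const

theorem muPot_pos {x : R4} (hx : ‖x‖ ≤ 3) : 0 < muPot K x := by
  have h1 := radMass_pos (metG_symm K x) (metG_pos K x)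
  have h2 := K.om_top x (mem_ball_zero_iff.2 (by linarith))
  rw [muPot, innerCut_one hx, one_mul]
  positivity

theorem muPot_lower : ∃ c0 : ℝ, 0 < c0 ∧ ∀ x, ‖x‖ ≤ 3 → c0 ≤ muPot K x := by
  obtain ⟨c0, h0, h⟩ := (isCompact_closedBall (0 : R4) 3).exists_forall_le'
    (muPot_smooth K).continuous.continuousOn (a := 0)
    fun x hx => muPot_pos K (mem_closedBall_zero_iff.1 hx)
  exact ⟨c0, h0, fun x hx => h x (mem_closedBall_zero_iff.2 hx)⟩

/-! ### Kernels -/

variable {W : Type} [NormedAddCommGroup W] [NormedSpace ℝ W]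

/-- The kernel `μ(x) z / g_x(z,z)²`, acting by evaluation. -/
def radKer (μ : R4 → ℝ) (g : R4 → Bil) (p : R4 × R4) : (R4 →L[ℝ] W) →L[ℝ] W :=
  (μ p.1 * (qf (g p.1) p.2 ^ 2)⁻¹) • ContinuousLinearMap.apply ℝ W p.2

/-- The kernel `μ(x) / g_x(z,z)`. -/
def newKer (μ : R4 → ℝ) (g : R4 → Bil) (p : R4 × R4) : ℝ →L[ℝ] ℝ :=
  (μ p.1 * (qf (g p.1) p.2)⁻¹) • ContinuousLinearMap.id ℝ ℝ

theorem qf_joint_smooth {g : R4 → Bil} (hg : ContDiff ℝ ∞ g) :
    ContDiff ℝ ∞ fun p : R4 × R4 => qf (g p.1) p.2 :=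
  ((hg.comp contDiff_fst).clm_apply contDiff_snd).clm_apply contDiff_snd

theorem qf_smul (g : Bil) (t : ℝ) (z : R4) : qf g (t • z) = t ^ 2 * qf g z := by
  simp only [qf, map_smul, smul_apply, smul_eq_mul]
  ring

theorem radKer_hom {μ : R4 → ℝ} (hμ : ContDiff ℝ ∞ μ) (hμs : ∀ x, 7 / 2 < ‖x‖ → μ x = 0)
    {g : R4 → Bil} (hg : ContDiff ℝ ∞ g) (hp : ∀ x v, v ≠ 0 → 0 < g x v v) :
    Hom 3 (radKer (W := W) μ g) where
  smooth := by
    have e : radKer (W := W) μ g = fun p =>
        (ContinuousLinearMap.apply ℝ W) ((μ p.1 * (qf (g p.1) p.2 ^ 2)⁻¹) • p.2) := by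
      funext p
      rw [radKer, map_smul]
    rw [e]
    exact (ContinuousLinearMap.contDiff (F := (R4 →L[ℝ] W) →L[ℝ] W)
      (ContinuousLinearMap.apply ℝ W)).comp_contDiffOn
      (((hμ.comp contDiff_fst).contDiffOn.mul (((qf_joint_smooth hg).pow 2).contDiffOn.inv
        fun p hp' => pow_ne_zero 2 (hp p.1 p.2 hp').ne')).smul contDiff_snd.contDiffOn)
  supp := ⟨closedBall 0 (7 / 2), isCompact_closedBall _ _, fun x z hx => by
    rw [mem_closedBall_zero_iff, not_le] at hx
    simp [radKer, hμs x hx]⟩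
  hom x z t ht := by
    simp only [radKer, qf_smul, map_smul, smul_smul]
    congr 1
    have := ht.ne'
    field_simp

theorem newKer_hom {μ : R4 → ℝ} (hμ : ContDiff ℝ ∞ μ) (hμs : ∀ x, 7 / 2 < ‖x‖ → μ x = 0)
    {g : R4 → Bil} (hg : ContDiff ℝ ∞ g) (hp : ∀ x v, v ≠ 0 → 0 < g x v v) :
    Hom 2 (newKer μ g) where
  smooth := ((hμ.comp contDiff_fst).contDiffOn.mul ((qf_joint_smooth hg).contDiffOn.inv
    fun p hp' => (hp p.1 p.2 hp').ne')).smul contDiffOn_const
  supp := ⟨closedBall 0 (7 / 2), isCompact_closedBall _ _, fun x z hx => by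
    rw [mem_closedBall_zero_iff, not_le] at hx
    simp [newKer, hμs x hx]⟩
  hom x z t ht := by
    simp only [newKer, qf_smul, smul_smul]
    congr 1
    have := ht.ne'
    field_simp

theorem innerCut_supp {f : R4 → ℝ} (x : R4) (hx : 7 / 2 < ‖x‖) : innerCut x * f x = 0 := by
  rw [innerCut.zero_of_le_dist (by rw [dist_zero_right]; exact hx.le), zero_mul]

variable {V : Type} [NormedAddCommGroup V] [NormedSpace ℝ V]

/-- A homogeneous kernel cut off at radius nine. -/
def cutKer (G : R4 × R4 → V →L[ℝ] W) (x z : R4) : V →L[ℝ] W := farCut z • G (x, z)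

theorem cutKer_isKernel {a : ℕ} {G : R4 × R4 → V →L[ℝ] W} (hG : Hom a G) (ha : a ≤ 3)
    (ha2 : 2 ≤ a) : ∃ C : ℕ → ℝ, IsKernel 10 C (cutKer G) ∧
      ∀ x z, z ≠ 0 → ‖fderiv ℝ (fun y => cutKer G y z) x‖ ≤ C 1 * sing a z := by
  obtain ⟨C, hC0, hC⟩ := hG.kernel
  obtain ⟨C', hC'0, hC'⟩ := hG.bound 1
  refine ⟨fun m => 10 * C m + C', ?_, fun x z hz => ?_⟩
  · have h := hC 10 farCut 10 (by norm_num) farCut.contDiff fun z hz => ?_
    · exact ⟨h.smooth, fun m x z hz => (h.bound m x z hz).trans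
        (mul_le_mul_of_nonneg_right (le_add_of_nonneg_right hC'0) (wt_nonneg _ _)),
        fun m => add_nonneg (mul_nonneg (by norm_num) (hC0 m)) hC'0⟩
    · have hz0 : 0 < ‖z‖ := norm_pos_iff.2 hz
      rcases le_or_gt 9 ‖z‖ with h9 | h9
      · rw [farCut.zero_of_le_dist (by rw [dist_zero_right]; exact h9), abs_zero, zero_mul]
        exact mul_nonneg (by norm_num) (wt_nonneg _ _)
      · rw [show wt 10 z = (‖z‖ ^ 3)⁻¹ from indicator_of_mem (by simp; linarith) _,
          abs_of_nonneg farCut.nonneg]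
        refine (mul_le_of_le_one_left (by positivity) farCut.le_one).trans ?_
        rw [← div_eq_mul_inv, le_div_iff₀ (by positivity), inv_mul_le_iff₀ (by positivity)]
        calc ‖z‖ ^ 3 = ‖z‖ ^ a * ‖z‖ ^ (3 - a) := by rw [← pow_add, Nat.add_sub_cancel' ha]
          _ ≤ ‖z‖ ^ a * 10 := by
              gcongr
              interval_cases a <;> norm_num <;> linarith
  · have hs := DifferentiableAt.comp (f := fun y : R4 => (y, z)) x
      (hG.differentiableAt (p := (x, z)) hz) (differentiableAt_id.prodMk (differentiableAt_const z))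
    have e : fderiv ℝ (fun y => cutKer G y z) x = farCut z • fderiv ℝ (fun y => G (y, z)) x :=
      (hs.hasFDerivAt.const_smul (farCut z)).fderiv
    rw [e]
    refine (ContinuousLinearMap.opNorm_smul_le _ _).trans ?_
    rw [Real.norm_eq_abs, abs_of_nonneg farCut.nonneg]
    have h1 := hC' x z hz
    rw [norm_iteratedFDeriv_one] at h1
    refine (mul_le_of_le_one_left (norm_nonneg _) farCut.le_one).trans (h1.trans ?_)
    exact mul_le_mul_of_nonneg_right (le_add_of_nonneg_left (mul_nonneg (by norm_num) (hC0 1)))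
      (sing_nonneg a z)

theorem farCut_irrel {F : R4 → V} (hF : ∀ y, 15 / 4 < ‖y‖ → F y = 0) {x : R4} (hx : ‖x‖ ≤ 4)
    (z : R4) : farCut z • F (x - z) = F (x - z) := by
  by_cases h : 15 / 4 < ‖x - z‖
  · rw [hF _ h]
    exact smul_zero _
  · rw [farCut_one (by linarith [norm_sub_norm_le z x, norm_sub_rev z x, not_lt.1 h])]
    exact one_smul ℝ _

theorem cutKer_eq {G : R4 × R4 → V →L[ℝ] W} {F : R4 → V} (hF : ∀ y, 15 / 4 < ‖y‖ → F y = 0)
    {x : R4} (hx : ‖x‖ ≤ 4) (z : R4) : cutKer G x z (F (x - z)) = G (x, z) (F (x - z)) := by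
  rw [cutKer, smul_apply, ← map_smul, farCut_irrel hF hx]

theorem bddDerivs {f : R4 → V} (hf : ContDiff ℝ ∞ f) (hc : HasCompactSupport f) :
    ∃ B : ℕ → ℝ, ∀ m x, ‖iteratedFDeriv ℝ m f x‖ ≤ B m := by
  have h : ∀ m : ℕ, ∃ B, ∀ x, ‖iteratedFDeriv ℝ m f x‖ ≤ B := fun m =>
    (hc.iteratedFDeriv m).exists_bound_of_continuous (hf.continuous_iteratedFDeriv (by exact_mod_cast le_top))
  choose B hB using h
  exact ⟨B, hB⟩

theorem fderiv_supp {F : R4 → V} (hF : ∀ y, 15 / 4 < ‖y‖ → F y = 0) (y : R4) (hy : 15 / 4 < ‖y‖) :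
    fderiv ℝ F y = 0 := by
  have h : F =ᶠ[𝓝 y] fun _ => (0 : V) := by
    filter_upwards [(isOpen_lt continuous_const continuous_norm).mem_nhds hy] with w hw
    exact hF w hw
  rw [h.fderiv_eq]
  simp

theorem hcs_of_supp {F : R4 → V} (hF : ∀ y, 15 / 4 < ‖y‖ → F y = 0) : HasCompactSupport F :=
  HasCompactSupport.of_support_subset_isCompact (isCompact_closedBall (0 : R4) (15 / 4)) fun y hy => by
    rw [mem_closedBall_zero_iff]
    by_contra h
    exact hy (hF y (not_le.1 h))

/-! ### Integration by parts -/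

theorem ibp_far {a φ : R4 → ℝ} (ha : ContDiff ℝ ∞ a) (hac : HasCompactSupport a)
    (hφ : ContDiff ℝ ∞ φ) (hφc : HasCompactSupport φ) (x v : R4) {D : ℝ}
    (hD : ∀ z, |fderiv ℝ a z v| ≤ D) :
    |∫ z, a z * fderiv ℝ φ (x - z) v| ≤ D * ∫ y, |φ y| := by
  have hint : Integrable fun z => |φ (x - z)| :=
    ((hφ.continuous.integrable_of_hasCompactSupport hφc).comp_sub_left x).abs
  calc |∫ z, a z * fderiv ℝ φ (x - z) v| = |∫ z, fderiv ℝ a z v * φ (x - z)| := by
        have h := byParts_smooth ha hac hφ x v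
        simp only [smul_eq_mul] at h
        rw [h]
    _ ≤ ∫ z, D * |φ (x - z)| := by
        refine abs_integral_le_integral_abs.trans (integral_mono_of_nonneg
          (Eventually.of_forall fun z => abs_nonneg _) (hint.const_mul D) (Eventually.of_forall fun z => ?_))
        simp only [abs_mul]
        exact mul_le_mul_of_nonneg_right (hD z) (abs_nonneg _)
    _ = D * ∫ y, |φ y| := by
        rw [integral_const_mul, integral_sub_left_eq_self (fun y => |φ y|) volume x]

/-- The kernels cut off away from the origin. -/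
def annKer (a : ℕ) (g : Bil) (z : R4) : ℝ := annCut z * (qf g z ^ a)⁻¹

theorem annKer_smooth (a : ℕ) (hg : MetBound c Cg g) (hc : 0 < c) :
    ContDiff ℝ ∞ (annKer a g) ∧ HasCompactSupport (annKer a g) := by
  have hcs : HasCompactSupport annCut := farCut.hasCompactSupport.sub holeCut.hasCompactSupport
  refine ⟨contDiff_iff_contDiffAt.2 fun z => ?_, hcs.mul_right⟩
  rcases eq_or_ne z 0 with rfl | hz
  · refine (contDiffAt_const (c := (0 : ℝ))).congr_of_eventuallyEq ?_
    filter_upwards [annCut_zero (z := (0 : R4)) (by simp)] with y hy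
    rw [annKer, hy, zero_mul]
  · exact (farCut.contDiffAt.sub holeCut.contDiffAt).mul
      (((contDiff_qf g).contDiffAt.pow a).inv (pow_ne_zero a (hg.pos hc z hz).ne'))

theorem annKer_deriv (a : ℕ) (hc : 0 < c) (hCg : 0 ≤ Cg) : ∃ D : ℝ, 0 ≤ D ∧ ∀ g, MetBound c Cg g →
    ∀ z, |annKer a g z| ≤ D ∧ ∀ v, |fderiv ℝ (annKer a g) z v| ≤ D * ‖v‖ := by
  have hcs : HasCompactSupport annCut := farCut.hasCompactSupport.sub holeCut.hasCompactSupport
  have hsm : ContDiff ℝ ∞ annCut := farCut.contDiff.sub holeCut.contDiff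
  obtain ⟨A0, hA0⟩ := hcs.exists_bound_of_continuous hsm.continuous
  obtain ⟨A1, hA1⟩ := (hcs.fderiv (𝕜 := ℝ)).exists_bound_of_continuous (hsm.continuous_fderiv (by simp))
  set M := (c ^ a)⁻¹ * (50 : ℝ) ^ (2 * a) with hM
  set M' := (a : ℝ) * (c * (1 / 50) ^ 2)⁻¹ * M * (2 * Cg * 9) with hM'
  have hA00 : 0 ≤ A0 := (norm_nonneg _).trans (hA0 0)
  have hA10 : 0 ≤ A1 := (norm_nonneg _).trans (hA1 0)
  have hM0 : 0 ≤ M := by positivity
  have hM'0 : 0 ≤ M' := by positivity
  refine ⟨A0 * M + A1 * M + A0 * M', by positivity, fun g hg z => ?_⟩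
  rcases lt_or_ge ‖z‖ (1 / 50) with hz | hz
  · have h : annKer a g =ᶠ[𝓝 z] fun _ => 0 := by
      filter_upwards [annCut_zero hz] with y hy
      rw [annKer, hy, zero_mul]
    refine ⟨by rw [h.eq_of_nhds, abs_zero]; positivity, fun v => ?_⟩
    rw [h.fderiv_eq]
    simp
    positivity
  · have hz0 : 0 < ‖z‖ := lt_of_lt_of_le (by norm_num) hz
    have hzne : z ≠ 0 := norm_pos_iff.1 hz0
    have hq : 0 < qf g z := hg.pos hc z hzne
    have hinv : (qf g z ^ a)⁻¹ ≤ M := by
      refine ((hg.inv_q hc a hzne).2).trans (mul_le_mul_of_nonneg_left ?_ (by positivity))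
      calc sing (2 * a) z ≤ (((1 : ℝ) / 50) ^ (2 * a))⁻¹ :=
            inv_anti₀ (by positivity) (pow_le_pow_left₀ (by norm_num) hz _)
        _ = 50 ^ (2 * a) := by rw [div_pow, one_pow, inv_div, div_one]
    have h1 : |annKer a g z| ≤ A0 * M := by
      rw [annKer, abs_mul, abs_of_nonneg (by positivity : (0 : ℝ) ≤ (qf g z ^ a)⁻¹)]
      exact mul_le_mul (hA0 z) hinv (by positivity) hA00
    refine ⟨h1.trans (by have := mul_nonneg hA10 hM0; have := mul_nonneg hA00 hM'0; linarith), fun v => ?_⟩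
    have hd := (hsm.differentiable (by simp) z).hasFDerivAt.mul
      ((hasDerivAt_inv (pow_ne_zero a hq.ne')).comp_hasFDerivAt z ((hasFDerivAt_qf g hg.1 z).pow a))
    have e := congrArg (fun T : R4 →L[ℝ] ℝ => T v) hd.fderiv
    rw [show fderiv ℝ (annKer a g) z v = _ from e]
    simp only [add_apply, smul_apply, smul_eq_mul, nsmul_eq_mul, ContinuousLinearMap.coe_smul', Pi.smul_apply]
    have hv9 : ∀ w : ℝ, 0 ≤ w → annCut z ≠ 0 → w * |g z v| ≤ w * (Cg * 9 * ‖v‖) := fun w hw hne => by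
      refine mul_le_mul_of_nonneg_left ((hg.2.2 z v).trans ?_) hw
      gcongr
      by_contra h
      refine hne ?_
      rw [annCut, farCut.zero_of_le_dist (by rw [dist_zero_right]; exact (not_le.1 h).le),
        holeCut.zero_of_le_dist (by rw [dist_zero_right, show holeCut.rOut = 1 / 25 from rfl]; linarith [not_le.1 h]),
        sub_zero]
    refine (abs_add_le _ _).trans ?_
    have t2 : |(qf g z ^ a)⁻¹ * fderiv ℝ annCut z v| ≤ A1 * M * ‖v‖ := by
      rw [abs_mul, abs_of_nonneg (by positivity : (0 : ℝ) ≤ (qf g z ^ a)⁻¹)]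
      calc (qf g z ^ a)⁻¹ * |fderiv ℝ annCut z v| ≤ M * (A1 * ‖v‖) :=
            mul_le_mul hinv (((fderiv ℝ annCut z).le_opNorm v).trans
              (mul_le_mul_of_nonneg_right (hA1 z) (norm_nonneg v))) (abs_nonneg _) hM0
        _ = _ := by ring
    have t1 : ∀ w : ℝ, |w| ≤ (a : ℝ) * (c * (1 / 50) ^ 2)⁻¹ * M * 2 →
        |annCut z * (w * g z v)| ≤ A0 * M' * ‖v‖ := by
      intro w hw
      rcases eq_or_ne (annCut z) 0 with h0 | h0
      · rw [h0, zero_mul, abs_zero]; positivity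
      · rw [abs_mul, abs_mul]
        calc |annCut z| * (|w| * |g z v|)
            ≤ A0 * ((a : ℝ) * (c * (1 / 50) ^ 2)⁻¹ * M * 2 * (Cg * 9 * ‖v‖)) :=
              mul_le_mul (hA0 z) ((hv9 _ (abs_nonneg _) h0).trans
                (mul_le_mul_of_nonneg_right hw (by positivity))) (by positivity) hA00
          _ = _ := by rw [hM']; ring
    have hw : |-((qf g z ^ a) ^ 2)⁻¹ * ((a : ℝ) * qf g z ^ (a - 1) * 2)| ≤
        (a : ℝ) * (c * (1 / 50) ^ 2)⁻¹ * M * 2 := by
      rcases Nat.eq_zero_or_pos a with h0 | h0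
      · simp [h0]
      · rw [abs_mul, abs_neg, abs_of_nonneg (by positivity : (0 : ℝ) ≤ ((qf g z ^ a) ^ 2)⁻¹),
          abs_of_nonneg (by positivity : (0 : ℝ) ≤ (a : ℝ) * qf g z ^ (a - 1) * 2)]
        have e : ((qf g z ^ a) ^ 2)⁻¹ * ((a : ℝ) * qf g z ^ (a - 1) * 2) =
            (a : ℝ) * (qf g z)⁻¹ * (qf g z ^ a)⁻¹ * 2 := by
          obtain ⟨b, rfl⟩ := Nat.exists_eq_succ_of_ne_zero h0.ne'
          simp only [Nat.succ_sub_one, pow_succ]
          field_simp
        rw [e]
        gcongr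
        calc c * (1 / 50) ^ 2 ≤ c * ‖z‖ ^ 2 := by gcongr
          _ ≤ _ := hg.2.1 z
    have h3 := t1 _ hw
    refine le_trans (add_le_add (le_of_eq_of_le (congrArg _ (by ring)) h3)
      (le_of_eq_of_le (congrArg _ (by simp [Function.comp_apply])) t2)) ?_
    rw [← add_mul]
    refine mul_le_mul_of_nonneg_right ?_ (norm_nonneg v)
    have := mul_nonneg hA00 hM0
    linarith

/-- The Newton kernel can be integrated by parts. -/
theorem newton_byParts (hg : MetBound c Cg g) (hc : 0 < c) (hCg : 0 ≤ Cg) {φ : R4 → ℝ}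
    (hφ : ContDiff ℝ ∞ φ) (hs : ∀ y, 15 / 4 < ‖y‖ → φ y = 0) {x : R4} (hx : ‖x‖ ≤ 3) (v : R4) :
    ∫ z, (qf g z)⁻¹ * fderiv ℝ φ (x - z) v =
      -2 * ∫ z, g z v * (qf g z ^ 2)⁻¹ * φ (x - z) := by
  have hcs := hcs_of_supp hs
  obtain ⟨B, hB⟩ := hcs.exists_bound_of_continuous hφ.continuous
  obtain ⟨B', hB'⟩ := (hcs.fderiv (𝕜 := ℝ)).exists_bound_of_continuous (hφ.continuous_fderiv (by simp))
  obtain ⟨L, hL⟩ := (farCut.hasCompactSupport.fderiv (𝕜 := ℝ)).exists_bound_of_continuous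
    (farCut.contDiff.continuous_fderiv (n := 1) one_ne_zero)
  have hL0 : 0 ≤ L := (norm_nonneg _).trans (hL 0)
  set a : R4 → ℝ := fun z => farCut z * (qf g z)⁻¹ with ha
  have hasm : ContDiffOn ℝ ∞ a {z | z ≠ 0} :=
    farCut.contDiff.contDiffOn.mul ((contDiff_qf g).contDiffOn.inv fun z hz => (hg.pos hc z hz).ne')
  have hout : ∀ z : R4, 9 ≤ ‖z‖ → farCut z = 0 := fun z hz =>
    farCut.zero_of_le_dist (by rw [dist_zero_right]; exact hz)
  have hd : ∀ z, z ≠ 0 → fderiv ℝ a z v =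
      (qf g z)⁻¹ * fderiv ℝ farCut z v + farCut z * (-2 * (g z v * (qf g z ^ 2)⁻¹)) := fun z hz => by
    have h := ((farCut.contDiff (n := 1)).differentiable one_ne_zero z).hasFDerivAt.mul
      ((hasDerivAt_inv (show qf g z ≠ 0 from (hg.pos hc z hz).ne')).comp_hasFDerivAt z
        (hasFDerivAt_qf g hg.1 z))
    exact (congrArg (fun T : R4 →L[ℝ] ℝ => T v) h.fderiv).trans (by simp [qf]; ring)
  set C := c⁻¹ + c⁻¹ * L * ‖v‖ * 10 + 2 * Cg * ‖v‖ * (c ^ 2)⁻¹ with hC
  have hC1 : c⁻¹ ≤ C := by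
    have : 0 ≤ c⁻¹ * L * ‖v‖ * 10 := by positivity
    have : 0 ≤ 2 * Cg * ‖v‖ * (c ^ 2)⁻¹ := by positivity
    linarith
  have hC0 : 0 ≤ C := le_trans (by positivity) hC1
  have hb := byParts (W := ℝ) (r := 10) (C := C) (a := a) (v := v) hasm
    (fun z hz => by rw [ha]; simp only; rw [hout z (by linarith), zero_mul])
    (fun z hz => ?_) (fun z hz => ?_) hφ (B := B) (B' := B') hB hB' x
  rotate_left
  · have hz0 : 0 < ‖z‖ := norm_pos_iff.2 hz
    rw [ha]
    simp only [abs_mul, abs_of_nonneg farCut.nonneg]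
    rcases le_or_gt 10 ‖z‖ with h | h
    · rw [hout z (by linarith), zero_mul]
      exact mul_nonneg (mul_nonneg hC0 (wt_nonneg _ _)) (norm_nonneg _)
    · rw [show wt 10 z = (‖z‖ ^ 3)⁻¹ from indicator_of_mem (by simpa using h) _]
      have h1 := hg.inv_q hc 1 hz
      simp only [pow_one, mul_one] at h1
      rw [abs_of_nonneg h1.1]
      refine (mul_le_of_le_one_left h1.1 farCut.le_one).trans (h1.2.trans ?_)
      calc c⁻¹ * sing 2 z ≤ C * sing 2 z := mul_le_mul_of_nonneg_right hC1 (sing_nonneg 2 z)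
        _ = C * (‖z‖ ^ 3)⁻¹ * ‖z‖ := by rw [sing]; field_simp
  · have hz0 : 0 < ‖z‖ := norm_pos_iff.2 hz
    rcases le_or_gt 10 ‖z‖ with h | h
    · have he : farCut =ᶠ[𝓝 z] fun _ => (0 : ℝ) := by
        filter_upwards [(isOpen_lt continuous_const continuous_norm).mem_nhds
          (show (9 : ℝ) < ‖z‖ by linarith)] with y hy
        exact hout y (le_of_lt hy)
      rw [hd z hz, he.eq_of_nhds, he.fderiv_eq]
      simp
      exact mul_nonneg hC0 (wt_nonneg _ _)
    · rw [show wt 10 z = (‖z‖ ^ 3)⁻¹ from indicator_of_mem (by simpa using h) _, hd z hz]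
      have h1 := hg.inv_q hc 1 hz
      have h2 := hg.inv_q hc 2 hz
      simp only [pow_one, mul_one] at h1
      refine (abs_add_le _ _).trans ?_
      rw [abs_mul, abs_mul, abs_mul, abs_mul, abs_of_nonneg h1.1, abs_of_nonneg h2.1,
        abs_of_nonneg farCut.nonneg, show |(-2 : ℝ)| = 2 by norm_num]
      calc (qf g z)⁻¹ * |fderiv ℝ farCut z v| + farCut z * (2 * (|g z v| * (qf g z ^ 2)⁻¹))
          ≤ c⁻¹ * sing 2 z * (L * ‖v‖) +
              1 * (2 * (Cg * ‖z‖ * ‖v‖ * ((c ^ 2)⁻¹ * sing (2 * 2) z))) := by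
            refine add_le_add (mul_le_mul h1.2 (((fderiv ℝ farCut z).le_opNorm v).trans
              (mul_le_mul_of_nonneg_right (hL z) (norm_nonneg v))) (abs_nonneg _)
              (mul_nonneg (by positivity) (sing_nonneg 2 z))) ?_
            refine mul_le_mul farCut.le_one (mul_le_mul_of_nonneg_left
              (mul_le_mul (hg.2.2 z v) h2.2 h2.1 (by positivity)) zero_le_two) (by positivity)
              zero_le_one
        _ = (c⁻¹ * L * ‖v‖ * ‖z‖ + 2 * Cg * ‖v‖ * (c ^ 2)⁻¹) * (‖z‖ ^ 3)⁻¹ := by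
            rw [sing, sing]; field_simp; ring
        _ ≤ C * (‖z‖ ^ 3)⁻¹ := by
            refine mul_le_mul_of_nonneg_right ?_ (by positivity)
            have h3 : c⁻¹ * L * ‖v‖ * ‖z‖ ≤ c⁻¹ * L * ‖v‖ * 10 :=
              mul_le_mul_of_nonneg_left h.le (by positivity)
            have : 0 ≤ c⁻¹ := by positivity
            linarith
  rw [← integral_const_mul]
  calc ∫ z, (qf g z)⁻¹ * fderiv ℝ φ (x - z) v = ∫ z, a z • fderiv ℝ φ (x - z) v := by
        congr 1
        funext z
        have e := farCut_irrel (fderiv_supp hs) (show ‖x‖ ≤ 4 by linarith) z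
        have e' := congrArg (fun T : R4 →L[ℝ] ℝ => T v) e
        simp only [smul_apply, smul_eq_mul] at e'
        rw [ha, smul_eq_mul]
        simp only
        rw [mul_comm (farCut z), mul_assoc, e']
    _ = ∫ z, fderiv ℝ a z v • φ (x - z) := hb
    _ = _ := by
        refine integral_congr_ae ?_
        filter_upwards [ae_ne_zero] with z hz
        rw [smul_eq_mul]
        rcases eq_or_ne (φ (x - z)) 0 with h0 | h0
        · simp [h0]
        · have hle : ‖x - z‖ ≤ 15 / 4 := not_lt.1 fun h => h0 (hs _ h)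
          have hz8 : ‖z‖ < 8 := by linarith [norm_sub_norm_le z x, norm_sub_rev z x]
          have he : farCut =ᶠ[𝓝 z] fun _ => (1 : ℝ) :=
            farCut.eventuallyEq_one_of_mem_ball (mem_ball_zero_iff.2 hz8)
          rw [hd z hz, farCut_one hz8.le, he.fderiv_eq]
          simp
          ring

end Vale.Agent.P204.Full.Potential
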