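import Vale.Agent.P204.Full.Potential.PotCoef

/-!
P204 potential theory: the Euclidean primitive of a two-form which is closed near the origin.
-/

open scoped ContDiff Topology
open MeasureTheory Set Metric Filter

noncomputable section

namespace Vale.Agent.P204.Full.Potential

open Vale.Agent.P204.Full.Elliptic (qf IsKernel intOp derivKer compKer Hom ae_ne_zero)

/-! ### Two-forms and their derivatives -/

theorem nbvec (i : Fin 4) : ‖bvec i‖ = 1 := by simp [bvec]

section Forms

variable {f : R4 → Bil}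

theorem form_apply_smooth (hf : ContDiff ℝ ∞ f) (b c : R4) : ContDiff ℝ ∞ fun y => f y b c :=
  (hf.clm_apply contDiff_const).clm_apply contDiff_const

theorem form_apply_hcs (hs : ∀ y, 15 / 4 < ‖y‖ → f y = 0) (b c : R4) :
    HasCompactSupport fun y => f y b c :=
  hcs_of_supp fun y hy => by simp [hs y hy]

theorem fderiv_form_apply (hf : ContDiff ℝ ∞ f) (y a b c : R4) :
    fderiv ℝ (fun y => f y b c) y a = fderiv ℝ f y a b c := by
  have hL := ((ContinuousLinearMap.apply ℝ ℝ c).comp (ContinuousLinearMap.apply ℝ Cov b)).hasFDerivAt.comp y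
    (hf.differentiable (by simp) y).hasFDerivAt
  exact congrArg (fun T : R4 →L[ℝ] ℝ => T a) hL.fderiv

theorem d2At_lin (f : R4 → Bil) (y z u w : R4) :
    d2At f y z u w = ∑ i, z i * d2At f y (bvec i) u w := by
  conv_lhs => rw [Base.vec_expand z]
  simp only [d2At, map_sum, map_smul, FunLike.coe_sum, FunLike.coe_smul, Finset.sum_apply,
    Pi.smul_apply, smul_eq_mul, mul_add, mul_sub, Finset.sum_add_distrib, Finset.sum_sub_distrib]

theorem d2At_continuous (hf : ContDiff ℝ ∞ f) (x u v w : R4) :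
    Continuous fun z => d2At f (x - z) u v w := by
  have h : ∀ a b c : R4, Continuous fun z => fderiv ℝ f (x - z) a b c := fun a b c =>
    ((((hf.continuous_fderiv (by simp)).comp (continuous_const.sub continuous_id)).clm_apply
      continuous_const).clm_apply continuous_const).clm_apply continuous_const
  exact ((h u v w).sub (h v u w)).add (h w u v)

/-- The exterior derivative against a smooth weight is controlled by the mass of the form. -/
theorem d2At_weight (hf : ContDiff ℝ ∞ f) (hs : ∀ y, 15 / 4 < ‖y‖ → f y = 0) {ρ : R4 → ℝ}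
    (hρ : ContDiff ℝ ∞ ρ) (hρc : HasCompactSupport ρ) {D : ℝ}
    (hD : ∀ z v, |fderiv ℝ ρ z v| ≤ D * ‖v‖) (x u v w : R4) :
    |∫ z, ρ z * d2At f (x - z) u v w| ≤ 3 * D * (‖u‖ * ‖v‖ * ‖w‖) * ∫ y, ‖f y‖ := by
  have hD0 : 0 ≤ D := by
    have h := hD 0 (bvec 0)
    rw [nbvec, mul_one] at h
    exact (abs_nonneg _).trans h
  have hfn : Integrable fun y => ‖f y‖ :=
    (hf.continuous.integrable_of_hasCompactSupport (hcs_of_supp hs)).norm
  have key : ∀ a b c : R4, |∫ z, ρ z * fderiv ℝ f (x - z) a b c| ≤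
      D * (‖a‖ * ‖b‖ * ‖c‖) * ∫ y, ‖f y‖ := by
    intro a b c
    have h := ibp_far hρ hρc (form_apply_smooth hf b c) (form_apply_hcs hs b c) x a
      (fun z => hD z a)
    simp only [fderiv_form_apply hf] at h
    refine h.trans ?_
    rw [mul_assoc D, mul_assoc D, mul_comm (‖a‖ * ‖b‖ * ‖c‖), ← integral_mul_const]
    refine mul_le_mul_of_nonneg_left ?_ hD0
    rw [← integral_const_mul]
    refine integral_mono (((form_apply_smooth hf b c).continuous.integrable_of_hasCompactSupport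
      (form_apply_hcs hs b c)).abs.const_mul _) (hfn.mul_const _) fun y => ?_
    rw [← Real.norm_eq_abs]
    calc ‖a‖ * ‖f y b c‖ ≤ ‖a‖ * (‖f y‖ * ‖b‖ * ‖c‖) :=
          mul_le_mul_of_nonneg_left ((f y).le_opNorm₂ b c) (norm_nonneg a)
      _ = _ := by ring
  have hint : ∀ a b c : R4, Integrable fun z => ρ z * fderiv ℝ f (x - z) a b c := fun a b c =>
    ((hρ.continuous.mul ((((hf.continuous_fderiv (by simp)).comp
      (continuous_const.sub continuous_id)).clm_apply continuous_const).clm_apply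
        continuous_const |>.clm_apply continuous_const))).integrable_of_hasCompactSupport hρc.mul_right
  have e : (fun z => ρ z * d2At f (x - z) u v w) = fun z =>
      ρ z * fderiv ℝ f (x - z) u v w - ρ z * fderiv ℝ f (x - z) v u w +
        ρ z * fderiv ℝ f (x - z) w u v := by
    funext z
    simp only [d2At]
    ring
  rw [e]
  refine le_of_eq_of_le (congrArg (fun t => |t|) ((integral_add ((hint u v w).sub (hint v u w))
    (hint w u v)).trans (congrArg (fun t => t + _) (integral_sub (hint u v w) (hint v u w))))) ?_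
  refine (abs_add_le _ _).trans ((add_le_add (abs_sub _ _) le_rfl).trans ?_)
  have h1 := key u v w
  have h2 := key v u w
  have h3 := key w u v
  rw [mul_comm ‖v‖ ‖u‖] at h2
  rw [show ‖w‖ * ‖u‖ * ‖v‖ = ‖u‖ * ‖v‖ * ‖w‖ by ring] at h3
  linarith

/-- A form closed near the origin only sees the annulus. -/
theorem closed_annulus (hs : ∀ y, 15 / 4 < ‖y‖ → f y = 0)
    (hcl : ∀ y, ‖y‖ < 11 / 4 → ∀ u v w, d2At f y u v w = 0) (a : ℕ) (g : Bil) {x : R4}
    (hx : ‖x‖ ≤ 27 / 10) (z u v w : R4) :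
    (qf g z ^ a)⁻¹ * d2At f (x - z) u v w = annKer a g z * d2At f (x - z) u v w := by
  rcases lt_or_ge ‖x - z‖ (11 / 4) with h | h
  · rw [hcl _ h, mul_zero, mul_zero]
  · rcases lt_or_ge (15 / 4 : ℝ) ‖x - z‖ with h' | h'
    · simp [d2At, fderiv_supp hs _ h']
    · rw [annKer, annCut_one (by linarith [norm_sub_le x z])
        (by linarith [norm_sub_norm_le z x, norm_sub_rev z x]), one_mul]

end Forms

/-! ### Radial integrands -/

theorem rad_integrable {c Cg : ℝ} {g : Bil} (hg : MetBound c Cg g) (hc : 0 < c) {F : R4 → ℝ}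
    (hF : Measurable F) {B : ℝ} (hB : ∀ z, |F z| ≤ B * ‖z‖) (hR : ∀ z, 8 ≤ ‖z‖ → F z = 0) :
    Integrable fun z => (qf g z ^ 2)⁻¹ * F z := by
  have hdom : Integrable fun z =>
      sing 3 z * (ball (0 : R4) 8).indicator (fun _ => (c ^ 2)⁻¹ * |B|) z :=
    sing_integrable le_rfl (measurable_const.indicator measurableSet_ball) (B := (c ^ 2)⁻¹ * |B|)
      (R := 8) (fun z => by
        rw [abs_of_nonneg (indicator_nonneg (fun _ _ => by positivity) z)]
        exact indicator_le_self' (fun _ _ => by positivity) z)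
      fun z hz => indicator_of_notMem (by rw [mem_ball_zero_iff, not_lt]; exact hz) _
  refine hdom.mono' ((((Elliptic.contDiff_qf g).continuous.measurable.pow_const 2).inv).mul
    hF).aestronglyMeasurable ?_
  filter_upwards [ae_ne_zero] with z hz
  have h := hg.inv_q hc 2 hz
  rw [Real.norm_eq_abs, abs_mul, abs_of_nonneg h.1]
  rcases lt_or_ge ‖z‖ 8 with h8 | h8
  · rw [indicator_of_mem (mem_ball_zero_iff.2 h8)]
    refine (mul_le_mul h.2 ((hB z).trans (mul_le_mul_of_nonneg_right (le_abs_self B) (norm_nonneg z)))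
      (abs_nonneg _) (mul_nonneg (by positivity) (sing_nonneg _ z))).trans (le_of_eq ?_)
    have : ‖z‖ ≠ 0 := norm_ne_zero_iff.2 hz
    simp only [sing]
    field_simp
    ring
  · rw [hR z h8, abs_zero, mul_zero]
    exact mul_nonneg (sing_nonneg 3 z) (indicator_nonneg (fun _ _ => by positivity) z)

theorem far_zero {E : Type} [Zero E] {F : R4 → E} (hF : ∀ y, 15 / 4 < ‖y‖ → F y = 0) {x : R4}
    (hx : ‖x‖ ≤ 4) {z : R4} (hz : 8 ≤ ‖z‖) : F (x - z) = 0 :=
  hF _ (by linarith [norm_sub_norm_le z x, norm_sub_rev z x])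

/-! ### The primitive -/

theorem muEuc_supp (x : R4) (hx : 7 / 2 < ‖x‖) : muEuc x = 0 :=
  innerCut_supp (f := fun _ => (radMass stdG)⁻¹) x hx

theorem stdG_pos (v : R4) (hv : v ≠ 0) : 0 < stdG v v := by rw [stdG_self]; positivity

theorem stdG_bound : MetBound 1 1 stdG :=
  ⟨stdG_symm, fun v => by rw [stdG_self, one_mul], fun u v => by
    rw [stdG_apply, one_mul]; exact abs_real_inner_le_norm u v⟩

/-- The kernel of the Euclidean primitive. -/
def eucKer : R4 → R4 → Bil →L[ℝ] Cov := cutKer (radKer (W := Cov) muEuc fun _ => stdG)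

/-- The Euclidean primitive. -/
def eucPrim (f : R4 → Bil) : R4 → Cov := intOp eucKer f

theorem eucKer_hom : Hom 3 (radKer (W := Cov) muEuc fun _ => stdG) :=
  radKer_hom muEuc_smooth muEuc_supp contDiff_const fun _ => stdG_pos

theorem eucPrim_smooth {f : R4 → Bil} (hf : ContDiff ℝ ∞ f)
    (hs : ∀ y, 15 / 4 < ‖y‖ → f y = 0) : ContDiff ℝ ∞ (eucPrim f) := by
  obtain ⟨C, hk, -⟩ := cutKer_isKernel eucKer_hom le_rfl (by norm_num)
  obtain ⟨B, hB⟩ := bddDerivs hf (hcs_of_supp hs)
  exact Elliptic.intOp_contDiff hk (by norm_num) hf hB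

theorem eucPrim_norm : ∃ C : ℝ, 0 ≤ C ∧ ∀ f : R4 → Bil, ContDiff ℝ ∞ f →
    (∀ y, 15 / 4 < ‖y‖ → f y = 0) → ∀ x : R4, ‖x‖ ≤ 4 →
      ‖eucPrim f x‖ ≤ C * ∫ z, sing 3 z * ‖f (x - z)‖ := by
  refine ⟨|(radMass stdG)⁻¹|, abs_nonneg _, fun f hf hs x hx => ?_⟩
  obtain ⟨B, hB⟩ := (hcs_of_supp hs).exists_bound_of_continuous hf.continuous
  have hi : Integrable fun z => sing 3 z * ‖f (x - z)‖ :=
    sing_integrable le_rfl ((hf.continuous.norm.comp (continuous_const.sub continuous_id)).measurable)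
      (B := B) (R := 8) (fun z => by rw [abs_norm]; exact hB _)
      fun z hz => by rw [far_zero hs hx hz, norm_zero]
  rw [← integral_const_mul]
  refine norm_integral_le_of_norm_le (hi.const_mul _) ?_
  filter_upwards [ae_ne_zero] with z hz
  rw [eucKer, cutKer_eq hs hx, radKer]
  refine ((ContinuousLinearMap.le_opNorm _ _).trans ?_).trans_eq (mul_assoc _ _ _)
  refine mul_le_mul_of_nonneg_right ?_ (norm_nonneg _)
  refine ContinuousLinearMap.opNorm_le_bound _ (mul_nonneg (abs_nonneg _) (sing_nonneg 3 z))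
    fun T => ?_
  have hmu : |muEuc x| ≤ |(radMass stdG)⁻¹| := by
    rw [muEuc, abs_mul, abs_of_nonneg innerCut.nonneg]
    exact mul_le_of_le_one_left (abs_nonneg _) innerCut.le_one
  rw [smul_apply, ContinuousLinearMap.apply_apply]
  refine (norm_smul_le _ _).trans ?_
  rw [Real.norm_eq_abs, abs_mul,
    show qf stdG z = ‖z‖ ^ 2 from stdG_self z, abs_of_nonneg (by positivity : (0 : ℝ) ≤ ((‖z‖ ^ 2) ^ 2)⁻¹)]
  calc |muEuc x| * ((‖z‖ ^ 2) ^ 2)⁻¹ * ‖T z‖
      ≤ |(radMass stdG)⁻¹| * ((‖z‖ ^ 2) ^ 2)⁻¹ * (‖T‖ * ‖z‖) :=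
        mul_le_mul (mul_le_mul_of_nonneg_right hmu (by positivity)) (T.le_opNorm z) (norm_nonneg _)
          (by positivity)
    _ = _ := by
        have : ‖z‖ ≠ 0 := norm_ne_zero_iff.2 hz
        simp only [sing]
        field_simp

theorem eucPrim_deriv {f : R4 → Bil} (hf : ContDiff ℝ ∞ f) (hs : ∀ y, 15 / 4 < ‖y‖ → f y = 0)
    {x : R4} (hx : ‖x‖ < 3) (u w : R4) :
    fderiv ℝ (eucPrim f) x u w =
      (radMass stdG)⁻¹ * ∫ z, (qf stdG z ^ 2)⁻¹ * fderiv ℝ f (x - z) u z w := by
  obtain ⟨C, hk', -⟩ := cutKer_isKernel eucKer_hom le_rfl (by norm_num)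
  have hk : IsKernel 10 C eucKer := hk'
  obtain ⟨B, hB⟩ := bddDerivs hf (hcs_of_supp hs)
  have hmu : muEuc =ᶠ[𝓝 x] fun _ => (radMass stdG)⁻¹ := by
    filter_upwards [innerCut.eventuallyEq_one_of_mem_ball (mem_ball_zero_iff.2 hx)] with y hy
    rw [muEuc, hy, Pi.one_apply, one_mul]
  have h0 : intOp (derivKer eucKer) f x = 0 := by
    refine integral_eq_zero_of_ae (Eventually.of_forall fun z => ?_)
    have he : (fun y => eucKer y z) =ᶠ[𝓝 x] fun _ =>
        farCut z • (((radMass stdG)⁻¹ * (qf stdG z ^ 2)⁻¹) • ContinuousLinearMap.apply ℝ Cov z) := by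
      filter_upwards [hmu] with y hy
      simp only [eucKer, cutKer, radKer, hy]
    simp only [Elliptic.derivKer, he.fderiv_eq, fderiv_fun_const, Pi.zero_apply]
    exact congrArg (fun T => T (f (x - z)))
      (LinearIsometryEquiv.map_zero (ContinuousLinearMap.flipₗᵢ ℝ R4 Bil Cov))
  have hd := hk.hasFDerivAt_intOp hf hB x
  have h1 : ∀ y, ‖fderiv ℝ f y‖ ≤ B 1 := fun y => by simpa [norm_iteratedFDeriv_one] using hB 1 y
  have hint := hk.compKer.integrable (hf.continuous_fderiv (by simp)) h1 x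
  set L : (R4 →L[ℝ] Cov) →L[ℝ] ℝ :=
    (ContinuousLinearMap.apply ℝ ℝ w).comp (ContinuousLinearMap.apply ℝ Cov u) with hL
  show L (fderiv ℝ (intOp eucKer f) x) = _
  rw [hd.fderiv, h0, zero_add, ← integral_const_mul]
  refine (L.integral_comp_comm hint).symm.trans (integral_congr_ae (Eventually.of_forall fun z => ?_))
  show eucKer x z (fderiv ℝ f (x - z) u) w = _
  rw [eucKer, cutKer_eq (F := fun y => fderiv ℝ f y u) (fun y hy => by simp [fderiv_supp hs y hy])
    (by linarith), radKer]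
  simp only [smul_apply, ContinuousLinearMap.apply_apply, smul_eq_mul, hmu.eq_of_nhds]
  ring

theorem eucPrim_d : ∃ C : ℝ, 0 ≤ C ∧ ∀ f : R4 → Bil, ContDiff ℝ ∞ f →
    (∀ y, 15 / 4 < ‖y‖ → f y = 0) → (∀ y, ‖y‖ < 11 / 4 → ∀ u v w, d2At f y u v w = 0) →
      ∀ x : R4, ‖x‖ ≤ 27 / 10 → ‖d1At (eucPrim f) x - f x‖ ≤ C * ∫ y, ‖f y‖ := by
  obtain ⟨D, hD0, hD⟩ := annKer_deriv 2 one_pos (zero_le_one : (0 : ℝ) ≤ 1)
  have hlam : 0 ≤ (radMass stdG)⁻¹ := (inv_pos.2 (radMass_pos stdG_symm stdG_pos)).le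
  refine ⟨(radMass stdG)⁻¹ * (4 * (3 * (10 * D))), by positivity, fun f hf hs hcl x hx => ?_⟩
  have hm : 0 ≤ ∫ y, ‖f y‖ := integral_nonneg fun y => norm_nonneg _
  refine ContinuousLinearMap.opNorm_le_bound₂ _ (by positivity) fun u w => ?_
  obtain ⟨B, hB⟩ := ((hcs_of_supp hs).fderiv (𝕜 := ℝ)).exists_bound_of_continuous
    (hf.continuous_fderiv (by simp))
  have hx4 : ‖x‖ ≤ 4 := by linarith
  have hcd : Continuous fun z => fderiv ℝ f (x - z) :=
    (hf.continuous_fderiv (by simp)).comp (continuous_const.sub continuous_id)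
  have hfz : ∀ z, 8 ≤ ‖z‖ → fderiv ℝ f (x - z) = 0 := fun z hz => far_zero (fderiv_supp hs) hx4 hz
  have i1 : ∀ a b : R4, Integrable fun z => (qf stdG z ^ 2)⁻¹ * fderiv ℝ f (x - z) a z b := fun a b =>
    rad_integrable stdG_bound one_pos
      (((hcd.clm_apply continuous_const).clm_apply continuous_id).clm_apply continuous_const).measurable
      (B := B * ‖a‖ * ‖b‖) (fun z => by
        rw [← Real.norm_eq_abs]
        refine ((fderiv ℝ f (x - z) a).le_opNorm₂ z b).trans ?_
        calc ‖fderiv ℝ f (x - z) a‖ * ‖z‖ * ‖b‖ ≤ B * ‖a‖ * ‖z‖ * ‖b‖ := by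
              gcongr
              exact ((fderiv ℝ f (x - z)).le_opNorm a).trans
                (mul_le_mul_of_nonneg_right (hB _) (norm_nonneg a))
          _ = _ := by ring)
      fun z hz => by simp [hfz z hz]
  have i2 : Integrable fun z => (qf stdG z ^ 2)⁻¹ * fderiv ℝ f (x - z) z u w :=
    rad_integrable stdG_bound one_pos
      (((hcd.clm_apply continuous_id).clm_apply continuous_const).clm_apply continuous_const).measurable
      (B := B * ‖u‖ * ‖w‖) (fun z => by
        rw [← Real.norm_eq_abs]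
        refine ((fderiv ℝ f (x - z) z).le_opNorm₂ u w).trans ?_
        calc ‖fderiv ℝ f (x - z) z‖ * ‖u‖ * ‖w‖ ≤ B * ‖z‖ * ‖u‖ * ‖w‖ := by
              gcongr
              exact ((fderiv ℝ f (x - z)).le_opNorm z).trans
                (mul_le_mul_of_nonneg_right (hB _) (norm_nonneg z))
          _ = _ := by ring)
      fun z hz => by simp [hfz z hz]
  have hrad : f x u w = (radMass stdG)⁻¹ * ∫ z, (qf stdG z ^ 2)⁻¹ * fderiv ℝ f (x - z) z u w := by
    have h := radial stdG_symm stdG_pos (form_apply_smooth hf u w) (form_apply_hcs hs u w) x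
    simp only [smul_eq_mul, fderiv_form_apply hf] at h
    rw [h, inv_mul_cancel_left₀ (radMass_pos stdG_symm stdG_pos).ne']
  have e : (d1At (eucPrim f) x - f x) u w =
      -((radMass stdG)⁻¹ * ∫ z, annKer 2 stdG z * d2At f (x - z) z u w) := by
    simp only [d1At, sub_apply, ContinuousLinearMap.flip_apply]
    rw [eucPrim_deriv hf hs (by linarith) u w, eucPrim_deriv hf hs (by linarith) w u, hrad,
      ← mul_sub, ← mul_sub, ← mul_neg, ← integral_sub (i1 u w) (i1 w u), ← integral_neg]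
    congr 1
    refine (integral_sub (f := fun z => (qf stdG z ^ 2)⁻¹ * fderiv ℝ f (x - z) u z w -
      (qf stdG z ^ 2)⁻¹ * fderiv ℝ f (x - z) w z u) ((i1 u w).sub (i1 w u)) i2).symm.trans ?_
    refine integral_congr_ae (Eventually.of_forall fun z => ?_)
    simp only
    rw [← closed_annulus hs hcl 2 stdG hx z z u w, d2At]
    ring
  rw [e, Real.norm_eq_abs, abs_neg, abs_mul, abs_of_nonneg hlam, mul_assoc (radMass stdG)⁻¹,
    mul_assoc (radMass stdG)⁻¹, mul_assoc (radMass stdG)⁻¹]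
  refine mul_le_mul_of_nonneg_left ?_ hlam
  obtain ⟨hκ, hκc⟩ := annKer_smooth 2 stdG_bound one_pos
  set ρ : Fin 4 → R4 → ℝ := fun i z => annKer 2 stdG z * z i with hρ
  have hρs : ∀ i, ContDiff ℝ ∞ (ρ i) := fun i =>
    hκ.mul (EuclideanSpace.proj i : R4 →L[ℝ] ℝ).contDiff
  have hρc : ∀ i, HasCompactSupport (ρ i) := fun i => hκc.mul_right
  have hρD : ∀ i z v, |fderiv ℝ (ρ i) z v| ≤ 10 * D * ‖v‖ := by
    intro i z v
    have hd := (hκ.differentiable (by simp) z).hasFDerivAt.mul
      (EuclideanSpace.proj i : R4 →L[ℝ] ℝ).hasFDerivAt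
    rw [show fderiv ℝ (ρ i) z v = _ from congrArg (fun T : R4 →L[ℝ] ℝ => T v) hd.fderiv]
    simp only [add_apply, smul_apply, smul_eq_mul]
    refine (abs_add_le _ _).trans ?_
    have hz : |fderiv ℝ (annKer 2 stdG) z v| * |z i| ≤ D * ‖v‖ * 9 := by
      rcases le_or_gt ‖z‖ 9 with h9 | h9
      · exact mul_le_mul ((hD stdG stdG_bound z).2 v)
          ((PiLp.norm_apply_le z i).trans h9) (abs_nonneg _) (by positivity)
      · have he : annKer 2 stdG =ᶠ[𝓝 z] fun _ => 0 := by
          filter_upwards [(isOpen_lt continuous_const continuous_norm).mem_nhds h9] with y hy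
          rw [annKer, annCut, farCut.zero_of_le_dist (by rw [dist_zero_right]; exact le_of_lt hy),
            holeCut.zero_of_le_dist (by
              rw [dist_zero_right, show holeCut.rOut = 1 / 25 from rfl]
              linarith [show (9 : ℝ) < ‖y‖ from hy]), sub_zero, zero_mul]
        rw [he.fderiv_eq]
        simp
        positivity
    have hκz : |annKer 2 stdG z| * |v i| ≤ D * ‖v‖ :=
      mul_le_mul (hD stdG stdG_bound z).1 (PiLp.norm_apply_le v i) (abs_nonneg _) hD0
    rw [abs_mul, abs_mul]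
    simp only [PiLp.proj_apply]
    rw [mul_comm |z i|]
    linarith
  have e2 : (fun z => annKer 2 stdG z * d2At f (x - z) z u w) =
      fun z => ∑ i, ρ i z * d2At f (x - z) (bvec i) u w := by
    funext z
    rw [d2At_lin f (x - z) z u w, Finset.mul_sum]
    simp only [hρ, mul_assoc]
  rw [e2, integral_finset_sum (f := fun i z => ρ i z * d2At f (x - z) (bvec i) u w) _
    fun i _ => ((hρs i).continuous.mul
    (d2At_continuous hf x (bvec i) u w)).integrable_of_hasCompactSupport (hρc i).mul_right]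
  refine (Finset.abs_sum_le_sum_abs _ _).trans
    ((Finset.sum_le_sum fun i _ => d2At_weight hf hs (hρs i) (hρc i) (hρD i) x (bvec i) u w).trans ?_)
  simp only [nbvec, one_mul, Finset.sum_const, Finset.card_univ, Fintype.card_fin,
    nsmul_eq_mul]
  exact le_of_eq (by push_cast; ring)

end Vale.Agent.P204.Full.Potential
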