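import Vale.Agent.P204.Full.Potential.PotEuc
import Vale.Agent.P204.Full.Potential.PotSrc

/-!
P204 potential theory: the gauge, a primitive of a smoothed current given by the frozen radial kernel
up to the potentials of the source.
-/

open scoped ContDiff Topology
open MeasureTheory Set Metric Filter

noncomputable section

namespace Vale.Agent.P204.Full.Potential

open Vale.Agent.P204.Full.Elliptic (qf IsKernel intOp derivKer compKer Hom ae_ne_zero wt wMass
  wt_integrable wt_integral wt_nonneg wMass_nonneg)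

variable (K : Coef)

theorem muPhi_supp (x : R4) (hx : 7 / 2 < ‖x‖) : muPhi K x = 0 :=
  innerCut_supp (f := fun x => (radMass (metG K x))⁻¹) x hx

/-- The kernel of the frozen gauge. -/
def gaugeKer : R4 → R4 → Cov →L[ℝ] ℝ := cutKer (radKer (W := ℝ) (muPhi K) (metG K))

theorem gaugeKer_kernel : ∃ C : ℕ → ℝ, IsKernel 10 C (gaugeKer K) ∧
    ∀ x z, z ≠ 0 → ‖fderiv ℝ (fun y => gaugeKer K y z) x‖ ≤ C 1 * sing 3 z :=
  cutKer_isKernel (radKer_hom (muPhi_smooth K) (muPhi_supp K) (metG_smooth K) (metG_pos K))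
    le_rfl (by norm_num)

/-- Mollified sources bound the form and its mass. -/
theorem smoothed_norm {A M d : ℝ} {S : Source M} {f : R4 → Bil} (hf : Smoothed K S A d f) (y : R4) :
    ‖f y‖ ≤ |A| * (mollM d S.ν y + mollM d (hMeas S) y) := by
  refine (hf.bound y).trans ?_
  rw [mollM_hMeas]
  exact mul_le_mul_of_nonneg_right (le_abs_self A) (add_nonneg
    (integral_nonneg fun z => Split.moll_nonneg d _)
    (integral_nonneg fun z => mul_nonneg (Split.moll_nonneg d _) (S.h_nonneg z)))

/-- The bound of the total mass. -/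
def totMass (M : ℝ) : ℝ := max M 0 + hMass M

theorem totMass_nonneg (M : ℝ) : 0 ≤ totMass M :=
  add_nonneg (le_max_right _ _) (hMass_nonneg M)

theorem source_integral {M d : ℝ} (S : Source M) (hd : 0 < d) :
    Integrable (fun y => mollM d S.ν y + mollM d (hMeas S) y) ∧
      ∫ y, (mollM d S.ν y + mollM d (hMeas S) y) ≤ totMass M := by
  have := S.finite_ν
  have i1 := (mollM_smooth hd S.supp_ν).continuous.integrable_of_hasCompactSupport
    (μ := (volume : Measure R4)) (mollM_hcs hd S.supp_ν)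
  have i2 := (mollM_smooth hd (hMeas_supp S)).continuous.integrable_of_hasCompactSupport
    (μ := (volume : Measure R4)) (mollM_hcs hd (hMeas_supp S))
  refine ⟨i1.add i2, ?_⟩
  rw [integral_add i1 i2, mollM_integral hd S.supp_ν, mollM_integral hd (hMeas_supp S)]
  exact add_le_add (S.mass.trans (le_max_left _ _)) (hMeas_mass S)

theorem smoothed_mass {A M d : ℝ} {S : Source M} {f : R4 → Bil} (hf : Smoothed K S A d f)
    (hd : 0 < d) : ∫ y, ‖f y‖ ≤ |A| * totMass M := by
  obtain ⟨hi, hle⟩ := source_integral S hd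
  refine (integral_mono_of_nonneg (Eventually.of_forall fun y => norm_nonneg _) (hi.const_mul |A|)
    (Eventually.of_forall fun y => smoothed_norm K hf y)).trans ?_
  rw [integral_const_mul]
  exact mul_le_mul_of_nonneg_left hle (abs_nonneg A)

/-- The Euclidean primitive is controlled by the cubic potentials. -/
theorem eucPrim_pot (A M : ℝ) : ∃ C : ℝ, 0 ≤ C ∧ ∀ (S : Source M) (d : ℝ) (f : R4 → Bil), 0 < d →
    Smoothed K S A d f → ∀ y : R4, ‖y‖ ≤ 4 →
      ‖eucPrim f y‖ ≤ C * (potM 3 d S.ν y + potM 3 d (hMeas S) y) := by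
  obtain ⟨C, hC0, hC⟩ := eucPrim_norm
  refine ⟨C * (|A| * singConst), mul_nonneg hC0 (mul_nonneg (abs_nonneg A) singConst_nonneg),
    fun S d f hd hf y hy => ?_⟩
  have := S.finite_ν
  refine (hC f hf.smooth hf.supp y hy).trans ?_
  rw [mul_assoc C]
  refine mul_le_mul_of_nonneg_left ?_ hC0
  have i1 := sing_mollM_integrable (μ := S.ν) (a := 3) le_rfl hd S.supp_ν y
  have i2 := sing_mollM_integrable (μ := hMeas S) (a := 3) le_rfl hd (hMeas_supp S) y
  calc ∫ z, sing 3 z * ‖f (y - z)‖
      ≤ ∫ z, |A| * (sing 3 z * mollM d S.ν (y - z) + sing 3 z * mollM d (hMeas S) (y - z)) := by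
        refine integral_mono_of_nonneg (Eventually.of_forall fun z =>
          mul_nonneg (sing_nonneg 3 z) (norm_nonneg _)) ((i1.add i2).const_mul _)
          (Eventually.of_forall fun z => ?_)
        refine (mul_le_mul_of_nonneg_left (smoothed_norm K hf _) (sing_nonneg 3 z)).trans (le_of_eq ?_)
        simp only [Pi.add_apply]
        ring
    _ ≤ |A| * (singConst * potM 3 d S.ν y + singConst * potM 3 d (hMeas S) y) := by
        rw [integral_const_mul, integral_add i1 i2]
        exact mul_le_mul_of_nonneg_left (add_le_add (sing_mollM_le le_rfl (by norm_num) hd S.supp_ν y)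
          (sing_mollM_le le_rfl (by norm_num) hd (hMeas_supp S) y)) (abs_nonneg A)
    _ = _ := by ring

/-- The cut-off primitive. -/
def cutPrim (f : R4 → Bil) (y : R4) : Cov := chiCut y • eucPrim f y

theorem cutPrim_supp (f : R4 → Bil) (y : R4) (hy : 27 / 10 ≤ ‖y‖) : cutPrim f y = 0 := by
  rw [cutPrim, chiCut.zero_of_le_dist (by rw [dist_zero_right]; exact hy)]
  exact zero_smul ℝ _

theorem cutPrim_smooth {f : R4 → Bil} (hf : ContDiff ℝ ∞ f) (hs : ∀ y, 15 / 4 < ‖y‖ → f y = 0) :
    ContDiff ℝ ∞ (cutPrim f) :=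
  chiCut.contDiff.smul (eucPrim_smooth hf hs)

theorem cutPrim_norm (f : R4 → Bil) (y : R4) : ‖cutPrim f y‖ ≤ ‖eucPrim f y‖ := by
  refine (norm_smul_le _ _).trans ?_
  rw [Real.norm_eq_abs, abs_of_nonneg chiCut.nonneg]
  exact mul_le_of_le_one_left (norm_nonneg _) chiCut.le_one

/-- The exterior derivative of the cut-off primitive. -/
theorem cutPrim_d (A M : ℝ) : ∃ C : ℝ, 0 ≤ C ∧ ∀ (S : Source M) (d : ℝ) (f : R4 → Bil), 0 < d →
    Smoothed K S A d f → ∀ y : R4, (‖y‖ < 13 / 5 → ‖d1At (cutPrim f) y - f y‖ ≤ C) ∧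
      ‖d1At (cutPrim f) y - f y‖ ≤ C * (mollM d S.ν y + mollM d (hMeas S) y +
        (ball (0 : R4) 4).indicator (fun w => 1 + potM 3 d S.ν w + potM 3 d (hMeas S) w) y) := by
  obtain ⟨C0, hC0, hE⟩ := eucPrim_d
  obtain ⟨C1, hC1, hP⟩ := eucPrim_pot K A M
  obtain ⟨L, hL⟩ := (chiCut.hasCompactSupport.fderiv (𝕜 := ℝ)).exists_bound_of_continuous
    (chiCut.contDiff.continuous_fderiv (n := 1) one_ne_zero)
  have hL0 : 0 ≤ L := (norm_nonneg _).trans (hL 0)
  set F0 := C0 * (|A| * totMass M) with hF0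
  have hF00 : 0 ≤ F0 := mul_nonneg hC0 (mul_nonneg (abs_nonneg A) (totMass_nonneg M))
  refine ⟨F0 + (|A| + |A|) + 2 * L * C1, by positivity, fun S d f hd hf y => ?_⟩
  have := S.finite_ν
  have hAm : ‖f y‖ ≤ |A| * (mollM d S.ν y + mollM d (hMeas S) y) := smoothed_norm K hf y
  have hsrc : 0 ≤ mollM d S.ν y + mollM d (hMeas S) y := add_nonneg (mollM_nonneg _ _ _) (mollM_nonneg _ _ _)
  have hE' : ‖y‖ ≤ 27 / 10 → ‖d1At (eucPrim f) y - f y‖ ≤ F0 := fun hy =>
    (hE f hf.smooth hf.supp hf.closed y hy).trans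
      (mul_le_mul_of_nonneg_left (smoothed_mass K hf hd) hC0)
  refine ⟨fun hy => ?_, ?_⟩
  · have he : cutPrim f =ᶠ[𝓝 y] eucPrim f := by
      filter_upwards [chiCut.eventuallyEq_one_of_mem_ball (mem_ball_zero_iff.2 hy)] with w hw
      rw [cutPrim, hw]
      exact one_smul ℝ _
    rw [d1At, he.fderiv_eq]
    have h1 : 0 ≤ |A| + |A| := by positivity
    have h2 : 0 ≤ 2 * L * C1 := by positivity
    exact (hE' (by linarith)).trans (by linarith)
  · set P := (ball (0 : R4) 4).indicator (fun w => 1 + potM 3 d S.ν w + potM 3 d (hMeas S) w) y with hPdef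
    have hP0 : 0 ≤ P := indicator_nonneg (fun w _ => by
      have := potM_nonneg 3 hd.le S.ν w
      have := potM_nonneg 3 hd.le (hMeas S) w
      linarith) y
    rcases lt_or_ge (27 / 10) ‖y‖ with hy | hy
    · have he : cutPrim f =ᶠ[𝓝 y] fun _ => 0 := by
        filter_upwards [(isOpen_lt continuous_const continuous_norm).mem_nhds hy] with w hw
        exact cutPrim_supp f w (le_of_lt hw)
      rw [d1At, he.fderiv_eq, fderiv_fun_const, Pi.zero_apply]
      simp only [ContinuousLinearMap.flip_zero, sub_self, zero_sub, norm_neg]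
      refine hAm.trans (mul_le_mul (by linarith [abs_nonneg A, mul_nonneg hL0 hC1]) (le_add_of_nonneg_right hP0) hsrc (by positivity))
    · have hP1 : P = 1 + potM 3 d S.ν y + potM 3 d (hMeas S) y :=
        indicator_of_mem (mem_ball_zero_iff.2 (by linarith)) _
      have hα := hP S d f hd hf y (by linarith)
      have hd' := ((chiCut.contDiff (n := 1)).differentiable one_ne_zero y).hasFDerivAt.smul
        ((eucPrim_smooth hf.smooth hf.supp).differentiable (by simp) y).hasFDerivAt
      refine ContinuousLinearMap.opNorm_le_bound₂ _ (mul_nonneg (by positivity) (add_nonneg hsrc hP0))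
        fun u w => ?_
      have e : (d1At (cutPrim f) y - f y) u w = chiCut y * (d1At (eucPrim f) y - f y) u w +
          (chiCut y - 1) * f y u w +
          (fderiv ℝ chiCut y u * eucPrim f y w - fderiv ℝ chiCut y w * eucPrim f y u) := by
        rw [show d1At (cutPrim f) y = _ from congrArg (fun T : R4 →L[ℝ] Cov => T - T.flip) hd'.fderiv]
        simp only [d1At, sub_apply, add_apply, smul_apply, ContinuousLinearMap.flip_apply,
          ContinuousLinearMap.smulRight_apply, smul_eq_mul]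
        ring
      rw [e, Real.norm_eq_abs]
      have hχ : |chiCut y - 1| ≤ 1 := abs_le.2 ⟨by linarith [chiCut.nonneg (x := y)],
        by linarith [chiCut.le_one (x := y)]⟩
      have t1 : |chiCut y * (d1At (eucPrim f) y - f y) u w| ≤ F0 * (‖u‖ * ‖w‖) := by
        rw [abs_mul, abs_of_nonneg chiCut.nonneg, ← one_mul (F0 * _), ← Real.norm_eq_abs]
        refine mul_le_mul chiCut.le_one ((((d1At (eucPrim f) y - f y).le_opNorm₂ u w)).trans ?_)
          (norm_nonneg _) zero_le_one
        rw [mul_assoc]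
        exact mul_le_mul_of_nonneg_right (hE' hy) (by positivity)
      have t2 : |(chiCut y - 1) * f y u w| ≤
          |A| * (mollM d S.ν y + mollM d (hMeas S) y) * (‖u‖ * ‖w‖) := by
        rw [abs_mul]
        refine (mul_le_of_le_one_left (abs_nonneg _) hχ).trans ?_
        rw [← Real.norm_eq_abs]
        refine ((f y).le_opNorm₂ u w).trans ?_
        rw [mul_assoc]
        exact mul_le_mul_of_nonneg_right hAm (by positivity)
      have t3 : ∀ a b : R4, |fderiv ℝ chiCut y a * eucPrim f y b| ≤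
          L * C1 * (potM 3 d S.ν y + potM 3 d (hMeas S) y) * (‖a‖ * ‖b‖) := fun a b => by
        rw [abs_mul, ← Real.norm_eq_abs, ← Real.norm_eq_abs]
        calc _ ≤ L * ‖a‖ * (C1 * (potM 3 d S.ν y + potM 3 d (hMeas S) y) * ‖b‖) :=
              mul_le_mul (((fderiv ℝ chiCut y).le_opNorm a).trans
                (mul_le_mul_of_nonneg_right (hL y) (norm_nonneg a)))
                (((eucPrim f y).le_opNorm b).trans (mul_le_mul_of_nonneg_right hα (norm_nonneg b)))
                (norm_nonneg _) (by positivity)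
          _ = _ := by ring
      refine (abs_add_le _ _).trans ((add_le_add ((abs_add_le _ _).trans (add_le_add t1 t2))
        ((abs_sub _ _).trans (add_le_add (t3 u w) (t3 w u)))).trans ?_)
      rw [mul_comm ‖w‖ ‖u‖, ← add_mul, ← add_mul, ← add_mul, mul_assoc _ ‖u‖]
      refine mul_le_mul_of_nonneg_right ?_ (by positivity)
      have := potM_nonneg 3 hd.le S.ν y
      have := potM_nonneg 3 hd.le (hMeas S) y
      have hA0 := abs_nonneg A
      rw [hP1]
      nlinarith [mul_nonneg hL0 hC1, mul_nonneg hF00 hsrc, mul_nonneg (mul_nonneg hL0 hC1) hsrc,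
        mul_nonneg hA0 hsrc]

/-- The cubic kernel against something bounded near the origin and integrable. -/
theorem sing3_near_far {R P : R4 → ℝ} {x : R4} {C : ℝ} (hP : Integrable P) (hR0 : ∀ y, 0 ≤ R y)
    (hRP : ∀ y, R y ≤ P y) (hnear : ∀ z, ‖z‖ < 1 / 10 → R (x - z) ≤ C) :
    ∫ z, sing 3 z * R (x - z) ≤ wMass / 10 * C + 1000 * ∫ y, P y := by
  have i1 : Integrable fun z => C * wt (1 / 10) z := (wt_integrable _).const_mul C
  have i2 : Integrable fun z => 1000 * P (x - z) := (hP.comp_sub_left x).const_mul _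
  calc ∫ z, sing 3 z * R (x - z) ≤ ∫ z, (C * wt (1 / 10) z + 1000 * P (x - z)) := by
        refine integral_mono_of_nonneg (Eventually.of_forall fun z => mul_nonneg (sing_nonneg 3 z) (hR0 _))
          (i1.add i2) (Eventually.of_forall fun z => ?_)
        have hPz : 0 ≤ P (x - z) := (hR0 _).trans (hRP _)
        show sing 3 z * R (x - z) ≤ C * wt (1 / 10) z + 1000 * P (x - z)
        rcases lt_or_ge ‖z‖ (1 / 10) with hz | hz
        · rw [show wt (1 / 10) z = sing 3 z from indicator_of_mem (mem_ball_zero_iff.2 hz) _,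
            mul_comm C]
          exact le_add_of_le_of_nonneg (mul_le_mul_of_nonneg_left (hnear z hz) (sing_nonneg 3 z))
            (by positivity)
        · rw [show wt (1 / 10) z = 0 from indicator_of_notMem
            (fun h => (mem_ball_zero_iff.1 h).not_ge hz) _, mul_zero, zero_add]
          refine mul_le_mul ?_ (hRP _) (hR0 _) (by norm_num)
          calc sing 3 z ≤ (((1 : ℝ) / 10) ^ 3)⁻¹ :=
                inv_anti₀ (by norm_num) (pow_le_pow_left₀ (by norm_num) hz 3)
            _ = 1000 := by norm_num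
    _ = _ := by
        rw [integral_add i1 i2, integral_const_mul, integral_const_mul, wt_integral (by norm_num),
          integral_sub_left_eq_self P volume x]
        ring

/-- The defect of the frozen kernel on the cut-off primitive. -/
theorem cutPrim_defect (A M : ℝ) : ∃ C : ℝ, 0 ≤ C ∧ ∀ (S : Source M) (d : ℝ) (f : R4 → Bil), 0 < d →
    Smoothed K S A d f → ∀ x : R4, ‖x‖ ≤ 5 / 2 →
      ∫ z, sing 3 z * ‖d1At (cutPrim f) (x - z) - f (x - z)‖ ≤ C := by
  obtain ⟨C, hC0, hC⟩ := cutPrim_d K A M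
  have hu := unitVol_nonneg
  have hw := wMass_nonneg
  have hm := totMass_nonneg M
  refine ⟨wMass / 10 * C + 1000 * (C * (totMass M +
    (unitVol * 4 ^ 4 + 132 * unitVol * totMass M))), by positivity, fun S d f hd hf x hx => ?_⟩
  have := S.finite_ν
  obtain ⟨hi, hle⟩ := source_integral S hd
  have j1 : Integrable (potM 3 d S.ν) volFour := (potM_bdd 3 hd _).integrable _
  have j2 : Integrable (potM 3 d (hMeas S)) volFour := (potM_bdd 3 hd _).integrable _
  have j0 : Integrable (fun w => 1 + potM 3 d S.ν w + potM 3 d (hMeas S) w) volFour :=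
    ((integrable_const 1).add j1).add j2
  have hI : Integrable ((ball (0 : R4) 4).indicator
      fun w => 1 + potM 3 d S.ν w + potM 3 d (hMeas S) w) :=
    (integrable_indicator_iff measurableSet_ball).2 j0
  refine (sing3_near_far (x := x) ((hi.add hI).const_mul C) (fun y => norm_nonneg _)
    (fun y => (hC S d f hd hf y).2) fun z hz => (hC S d f hd hf _).1 ?_).trans ?_
  · linarith [norm_sub_le x z]
  · refine add_le_add le_rfl (mul_le_mul_of_nonneg_left ?_ (by norm_num))
    simp only [Pi.add_apply]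
    rw [integral_const_mul, integral_add hi hI, integral_indicator measurableSet_ball]
    refine mul_le_mul_of_nonneg_left (add_le_add hle ?_) hC0
    calc ∫ w in ball (0 : R4) 4, 1 + potM 3 d S.ν w + potM 3 d (hMeas S) w
        = volFour.real univ + (∫ w in ball (0 : R4) 4, potM 3 d S.ν w) +
            ∫ w in ball (0 : R4) 4, potM 3 d (hMeas S) w := by
          show ∫ w, _ ∂volFour = _
          rw [integral_add (f := fun w => 1 + potM 3 d S.ν w) ((integrable_const 1).add j1) j2,
            integral_add (integrable_const 1) j1,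
            integral_const, smul_eq_mul, mul_one]
          rfl
      _ ≤ unitVol * 4 ^ 4 + 132 * unitVol * max M 0 + 132 * unitVol * hMass M :=
          add_le_add (add_le_add volFour_univ ((potM3_ball4 hd).trans (mul_le_mul_of_nonneg_left
            (S.mass.trans (le_max_left _ _)) (by positivity))))
            ((potM3_ball4 hd).trans (mul_le_mul_of_nonneg_left (hMeas_mass S) (by positivity)))
      _ = _ := by rw [totMass]; ring

/-- The gauge function. -/
def gaugeFun (f : R4 → Bil) : R4 → ℝ := intOp (gaugeKer K) (cutPrim f)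

/-- The primitive. -/
def primFun (f : R4 → Bil) (y : R4) : Cov := eucPrim f y - fderiv ℝ (gaugeFun K f) y

theorem gaugeFun_smooth {f : R4 → Bil} (hf : ContDiff ℝ ∞ f) (hs : ∀ y, 15 / 4 < ‖y‖ → f y = 0) :
    ContDiff ℝ ∞ (gaugeFun K f) := by
  obtain ⟨Ck, hk, -⟩ := gaugeKer_kernel K
  have has : ∀ y, 15 / 4 < ‖y‖ → cutPrim f y = 0 := fun y hy => cutPrim_supp f y (by linarith)
  obtain ⟨Ba, hBa⟩ := bddDerivs (cutPrim_smooth hf hs) (hcs_of_supp has)
  exact Elliptic.intOp_contDiff hk (by norm_num) (cutPrim_smooth hf hs) hBa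

theorem primFun_smooth {f : R4 → Bil} (hf : ContDiff ℝ ∞ f) (hs : ∀ y, 15 / 4 < ‖y‖ → f y = 0) :
    ContDiff ℝ ∞ (primFun K f) :=
  (eucPrim_smooth hf hs).sub ((gaugeFun_smooth K hf hs).fderiv_right (by simp))

theorem primFun_d {f : R4 → Bil} (hf : ContDiff ℝ ∞ f) (hs : ∀ y, 15 / 4 < ‖y‖ → f y = 0) (x : R4) :
    d1At (primFun K f) x = d1At (eucPrim f) x := by
  have hd2 : fderiv ℝ (primFun K f) x =
      fderiv ℝ (eucPrim f) x - fderiv ℝ (fderiv ℝ (gaugeFun K f)) x :=
    fderiv_sub ((eucPrim_smooth hf hs).differentiable (by simp) x)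
      (((gaugeFun_smooth K hf hs).fderiv_right (m := ∞) (by simp)).differentiable (by simp) x)
  have hsym := ((gaugeFun_smooth K hf hs).contDiffAt (x := x)).isSymmSndFDerivAt
    (by rw [minSmoothness_of_isRCLikeNormedField]; exact WithTop.coe_le_coe.2 le_top)
  ext u w
  simp only [d1At, hd2, sub_apply, ContinuousLinearMap.flip_apply]
  rw [hsym.eq u w]
  ring

/-- The gauge turns the primitive into the frozen radial kernel, up to two remainders. -/
theorem primFun_eq {f : R4 → Bil} (hf : ContDiff ℝ ∞ f) (hs : ∀ y, 15 / 4 < ‖y‖ → f y = 0) {x : R4}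
    (hx : ‖x‖ ≤ 5 / 2) (v : R4) :
    primFun K f x v - muPhi K x * ∫ z, (qf (metG K x) z ^ 2)⁻¹ * f (x - z) z v =
      muPhi K x * (∫ z, (qf (metG K x) z ^ 2)⁻¹ * (d1At (cutPrim f) (x - z) - f (x - z)) z v) -
        intOp (derivKer (gaugeKer K)) (cutPrim f) x v := by
  obtain ⟨c, Cg, hc, -, hgb, -⟩ := metG_bound K
  obtain ⟨Ck, hk, -⟩ := gaugeKer_kernel K
  set g := metG K x with hg
  have hgx : MetBound c Cg g := hgb x
  have hx4 : ‖x‖ ≤ 4 := by linarith
  set a := cutPrim f with ha
  have has : ∀ y, 15 / 4 < ‖y‖ → a y = 0 := fun y hy => cutPrim_supp f y (by linarith)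
  have hasm : ContDiff ℝ ∞ a := cutPrim_smooth hf hs
  obtain ⟨Ba, hBa⟩ := bddDerivs hasm (hcs_of_supp has)
  obtain ⟨Bf, hBf⟩ := (hcs_of_supp hs).exists_bound_of_continuous hf.continuous
  have hax : a x = eucPrim f x := by
    rw [ha, cutPrim, chiCut.one_of_mem_closedBall (mem_closedBall_zero_iff.2
      (show ‖x‖ ≤ 13 / 5 by linarith))]
    exact one_smul ℝ _
  set μ := muPhi K x with hμ
  have hμl : μ * radMass g = 1 := by
    rw [hμ, muPhi, innerCut_one (by linarith), one_mul]
    exact inv_mul_cancel₀ (radMass_pos (metG_symm K x) (metG_pos K x)).ne'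
  have hcd : Continuous fun z => fderiv ℝ a (x - z) :=
    (hasm.continuous_fderiv (by simp)).comp (continuous_const.sub continuous_id)
  have hcf : Continuous fun z => f (x - z) := hf.continuous.comp (continuous_const.sub continuous_id)
  have hdz : ∀ z, 8 ≤ ‖z‖ → fderiv ℝ a (x - z) = 0 := fun z hz => far_zero (fderiv_supp has) hx4 hz
  have hfz : ∀ z, 8 ≤ ‖z‖ → f (x - z) = 0 := fun z hz => far_zero hs hx4 hz
  have hB1 : ∀ y, ‖fderiv ℝ a y‖ ≤ Ba 1 := fun y => by simpa [norm_iteratedFDeriv_one] using hBa 1 y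
  have iA : Integrable fun z => (qf g z ^ 2)⁻¹ * fderiv ℝ a (x - z) z v :=
    rad_integrable hgx hc ((hcd.clm_apply continuous_id).clm_apply continuous_const).measurable
      (B := Ba 1 * ‖v‖) (fun z => by
        rw [← Real.norm_eq_abs]
        refine ((fderiv ℝ a (x - z)).le_opNorm₂ z v).trans ?_
        calc ‖fderiv ℝ a (x - z)‖ * ‖z‖ * ‖v‖ ≤ Ba 1 * ‖z‖ * ‖v‖ := by gcongr; exact hB1 _
          _ = _ := by ring)
      fun z hz => by simp [hdz z hz]
  have iB : Integrable fun z => (qf g z ^ 2)⁻¹ * fderiv ℝ a (x - z) v z :=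
    rad_integrable hgx hc ((hcd.clm_apply continuous_const).clm_apply continuous_id).measurable
      (B := Ba 1 * ‖v‖) (fun z => by
        rw [← Real.norm_eq_abs]
        refine ((fderiv ℝ a (x - z)).le_opNorm₂ v z).trans ?_
        gcongr
        exact hB1 _)
      fun z hz => by simp [hdz z hz]
  have iF : Integrable fun z => (qf g z ^ 2)⁻¹ * f (x - z) z v :=
    rad_integrable hgx hc ((hcf.clm_apply continuous_id).clm_apply continuous_const).measurable
      (B := Bf * ‖v‖) (fun z => by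
        rw [← Real.norm_eq_abs]
        refine ((f (x - z)).le_opNorm₂ z v).trans ?_
        calc ‖f (x - z)‖ * ‖z‖ * ‖v‖ ≤ Bf * ‖z‖ * ‖v‖ := by gcongr; exact hBf _
          _ = _ := by ring)
      fun z hz => by simp [hfz z hz]
  have hrad : eucPrim f x v = μ * ∫ z, (qf g z ^ 2)⁻¹ * fderiv ℝ a (x - z) z v := by
    have hav : ContDiff ℝ ∞ fun y => a y v := hasm.clm_apply contDiff_const
    have h := radial (metG_symm K x) (metG_pos K x) hav
      (hcs_of_supp fun y hy => by simp [has y hy]) x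
    have e : ∀ y z, fderiv ℝ (fun y => a y v) y z = fderiv ℝ a y z v := fun y z => by
      have hL := (ContinuousLinearMap.apply ℝ ℝ v).hasFDerivAt.comp y
        (hasm.differentiable (by simp) y).hasFDerivAt
      exact congrArg (fun T : R4 →L[ℝ] ℝ => T z) hL.fderiv
    simp only [smul_eq_mul, e, ← hg] at h
    rw [h, ← mul_assoc, hμl, one_mul, hax]
  set T1 := intOp (derivKer (gaugeKer K)) a x v with hT1
  have hΦv : fderiv ℝ (gaugeFun K f) x v =
      T1 + μ * ∫ z, (qf g z ^ 2)⁻¹ * fderiv ℝ a (x - z) v z := by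
    rw [gaugeFun, ← ha, (hk.hasFDerivAt_intOp hasm hBa x).fderiv, add_apply, hT1]
    congr 1
    have hint := hk.compKer.integrable (hasm.continuous_fderiv (by simp)) hB1 x
    rw [← integral_const_mul]
    refine ((ContinuousLinearMap.apply ℝ ℝ v).integral_comp_comm hint).symm.trans
      (integral_congr_ae (Eventually.of_forall fun z => ?_))
    show gaugeKer K x z (fderiv ℝ a (x - z) v) = _
    rw [gaugeKer, cutKer_eq (F := fun y => fderiv ℝ a y v)
      (fun y hy => by simp [fderiv_supp has y hy]) hx4, radKer]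
    simp only [smul_apply, ContinuousLinearMap.apply_apply, smul_eq_mul, ← hg, ← hμ]
    ring
  have e2 : (∫ z, (qf g z ^ 2)⁻¹ * (d1At a (x - z) - f (x - z)) z v) =
      (∫ z, (qf g z ^ 2)⁻¹ * fderiv ℝ a (x - z) z v) -
        (∫ z, (qf g z ^ 2)⁻¹ * fderiv ℝ a (x - z) v z) -
        ∫ z, (qf g z ^ 2)⁻¹ * f (x - z) z v := by
    rw [← integral_sub iA iB]
    refine Eq.trans ?_ (integral_sub (f := fun z => (qf g z ^ 2)⁻¹ * fderiv ℝ a (x - z) z v -
      (qf g z ^ 2)⁻¹ * fderiv ℝ a (x - z) v z) (iA.sub iB) iF)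
    refine integral_congr_ae (Eventually.of_forall fun z => ?_)
    simp only [d1At, sub_apply, ContinuousLinearMap.flip_apply]
    ring
  rw [primFun, sub_apply, hrad, hΦv, e2]
  ring

/-- The defect integral. -/
theorem defect_bound {c Cg : ℝ} {g : Bil} (hgx : MetBound c Cg g) (hc : 0 < c) {f : R4 → Bil}
    (hf : ContDiff ℝ ∞ f) (hs : ∀ y, 15 / 4 < ‖y‖ → f y = 0) {x : R4} (hx : ‖x‖ ≤ 4) (v : R4) :
    |∫ z, (qf g z ^ 2)⁻¹ * (d1At (cutPrim f) (x - z) - f (x - z)) z v| ≤
      (c ^ 2)⁻¹ * ((∫ z, sing 3 z * ‖d1At (cutPrim f) (x - z) - f (x - z)‖) * ‖v‖) := by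
  set a := cutPrim f with ha
  have has : ∀ y, 15 / 4 < ‖y‖ → a y = 0 := fun y hy => cutPrim_supp f y (by linarith)
  have hcd : Continuous fun z => fderiv ℝ a (x - z) :=
    ((cutPrim_smooth hf hs).continuous_fderiv (by simp)).comp (continuous_const.sub continuous_id)
  have hcf : Continuous fun z => f (x - z) := hf.continuous.comp (continuous_const.sub continuous_id)
  have hz8 : ∀ z : R4, 8 ≤ ‖z‖ → ‖d1At a (x - z) - f (x - z)‖ = 0 := fun z hz => by
    simp [d1At, far_zero (fderiv_supp has) hx hz, far_zero hs hx hz]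
  have hRc : Continuous fun z => ‖d1At a (x - z) - f (x - z)‖ :=
    ((hcd.sub ((ContinuousLinearMap.flipₗᵢ ℝ R4 R4 ℝ).continuous.comp hcd)).sub hcf).norm
  obtain ⟨BR, hBR⟩ := HasCompactSupport.exists_bound_of_continuous
    (HasCompactSupport.of_support_subset_isCompact (isCompact_closedBall (0 : R4) 8) fun z hz => by
      rw [mem_closedBall_zero_iff]
      by_contra hc'
      exact hz (hz8 z (not_le.1 hc').le)) hRc
  have hiR : Integrable fun z => sing 3 z * ‖d1At a (x - z) - f (x - z)‖ :=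
    sing_integrable le_rfl hRc.measurable (R := 8) (fun z => by simpa using hBR z) hz8
  rw [← Real.norm_eq_abs, ← integral_mul_const, ← integral_const_mul]
  refine norm_integral_le_of_norm_le ((hiR.mul_const ‖v‖).const_mul (c ^ 2)⁻¹) ?_
  filter_upwards [ae_ne_zero] with z hz
  have h := hgx.inv_q hc 2 hz
  rw [norm_mul, Real.norm_of_nonneg h.1]
  calc (qf g z ^ 2)⁻¹ * ‖(d1At a (x - z) - f (x - z)) z v‖
      ≤ (c ^ 2)⁻¹ * sing (2 * 2) z * (‖d1At a (x - z) - f (x - z)‖ * ‖z‖ * ‖v‖) :=
        mul_le_mul h.2 ((d1At a (x - z) - f (x - z)).le_opNorm₂ z v) (norm_nonneg _)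
          (mul_nonneg (by positivity) (sing_nonneg _ z))
    _ = _ := by
        have : ‖z‖ ≠ 0 := norm_ne_zero_iff.2 hz
        simp only [sing]
        field_simp
        ring

/-- The derivative of the gauge kernel only costs potentials. -/
theorem gauge_deriv_bound (A M : ℝ) : ∃ E : ℝ, 0 ≤ E ∧ ∀ (S : Source M) (d : ℝ) (f : R4 → Bil),
    0 < d → d ≤ 1 / 4 → Smoothed K S A d f → ∀ x : R4, ‖x‖ ≤ 5 / 2 → ∀ v : R4,
      |intOp (derivKer (gaugeKer K)) (cutPrim f) x v| ≤
        E * ‖v‖ * (1 + potM 2 d S.ν x + potF 3 d S.h x) := by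
  obtain ⟨Ck, hk, hk1⟩ := gaugeKer_kernel K
  obtain ⟨Cp, hCp, hP⟩ := eucPrim_pot K A M
  have hw := wMass_nonneg
  have hcc := convConst_nonneg
  have hm := totMass_nonneg M
  have hk10 := hk.nonneg 1
  refine ⟨Ck 1 * (Cp * (8 * (wMass + convConst) * (10 + totMass M))), by positivity,
    fun S d f hd hd4 hf x hx v => ?_⟩
  have := S.finite_ν
  have hd1 : d ≤ 1 := by linarith
  have hx4 : ‖x‖ ≤ 4 := by linarith
  set Q1 := (ball (0 : R4) 4).indicator (potM 3 d S.ν) with hQ1
  set Q2 := (ball (0 : R4) 4).indicator (potM 3 d (hMeas S)) with hQ2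
  have hQi : ∀ (ρ : Measure R4) [IsFiniteMeasure ρ], Integrable fun z =>
      sing 3 z * (ball (0 : R4) 4).indicator (potM 3 d ρ) (x - z) := fun ρ _ => by
    have hb := (potM_bdd 3 hd ρ).indicator (measurableSet_ball (x := (0 : R4)) (ε := 4))
    obtain ⟨B, hB⟩ := hb.bound
    refine sing_integrable le_rfl (hb.meas.comp (measurable_const.sub measurable_id)) (R := 8)
      (fun z => hB _) fun z hz => indicator_of_notMem ?_ _
    rw [mem_ball_zero_iff, not_lt]
    linarith [norm_sub_norm_le z x, norm_sub_rev z x]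
  have ea : ∀ y, ‖cutPrim f y‖ ≤ Cp * (Q1 y + Q2 y) := fun y => by
    rcases lt_or_ge ‖y‖ 4 with hy | hy
    · rw [hQ1, hQ2, indicator_of_mem (mem_ball_zero_iff.2 hy),
        indicator_of_mem (mem_ball_zero_iff.2 hy)]
      exact (cutPrim_norm f y).trans (hP S d f hd hf y hy.le)
    · have hn : y ∉ ball (0 : R4) 4 := by rw [mem_ball_zero_iff, not_lt]; exact hy
      rw [hQ1, hQ2, indicator_of_notMem hn, indicator_of_notMem hn, cutPrim_supp f y (by linarith),
        norm_zero, add_zero, mul_zero]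
  rw [← Real.norm_eq_abs]
  refine (ContinuousLinearMap.le_opNorm _ v).trans ?_
  rw [mul_right_comm]
  refine mul_le_mul_of_nonneg_right ?_ (norm_nonneg v)
  refine (norm_integral_le_of_norm_le (((hQi S.ν).add (hQi (hMeas S))).const_mul (Ck 1 * Cp)) ?_).trans ?_
  · filter_upwards [ae_ne_zero] with z hz
    refine (ContinuousLinearMap.le_opNorm _ _).trans ?_
    rw [Elliptic.derivKer, LinearIsometryEquiv.norm_map]
    calc _ ≤ Ck 1 * sing 3 z * (Cp * (Q1 (x - z) + Q2 (x - z))) :=
          mul_le_mul (hk1 x z hz) (ea _) (norm_nonneg _) (mul_nonneg hk10 (sing_nonneg 3 z))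
      _ = _ := by simp only [Pi.add_apply, hQ1, hQ2]; ring
  · rw [integral_const_mul, integral_add' (hQi S.ν) (hQi (hMeas S))]
    refine (mul_le_mul_of_nonneg_left (add_le_add (sing_potM_le (μ := S.ν) hd hd1 x)
      (sing_potM_le (μ := hMeas S) hd hd1 x)) (mul_nonneg hk10 hCp)).trans ?_
    rw [← mul_add (8 * (wMass + convConst))]
    simp only [mul_assoc]
    refine mul_le_mul_of_nonneg_left (mul_le_mul_of_nonneg_left ?_ hCp) hk10
    refine mul_le_mul_of_nonneg_left (mul_le_mul_of_nonneg_left ?_ (by positivity)) (by norm_num)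
    have p2 := potM2_hMeas_le S hd hd1 hx4
    have m1 : S.ν.real univ ≤ max M 0 := S.mass.trans (le_max_left _ _)
    have m2 := hMeas_mass S
    have m3 : totMass M = max M 0 + hMass M := rfl
    have n2 := potM_nonneg 2 hd.le S.ν x
    have n3 : 0 ≤ potF 3 d S.h x :=
      integral_nonneg fun z => mul_nonneg (ker_nonneg 3 hd.le _) (S.h_nonneg z)
    have := mul_nonneg hm n2
    have := mul_nonneg hm n3
    rw [mul_add (10 + totMass M), mul_add (10 + totMass M), mul_one, add_mul (10 : ℝ), add_mul (10 : ℝ)]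
    linarith

/-- The gauge. -/
theorem gauge_bound (A M : ℝ) : ∃ C : ℝ, ∀ (S : Source M) (d : ℝ) (f : R4 → Bil), 0 < d → d ≤ 1 / 4 →
    Smoothed K S A d f → ∃ α : R4 → Cov, ContDiff ℝ ∞ α ∧ ∀ x : R4, ‖x‖ ≤ 5 / 2 →
      ‖d1At α x - f x‖ ≤ C ∧ ∀ v : R4,
        |α x v - muPhi K x * ∫ z, (qf (metG K x) z ^ 2)⁻¹ * f (x - z) z v| ≤
          C * ‖v‖ * (1 + potM 2 d S.ν x + potF 3 d S.h x) := by
  obtain ⟨c, Cg, hc, -, hgb, -⟩ := metG_bound K
  obtain ⟨Cμ, hCμ⟩ := (isCompact_closedBall (0 : R4) 4).exists_bound_of_continuousOn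
    (muPhi_smooth K).continuous.continuousOn
  obtain ⟨Cd, hCd, hD⟩ := cutPrim_defect K A M
  obtain ⟨C0, hC0, hE⟩ := eucPrim_d
  obtain ⟨E, hE0, hT⟩ := gauge_deriv_bound K A M
  have hCμ0 : 0 ≤ Cμ := (norm_nonneg _).trans (hCμ 0 (by simp))
  have hm := totMass_nonneg M
  set Ka := C0 * (|A| * totMass M) with hKa
  set Kb := Cμ * ((c ^ 2)⁻¹ * Cd) with hKb
  have hKa0 : 0 ≤ Ka := by positivity
  have hKb0 : 0 ≤ Kb := by positivity
  refine ⟨Ka + Kb + E, fun S d f hd hd4 hf => ?_⟩
  refine ⟨primFun K f, primFun_smooth K hf.smooth hf.supp, fun x hx => ⟨?_, fun v => ?_⟩⟩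
  · rw [primFun_d K hf.smooth hf.supp]
    refine ((hE f hf.smooth hf.supp hf.closed x (by linarith)).trans
      (mul_le_mul_of_nonneg_left (smoothed_mass K hf hd) hC0)).trans ?_
    linarith
  · have hx4 : ‖x‖ ≤ 4 := by linarith
    have n2 := potM_nonneg 2 hd.le S.ν x
    have n3 : 0 ≤ potF 3 d S.h x :=
      integral_nonneg fun z => mul_nonneg (ker_nonneg 3 hd.le _) (S.h_nonneg z)
    rw [primFun_eq K hf.smooth hf.supp hx v]
    refine (abs_sub _ _).trans ((add_le_add (?_ : _ ≤ Kb * ‖v‖ * 1) (hT S d f hd hd4 hf x hx v)).trans ?_)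
    · rw [abs_mul, mul_one, hKb, mul_assoc Cμ, mul_assoc ((c ^ 2)⁻¹)]
      refine mul_le_mul (hCμ x (mem_closedBall_zero_iff.2 hx4))
        ((defect_bound (hgb x) hc hf.smooth hf.supp hx4 v).trans ?_) (abs_nonneg _) hCμ0
      exact mul_le_mul_of_nonneg_left (mul_le_mul_of_nonneg_right (hD S d f hd hf x hx) (norm_nonneg v))
        (by positivity)
    · have h1 := mul_le_mul_of_nonneg_left
        (show (1 : ℝ) ≤ 1 + potM 2 d S.ν x + potF 3 d S.h x by linarith)
        (mul_nonneg hKb0 (norm_nonneg v))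
      have h2 : 0 ≤ Ka * ‖v‖ * (1 + potM 2 d S.ν x + potF 3 d S.h x) := by positivity
      calc Kb * ‖v‖ * 1 + E * ‖v‖ * (1 + potM 2 d S.ν x + potF 3 d S.h x)
          ≤ Ka * ‖v‖ * (1 + potM 2 d S.ν x + potF 3 d S.h x) +
            Kb * ‖v‖ * (1 + potM 2 d S.ν x + potF 3 d S.h x) +
            E * ‖v‖ * (1 + potM 2 d S.ν x + potF 3 d S.h x) := by linarith
        _ = _ := by ring

end Vale.Agent.P204.Full.Potential
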