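import Vale.Agent.P204.Full.Elliptic.Newton
import Vale.Agent.P204.Full.Base.Flat

/-!
P204 potential theory: the radial identity `∫ ∂φ(x - z) z / g(z,z)² dz = const · φ(x)` on `ℝ⁴`.
-/

open scoped ContDiff Topology
open MeasureTheory Set Metric Filter

noncomputable section

namespace Vale.Agent.P204.Full.Potential

open Vale.Agent.P204.Full.Elliptic

/-- The mass of the radial kernel. -/
def radMass (g : Bil) : ℝ := 4 * (stdMass / Real.sqrt (gdet g))

theorem radMass_pos {g : Bil} (hs : ∀ u v, g u v = g v u) (hp : ∀ v, v ≠ 0 → 0 < g v v) :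
    0 < radMass g := by
  obtain ⟨L, hL⟩ := exists_orthoFrame g hs hp
  exact mul_pos (by norm_num) (div_pos stdMass_pos (Real.sqrt_pos.2 (gdet_pos hL)))

theorem hasFDerivAt_sq_inv {g : Bil} (hs : ∀ u v, g u v = g v u) {ε : ℝ} {z : R4}
    (hz : qf g z + ε ≠ 0) :
    HasFDerivAt (fun y => ((qf g y + ε) ^ 2)⁻¹) ((-4 / (qf g z + ε) ^ 3) • g z) z := by
  refine ((hasDerivAt_inv (pow_ne_zero 2 hz)).comp_hasFDerivAt z
    (((hasFDerivAt_qf g hs z).add_const ε).pow 2)).congr_fderiv ?_
  ext v
  simp
  field_simp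
  ring

variable {W : Type} [NormedAddCommGroup W] [NormedSpace ℝ W]

theorem coord_sum (T : R4 →L[ℝ] W) (z : R4) : T z = ∑ i, z i • T (bvec i) := by
  conv_lhs => rw [Base.vec_expand z]
  simp [map_sum, map_smul]

variable [CompleteSpace W]

/-- The radial identity. -/
theorem radial {g : Bil} (hs : ∀ u v, g u v = g v u) (hp : ∀ v, v ≠ 0 → 0 < g v v) {φ : R4 → W}
    (hφ : ContDiff ℝ ∞ φ) (hc : HasCompactSupport φ) (x : R4) :
    ∫ z, ((qf g z ^ 2)⁻¹) • fderiv ℝ φ (x - z) z = radMass g • φ x := by
  obtain ⟨L, hL⟩ := exists_orthoFrame g hs hp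
  obtain ⟨R0, hR0, hsub⟩ : ∃ R0 : ℝ, 0 ≤ R0 ∧ tsupport φ ⊆ closedBall 0 R0 := by
    obtain ⟨R0, h⟩ := hc.isCompact.isBounded.subset_closedBall (0 : R4)
    exact ⟨max R0 0, le_max_right _ _, h.trans (closedBall_subset_closedBall (le_max_left _ _))⟩
  set R := ‖x‖ + R0 + 1 with hR
  have hRpos : 0 < R := by positivity
  let θ : ContDiffBump (0 : R4) := ⟨R, R + 1, hRpos, by linarith⟩
  have hq : ∀ z, 0 ≤ qf g z := qf_nonneg hp
  set ε : ℕ → ℝ := fun n => (1 / ((n : ℝ) + 1)) ^ 2 with hεdef
  have hε : ∀ n, 0 < ε n := fun n => by simp only [hεdef]; positivity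
  have hne : ∀ n z, qf g z + ε n ≠ 0 := fun n z => by have := hq z; have := hε n; linarith
  set k : ℕ → R4 → ℝ := fun n z => θ z * ((qf g z + ε n) ^ 2)⁻¹ with hk
  have hksm : ∀ n, ContDiff ℝ ∞ (k n) := fun n => θ.contDiff.mul
    ((((contDiff_qf g).add contDiff_const).pow 2).inv fun z => pow_ne_zero 2 (hne n z))
  have hkc : ∀ n, HasCompactSupport (k n) := fun n => θ.hasCompactSupport.mul_right
  have hnear : ∀ z, φ (x - z) ≠ 0 → ‖z‖ < R := fun z hz => by
    have := mem_closedBall_zero_iff.1 (hsub (subset_closure hz))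
    linarith [norm_sub_norm_le z x, norm_sub_rev z x]
  have hnear' : ∀ z, fderiv ℝ φ (x - z) ≠ 0 → ‖z‖ < R := fun z hz => by
    have := mem_closedBall_zero_iff.1 (hsub (support_fderiv_subset ℝ (f := φ) hz))
    linarith [norm_sub_norm_le z x, norm_sub_rev z x]
  have hdc : Continuous fun z => fderiv ℝ φ (x - z) :=
    (hφ.continuous_fderiv (by simp)).comp (continuous_const.sub continuous_id)
  -- integration by parts
  have step : ∀ n, ∫ z, k n z • fderiv ℝ φ (x - z) z =
      (4 : ℝ) • ∫ z, (θ z * (ε n / (qf g z + ε n) ^ 3)) • φ (x - z) := by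
    intro n
    set a : Fin 4 → R4 → ℝ := fun i z => k n z * z i with ha
    have hproj : ∀ i, ContDiff ℝ ∞ fun z : R4 => z i := fun i =>
      (EuclideanSpace.proj i : R4 →L[ℝ] ℝ).contDiff
    have hasm : ∀ i, ContDiff ℝ ∞ (a i) := fun i => (hksm n).mul (hproj i)
    have hac : ∀ i, HasCompactSupport (a i) := fun i => (hkc n).mul_right
    have i1 : ∀ i ∈ (Finset.univ : Finset (Fin 4)),
        Integrable fun z => a i z • fderiv ℝ φ (x - z) (bvec i) := fun i _ =>
      ((hasm i).continuous.smul (hdc.clm_apply continuous_const)).integrable_of_hasCompactSupport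
        (hac i).smul_right
    have i2 : ∀ i ∈ (Finset.univ : Finset (Fin 4)),
        Integrable fun z => fderiv ℝ (a i) z (bvec i) • φ (x - z) := fun i _ =>
      ((((hasm i).continuous_fderiv (by simp)).clm_apply continuous_const).smul
        (hφ.continuous.comp (continuous_const.sub continuous_id))).integrable_of_hasCompactSupport
          ((hac i).fderiv_apply ℝ (bvec i)).smul_right
    calc ∫ z, k n z • fderiv ℝ φ (x - z) z = ∫ z, ∑ i, a i z • fderiv ℝ φ (x - z) (bvec i) := by
          congr 1
          funext z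
          rw [coord_sum (fderiv ℝ φ (x - z)) z, Finset.smul_sum]
          simp only [ha, mul_smul]
      _ = ∑ i, ∫ z, fderiv ℝ (a i) z (bvec i) • φ (x - z) := by
          rw [integral_finsetSum _ i1]
          exact Finset.sum_congr rfl fun i _ => byParts_smooth (hasm i) (hac i) hφ x (bvec i)
      _ = ∫ z, (4 : ℝ) • ((θ z * (ε n / (qf g z + ε n) ^ 3)) • φ (x - z)) := by
          rw [← integral_finsetSum _ i2]
          congr 1
          funext z
          rw [← Finset.sum_smul, smul_smul]
          rcases eq_or_ne (φ (x - z)) 0 with h0 | h0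
          · rw [h0, smul_zero, smul_zero]
          congr 1
          have hzR := hnear z h0
          have hev : k n =ᶠ[𝓝 z] fun y => ((qf g y + ε n) ^ 2)⁻¹ := by
            filter_upwards [isOpen_ball.mem_nhds (mem_ball_zero_iff.2 hzR : z ∈ ball (0 : R4) R)]
              with y hy
            rw [hk]
            simp only [θ.one_of_mem_closedBall (ball_subset_closedBall hy), one_mul]
          have hkd := (hasFDerivAt_sq_inv hs (hne n z)).congr_of_eventuallyEq hev
          have hai : ∀ i, fderiv ℝ (a i) z (bvec i) =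
              k n z + z i * ((-4 / (qf g z + ε n) ^ 3) * g z (bvec i)) := fun i => by
            have h := (hkd.mul ((EuclideanSpace.proj i : R4 →L[ℝ] ℝ).hasFDerivAt (x := z))).fderiv
            exact (congrArg (fun T : R4 →L[ℝ] ℝ => T (bvec i)) h).trans (by simp [bvec])
          have hsum : ∑ i, z i * ((-4 / (qf g z + ε n) ^ 3) * g z (bvec i)) =
              (-4 / (qf g z + ε n) ^ 3) * qf g z := by
            rw [qf, coord_sum (g z) z, Finset.mul_sum]
            exact Finset.sum_congr rfl fun i _ => by rw [smul_eq_mul]; ring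
          rw [Finset.sum_congr rfl fun i _ => hai i, Finset.sum_add_distrib, hsum, hev.eq_of_nhds,
            θ.one_of_mem_closedBall (mem_closedBall_zero_iff.2 hzR.le)]
          have := hne n z
          simp
          field_simp
          ring
      _ = _ := integral_smul _ _
  -- the two limits
  obtain ⟨B, hB⟩ := (hc.fderiv (𝕜 := ℝ)).exists_bound_of_continuous (hφ.continuous_fderiv (by simp))
  obtain ⟨B', hB'⟩ := hc.exists_bound_of_continuous hφ.continuous
  set l := ‖(L : R4 →L[ℝ] R4)‖ with hl
  have t1 : Tendsto (fun n => ∫ z, k n z • fderiv ℝ φ (x - z) z) atTop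
      (𝓝 (∫ z, ((qf g z ^ 2)⁻¹) • fderiv ℝ φ (x - z) z)) := by
    refine tendsto_integral_of_dominated_convergence (fun z => l ^ 4 * B * wt R z)
      (fun n => ((hksm n).continuous.smul (hdc.clm_apply continuous_id)).aestronglyMeasurable)
      ((wt_integrable R).const_mul _) (fun n => ?_) ?_
    · filter_upwards [ae_ne_zero] with z hz
      have hw := wt_nonneg R z
      have hB0 : 0 ≤ B := (norm_nonneg _).trans (hB 0)
      by_cases h0 : fderiv ℝ φ (x - z) = 0
      · rw [h0]
        simp
        positivity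
      · have hz0 : 0 < ‖z‖ := norm_pos_iff.2 hz
        have hzR := hnear' z h0
        have hq0 : 0 < qf g z := hp z hz
        have he : wt R z = (‖z‖ ^ 3)⁻¹ := indicator_of_mem (by simpa using hzR) _
        have hk1 : |k n z| ≤ l ^ 4 * (‖z‖ ^ 4)⁻¹ := by
          have := hε n
          rw [hk, abs_mul, abs_of_nonneg θ.nonneg, abs_of_nonneg (by positivity)]
          calc θ z * ((qf g z + ε n) ^ 2)⁻¹ ≤ 1 * (qf g z ^ 2)⁻¹ :=
                mul_le_mul θ.le_one (inv_anti₀ (by positivity) (pow_le_pow_left₀ hq0.le (by linarith) 2))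
                  (by positivity) zero_le_one
            _ ≤ l ^ 4 * (‖z‖ ^ 4)⁻¹ := by
                rw [one_mul, ← div_eq_mul_inv, le_div_iff₀ (by positivity),
                  inv_mul_le_iff₀ (by positivity)]
                have := pow_le_pow_left₀ (sq_nonneg _) (frame_lower hL z) 2
                linarith
        rw [norm_smul, Real.norm_eq_abs, he]
        calc |k n z| * ‖fderiv ℝ φ (x - z) z‖ ≤ l ^ 4 * (‖z‖ ^ 4)⁻¹ * (B * ‖z‖) :=
              mul_le_mul hk1 (((fderiv ℝ φ _).le_opNorm z).trans
                (mul_le_mul_of_nonneg_right (hB _) hz0.le)) (norm_nonneg _) (by positivity)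
          _ = _ := by field_simp
    · filter_upwards [ae_ne_zero] with z hz
      by_cases h0 : fderiv ℝ φ (x - z) = 0
      · simp [h0]
      · have hzR := hnear' z h0
        have hq0 : 0 < qf g z := hp z hz
        refine Tendsto.smul_const ?_ _
        have hk1 : (fun n => k n z) = fun n => ((qf g z + ε n) ^ 2)⁻¹ := by
          funext n
          simp only [hk, θ.one_of_mem_closedBall (mem_closedBall_zero_iff.2 hzR.le), one_mul]
        rw [hk1]
        have h1 := tendsto_sq_one_div.const_add (qf g z)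
        rw [add_zero] at h1
        exact (h1.pow 2).inv₀ (pow_ne_zero 2 hq0.ne')
  have t2 := (newton_peak hL θ.continuous (Bθ := 1)
    (fun z => by rw [abs_of_nonneg θ.nonneg]; exact θ.le_one)
    (h := fun z => φ (x - z)) (hφ.continuous.comp (continuous_const.sub continuous_id))
    (fun z => hB' _)).const_smul (4 : ℝ)
  have h0 : θ (0 : R4) = 1 := θ.one_of_mem_closedBall (mem_closedBall_self θ.rIn_pos.le)
  rw [h0, one_mul, sub_zero, smul_smul] at t2
  exact tendsto_nhds_unique t1 (t2.congr fun n => (step n).symm)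

end Vale.Agent.P204.Full.Potential
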