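import Vale.Agent.P204.Full.Common.Inst

/-!
Interface between the potential theory on the model space (module Potential) and the splitting
(module Split). No manifold occurs here.
-/

open scoped ContDiff
open MeasureTheory Set Metric

noncomputable section

namespace Vale.Agent.P204.Full.Potential

/-- A smooth almost Hermitian structure on the ball of radius four. -/
structure Coef where
  J : R4 → Endo
  om : R4 → Bil
  J_smooth : ContDiffOn ℝ ∞ J (ball 0 4)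
  om_smooth : ContDiffOn ℝ ∞ om (ball 0 4)
  J_sq : ∀ x ∈ ball (0 : R4) 4, ∀ v, J x (J x v) = -v
  om_alt : ∀ x ∈ ball (0 : R4) 4, IsAlt (om x)
  om_inv : ∀ x ∈ ball (0 : R4) 4, pullBil (J x) (om x) = om x
  om_pos : ∀ x ∈ ball (0 : R4) 4, ∀ v, v ≠ 0 → 0 < om x v (J x v)
  om_top : ∀ x ∈ ball (0 : R4) 4, 0 < top22 (om x) (om x)

/-- Normalised mollifier of radius `d`. -/
def moll (d : ℝ) (z : R4) : ℝ := (d ^ 4)⁻¹ * coreBump.normed volume ((2 * d⁻¹) • z) * 16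

/-- The kernel `(|z| + d)⁻ᵃ`. -/
def ker (a : ℕ) (d : ℝ) (z : R4) : ℝ := ((‖z‖ + d) ^ a)⁻¹

/-- Potential of a measure. -/
def potM (a : ℕ) (d : ℝ) (ν : Measure R4) (x : R4) : ℝ := ∫ z, ker a d (x - z) ∂ν

/-- Potential of a function. -/
def potF (a : ℕ) (d : ℝ) (h : R4 → ℝ) (x : R4) : ℝ := ∫ z, ker a d (x - z) * h z

/-- `L = 1 + log (1/d)`. -/
def logScale (d : ℝ) : ℝ := 1 + Real.log (1 / d)

/-- Admissible data: a measure of quadratic growth and a square integrable density, near the origin. -/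
structure Source (M : ℝ) where
  ν : Measure R4
  finite_ν : IsFiniteMeasure ν
  mass : ν.real univ ≤ M
  growth : ∀ y r, 0 < r → ν.real (closedBall y r) ≤ M * r ^ 2
  supp_ν : ν (closedBall 0 (7 / 2))ᶜ = 0
  h : R4 → ℝ
  h_meas : Measurable h
  h_nonneg : ∀ z, 0 ≤ h z
  h_supp : ∀ z, 7 / 2 < ‖z‖ → h z = 0
  h_sq : MemLp h 2 volume
  h_norm : ∫ z, h z ^ 2 ≤ M

/-- The logarithmic estimates of the kernels. -/
def KernelStatement : Prop :=
  ∀ M : ℝ, ∃ C : ℝ, ∀ (S : Source M) (d : ℝ), 0 < d → d ≤ 1 / 4 →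
    (∀ x, potM 2 d S.ν x ≤ C * logScale d) ∧
    (∫ x in ball (0 : R4) 4, potM 2 d S.ν x) ≤ C ∧
    (∫ x in ball (0 : R4) 4, potM 2 d S.ν x ^ 2) ≤ C * logScale d ∧
    (∫ x in ball (0 : R4) 4, potM 3 d S.ν x ^ 2) ≤ C * logScale d ∧
    (∫ x, potF 3 d S.h x ^ 2 ∂S.ν) ≤ C * logScale d ∧
    (∫ x in ball (0 : R4) 4, potF 3 d S.h x ^ 2) ≤ C ∧
    (∫ x in ball (0 : R4) 4, (potF 3 d S.h x * potM 3 d S.ν x) ^ 2) ≤ C * logScale d ^ 2

/-- A smoothed almost (1,1) closed current: the hypotheses on `f`. -/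
structure Smoothed (K : Coef) {M : ℝ} (S : Source M) (A d : ℝ) (f : R4 → Bil) : Prop where
  smooth : ContDiff ℝ ∞ f
  alt : ∀ y, IsAlt (f y)
  supp : ∀ y, 15 / 4 < ‖y‖ → f y = 0
  bound : ∀ y, ‖f y‖ ≤ A * ((∫ z, moll d (y - z) ∂S.ν) + ∫ z, moll d (y - z) * S.h z)
  trace : ∀ x y, ‖x‖ ≤ 11 / 4 →
    |top22 (f y) (K.om x) - ∫ z, moll d (y - z) ∂S.ν| ≤
      A * ((‖x - y‖ + d) * (∫ z, moll d (y - z) ∂S.ν) + ∫ z, moll d (y - z) * S.h z)
  anti : ∀ x y, ‖x‖ ≤ 11 / 4 →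
    ‖anti20 (K.J x) (f y)‖ ≤
      A * ((‖x - y‖ + d) * (∫ z, moll d (y - z) ∂S.ν) + ∫ z, moll d (y - z) * S.h z)
  closed : ∀ y, ‖y‖ < 11 / 4 → ∀ u v w, d2At f y u v w = 0

/-- The potential and the primitive of a smoothed current. -/
def PotentialStatement : Prop :=
  ∀ (K : Coef) (A M : ℝ), ∃ C c : ℝ, 0 < c ∧ ∀ (S : Source M) (d : ℝ) (f : R4 → Bil),
    0 < d → d ≤ 1 / 4 → Smoothed K S A d f →
      ∃ (u : R4 → ℝ) (α : R4 → Cov),
        ContDiffOn ℝ ∞ u (ball 0 (21 / 8)) ∧ ContDiffOn ℝ ∞ α (ball 0 (21 / 8)) ∧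
        ∀ x, ‖x‖ ≤ 5 / 2 →
          ‖d1At α x - f x‖ ≤ C ∧
          ‖α x + (fderiv ℝ u x).comp (K.J x)‖ ≤
            C * (1 + potM 2 d S.ν x + potF 3 d S.h x) ∧
          u x ≤ C - c * potM 2 d S.ν x ∧
          -(C * (1 + potM 2 d S.ν x)) ≤ u x ∧
          ‖fderiv ℝ u x‖ ≤ C * (1 + potM 3 d S.ν x + potM 2 d S.ν x)

end Vale.Agent.P204.Full.Potential
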